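import Claimed.Agent.Lib.MR.Defs

/-!
# Box MR, file 2: elementary facts on `ext`, cells, the robust family of a datum            (architect helper13)            CONTRACT
Every `sorry` is a leaf `L-MR-*`.  Statements are frozen; auxiliary lemmas directly above your theorem (prefix `mr_`); edit only your block.
-/

set_option autoImplicit false
open MeasureTheory Set Metric
open scoped ENNReal NNReal RealInnerProductSpace Pointwise
open Claimed.Agent.BD

namespace Claimed.Agent.MR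

variable {V : Type} [NormedAddCommGroup V] [InnerProductSpace ℝ V] [FiniteDimensional ℝ V] [MeasurableSpace V] [BorelSpace V]

/-! ## data -/

theorem mr_dat_zero {C₀ : ℝ} {g : V → ℂ} (h : Dat C₀ g) {ξ : V} (hξ : ξ ∉ closedBall (0 : V) C₀) : g ξ = 0 := by
  by_contra hc
  exact hξ (mem_closedBall_zero_iff.2 (h.supp ξ hc))

/-- **LEAF L-MR-DAT.**  bounded, measurable, vanishing off a ball (`Integrable.of_bound` on the restricted measure / `IntegrableOn` + `integrableOn_iff_integrable_of_support_subset`). -/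
theorem Dat.integrable {C₀ : ℝ} {g : V → ℂ} (h : Dat C₀ g) : Integrable g := by
  obtain ⟨B, hB⟩ := h.bdd
  rw [← integrableOn_iff_integrable_of_support_subset (s := closedBall (0 : V) C₀) (fun ξ hξ => by
    by_contra hc
    exact hξ (mr_dat_zero h hc))]
  exact Measure.integrableOn_of_bounded (M := B) (isCompact_closedBall _ _).measure_lt_top.ne h.meas.aestronglyMeasurable
    (Filter.Eventually.of_forall hB)

/-- **LEAF L-MR-DAT.** -/
theorem Dat.indicator {C₀ : ℝ} {g : V → ℂ} (h : Dat C₀ g) {c : Set V} (hc : MeasurableSet c) : Dat C₀ (c.indicator g) := by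
  obtain ⟨B, hB⟩ := h.bdd
  refine ⟨h.meas.indicator hc, ⟨B, fun ξ => (norm_indicator_le_norm_self _ _).trans (hB ξ)⟩, fun ξ hξ => h.supp ξ fun h0 => hξ ?_⟩
  by_cases hm : ξ ∈ c
  · rw [indicator_of_mem hm, h0]
  · rw [indicator_of_notMem hm]

/-- **LEAF L-MR-DAT.**  multiplication by a bounded measurable function. -/
theorem Dat.mul {C₀ : ℝ} {g : V → ℂ} (h : Dat C₀ g) {m : V → ℂ} (hm : Measurable m) {B : ℝ} (hB : ∀ ξ, ‖ξ‖ ≤ C₀ → ‖m ξ‖ ≤ B) :
    Dat C₀ (fun ξ => m ξ * g ξ) := by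
  obtain ⟨B', hB'⟩ := h.bdd
  refine ⟨hm.mul h.meas, ⟨|B| * |B'|, fun ξ => ?_⟩, fun ξ hξ => h.supp ξ (right_ne_zero_of_mul hξ)⟩
  by_cases h0 : g ξ = 0
  · rw [h0, mul_zero, norm_zero]
    positivity
  · rw [norm_mul]
    exact mul_le_mul ((hB ξ (h.supp ξ h0)).trans (le_abs_self _)) ((hB' ξ).trans (le_abs_self _)) (norm_nonneg _) (abs_nonneg _)

/-- **LEAF L-MR-DAT.** -/
theorem Dat.l2_lt_top {C₀ : ℝ} {g : V → ℂ} (h : Dat C₀ g) : l2 g < ∞ := by
  obtain ⟨B, hB⟩ := h.bdd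
  unfold l2
  calc ∫⁻ ξ, ‖g ξ‖ₑ ^ (2 : ℝ) ≤ ∫⁻ ξ, (closedBall (0 : V) C₀).indicator (fun _ => ENNReal.ofReal B ^ (2 : ℝ)) ξ := by
        refine lintegral_mono fun ξ => ?_
        by_cases hξ : ξ ∈ closedBall (0 : V) C₀
        · rw [indicator_of_mem hξ]
          refine ENNReal.rpow_le_rpow ?_ (by norm_num)
          rw [← ofReal_norm]
          exact ENNReal.ofReal_le_ofReal (hB ξ)
        · rw [mr_dat_zero h hξ, enorm_zero, ENNReal.zero_rpow_of_pos (by norm_num)]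
          exact zero_le
    _ = ENNReal.ofReal B ^ (2 : ℝ) * volume (closedBall (0 : V) C₀) := by
        rw [lintegral_indicator measurableSet_closedBall, setLIntegral_const]
    _ < ∞ := ENNReal.mul_lt_top (ENNReal.rpow_lt_top_of_nonneg (by norm_num) ENNReal.ofReal_ne_top)
        (isCompact_closedBall _ _).measure_lt_top

/-- **LEAF L-MR-DAT.**  Cauchy-Schwarz on the ball: `(∫ |g|)² ≤ vol(B(0,C₀)) ∫ |g|²`. -/
theorem Dat.l1_le {C₀ : ℝ} {g : V → ℂ} (h : Dat C₀ g) :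
    (∫⁻ ξ, ‖g ξ‖ₑ) ^ (2 : ℝ) ≤ volume (closedBall (0 : V) C₀) * l2 g := by
  have h1 : ∫⁻ ξ, ‖g ξ‖ₑ = ∫⁻ ξ, (closedBall (0 : V) C₀).indicator (fun _ => (1 : ℝ≥0∞)) ξ * ‖g ξ‖ₑ := by
    refine lintegral_congr fun ξ => ?_
    by_cases hξ : ξ ∈ closedBall (0 : V) C₀
    · rw [indicator_of_mem hξ, one_mul]
    · rw [mr_dat_zero h hξ, enorm_zero, mul_zero]
  have h2 := ENNReal.lintegral_mul_le_Lp_mul_Lq (volume : Measure V) Real.HolderConjugate.two_two
    ((measurable_const.indicator measurableSet_closedBall).aemeasurable (f := (closedBall (0 : V) C₀).indicator (fun _ => (1 : ℝ≥0∞))))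
    h.meas.enorm.aemeasurable
  have h3 : ∫⁻ ξ, (closedBall (0 : V) C₀).indicator (fun _ => (1 : ℝ≥0∞)) ξ ^ (2 : ℝ) = volume (closedBall (0 : V) C₀) := by
    rw [← lintegral_indicator_one measurableSet_closedBall]
    refine lintegral_congr fun ξ => ?_
    by_cases hξ : ξ ∈ closedBall (0 : V) C₀
    · simp [indicator_of_mem hξ]
    · simp [indicator_of_notMem hξ]
  rw [h1]
  refine (ENNReal.rpow_le_rpow h2 (by norm_num : (0 : ℝ) ≤ 2)).trans (le_of_eq ?_)
  rw [ENNReal.mul_rpow_of_nonneg _ _ (by norm_num), ← ENNReal.rpow_mul, ← ENNReal.rpow_mul, h3,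
    show (1 / 2 : ℝ) * 2 = 1 by norm_num, ENNReal.rpow_one, ENNReal.rpow_one]
  rfl

/-! ## the extension operator -/

theorem mr_enorm_ch (θ : ℝ) : ‖ch θ‖ₑ = 1 := by
  rw [← ofReal_norm, norm_ch, ENNReal.ofReal_one]

theorem mr_gam_cont : Continuous (gam : V → V × ℝ) := by
  unfold gam
  fun_prop

theorem mr_pr_cont_left (w : V × ℝ) : Continuous fun z : V × ℝ => pr z w := by
  unfold pr
  fun_prop

theorem mr_int_ch {g : V → ℂ} (hg : Integrable g) (z : V × ℝ) : Integrable fun ξ => ch (pr z (gam ξ)) * g ξ := by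
  refine hg.bdd_mul (c := 1) ?_ ?_
  · exact (bdu_ch_cont.comp ((bdu_pr_cont_right z).comp mr_gam_cont)).aestronglyMeasurable
  · exact Filter.Eventually.of_forall fun ξ => (norm_ch _).le

/-- **LEAF L-MR-EXT.** -/
theorem norm_ext_le (g : V → ℂ) (z : V × ℝ) : ‖ext g z‖ₑ ≤ ∫⁻ ξ, ‖g ξ‖ₑ := by
  unfold ext
  refine (enorm_integral_le_lintegral_enorm _).trans (le_of_eq ?_)
  refine lintegral_congr fun ξ => ?_
  rw [enorm_mul, mr_enorm_ch, one_mul]

/-- **LEAF L-MR-EXT.**  `continuous_of_dominated`. -/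
theorem ext_continuous {g : V → ℂ} (hg : Integrable g) : Continuous (ext g) := by
  unfold ext
  refine continuous_of_dominated (bound := fun ξ => ‖g ξ‖) (fun z => (mr_int_ch hg z).aestronglyMeasurable) (fun z => ?_) hg.norm ?_
  · exact Filter.Eventually.of_forall fun ξ => by rw [norm_mul, norm_ch, one_mul]
  · exact Filter.Eventually.of_forall fun ξ => (bdu_ch_cont.comp (mr_pr_cont_left _)).mul continuous_const

/-- **LEAF L-MR-EXT.**  translation = modulation of the datum (`BD.ch_add`, `BD.pr_add_left`). -/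
theorem ext_translate (g : V → ℂ) (a z : V × ℝ) : ext g (z + a) = ext (fun ξ => ch (pr a (gam ξ)) * g ξ) z := by
  unfold ext
  congr 1
  ext ξ
  rw [pr_add_left, ch_add]
  ring

/-- **LEAF L-MR-EXT.** -/
theorem ext_sum {ι : Type*} (s : Finset ι) (g : ι → V → ℂ) (hg : ∀ j ∈ s, Integrable (g j)) (z : V × ℝ) :
    ext (fun ξ => ∑ j ∈ s, g j ξ) z = ∑ j ∈ s, ext (g j) z := by
  unfold ext
  rw [← integral_finsetSum _ fun j hj => mr_int_ch (hg j hj) z]
  congr 1
  ext ξ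
  rw [Finset.mul_sum]

/-- **LEAF L-MR-EXT.** -/
theorem ext_const_mul (c : ℂ) (g : V → ℂ) (z : V × ℝ) : ext (fun ξ => c * g ξ) z = c * ext g z := by
  unfold ext
  rw [← integral_const_mul]
  congr 1
  ext ξ
  ring

theorem mr_ch_sub_le (θ θ' : ℝ) : ‖ch θ - ch θ'‖ ≤ |θ - θ'| := by
  have e : ch θ - ch θ' = ch θ' * (ch (θ - θ') - 1) := by
    rw [mul_sub, ← ch_add, mul_one]
    congr 2
    ring
  rw [e, norm_mul, norm_ch, one_mul]
  exact bdu_ch_sub_one _

theorem mr_pr_gam_le (w : V × ℝ) (ξ : V) : |pr w (gam ξ)| ≤ ‖w‖ * (‖ξ‖ + ‖ξ‖ ^ 2) := by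
  unfold pr gam
  have h1 : |inner ℝ w.1 ξ| ≤ ‖w‖ * ‖ξ‖ :=
    (abs_real_inner_le_norm _ _).trans (mul_le_mul_of_nonneg_right (norm_fst_le w) (norm_nonneg _))
  have h2 : |w.2 * ‖ξ‖ ^ 2| ≤ ‖w‖ * ‖ξ‖ ^ 2 := by
    rw [abs_mul, abs_of_nonneg (by positivity : (0 : ℝ) ≤ ‖ξ‖ ^ 2)]
    exact mul_le_mul_of_nonneg_right (norm_snd_le w) (by positivity)
  calc |inner ℝ w.1 ξ + w.2 * ‖ξ‖ ^ 2| ≤ |inner ℝ w.1 ξ| + |w.2 * ‖ξ‖ ^ 2| := abs_add_le _ _
    _ ≤ ‖w‖ * (‖ξ‖ + ‖ξ‖ ^ 2) := by linarith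

/-- **LEAF L-MR-EXT.**  `|ch θ - ch θ'| ≤ |θ - θ'|` (`BD.bde_ch_sub_one`), `|pr w (gam ξ)| ≤ ‖w‖ (‖ξ‖ + ‖ξ‖²)`. -/
theorem ext_lipschitz {C₀ : ℝ} {g : V → ℂ} (h : Dat C₀ g) (z z' : V × ℝ) :
    ‖ext g z - ext g z'‖ ≤ (C₀ + C₀ ^ 2) * ‖z - z'‖ * ∫ ξ, ‖g ξ‖ := by
  unfold ext
  rw [← integral_sub (mr_int_ch h.integrable z) (mr_int_ch h.integrable z'), ← integral_const_mul]
  refine norm_integral_le_of_norm_le (h.integrable.norm.const_mul _) (Filter.Eventually.of_forall fun ξ => ?_)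
  rw [← sub_mul, norm_mul]
  by_cases h0 : g ξ = 0
  · simp [h0]
  refine mul_le_mul_of_nonneg_right ?_ (norm_nonneg _)
  have hξ := h.supp ξ h0
  have e : pr z (gam ξ) - pr z' (gam ξ) = pr (z - z') (gam ξ) := by
    have := pr_add_left (z - z') z' (gam ξ)
    rw [sub_add_cancel] at this
    linarith
  refine (mr_ch_sub_le _ _).trans ?_
  rw [e]
  refine (mr_pr_gam_le _ _).trans ?_
  rw [mul_comm]
  refine mul_le_mul_of_nonneg_right ?_ (norm_nonneg _)
  have := pow_le_pow_left₀ (norm_nonneg ξ) hξ 2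
  linarith

/-- the shear `(ξ, w) ↦ (ξ, w - gam ξ)` preserves the product measure -/
theorem mr_shear : MeasurePreserving (fun p : V × (V × ℝ) => (p.1, p.2 - gam p.1))
    ((volume : Measure V).prod (volume : Measure (V × ℝ))) ((volume : Measure V).prod (volume : Measure (V × ℝ))) := by
  have := MeasurePreserving.skew_product (μa := (volume : Measure V)) (μb := (volume : Measure V))
    (μc := (volume : Measure (V × ℝ))) (μd := (volume : Measure (V × ℝ)))
    (f := id) (MeasurePreserving.id _) (g := fun ξ w => w - gam ξ)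
    ((by
      have := mr_gam_cont (V := V)
      fun_prop : Continuous (Function.uncurry fun (ξ : V) (w : V × ℝ) => w - gam ξ)).measurable)
    (Filter.Eventually.of_forall fun ξ => (measurePreserving_sub_right volume (gam ξ)).map_eq)
  exact this

/-- **LEAF L-MR-FSX: `ext g · G` has Fourier support in `gam(S) + T`.**
PLAN (as `BD.bdu_FS_mul` in `Lib/BD/FSApi.lean`).  `G z = ∫ ch (pr z w) h w`.   Density `D w' = ∫ ξ, g ξ * h (w' - gam ξ)`.   The map `(ξ, w) ↦ (ξ, w + gam ξ)` is a measure preserving measurable equivalence of `V × (V × ℝ)`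
(`MeasurePreserving.skew_product` with `measurePreserving_add_right`; `gam` is continuous);  `(ξ,w) ↦ g ξ * h w` is integrable (`Integrable.mul_prod`);  Fubini (`integral_prod`, `integral_integral_swap`);  `ch_add`, `pr_add_right`.
If `w' ∉ gam '' S + T` the integrand of `D w'` vanishes identically. -/
theorem ext_mul_FS {g : V → ℂ} (hg : Integrable g) {S : Set V} (hS : ∀ ξ, ξ ∉ S → g ξ = 0) {T : Set (V × ℝ)} {G : V × ℝ → ℂ} (hG : FS T G) :
    FS (gam '' S + T) (fun z => ext g z * G z) := by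
  obtain ⟨h, h1, h2, h3⟩ := hG
  have hΦ : Integrable (fun p : V × (V × ℝ) => g p.1 * h p.2) ((volume : Measure V).prod (volume : Measure (V × ℝ))) :=
    hg.mul_prod h1
  have hK : Integrable (fun p : V × (V × ℝ) => g p.1 * h (p.2 - gam p.1)) ((volume : Measure V).prod (volume : Measure (V × ℝ))) :=
    (mr_shear.integrable_comp hΦ.aestronglyMeasurable).2 hΦ
  refine ⟨fun w' => ∫ ξ, g ξ * h (w' - gam ξ), hK.integral_prod_right, fun w' hw' => ?_, fun z => ?_⟩
  · refine integral_eq_zero_of_ae (Filter.Eventually.of_forall fun ξ => ?_)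
    by_cases hξ : ξ ∈ S
    · have : w' - gam ξ ∉ T := fun ht => hw' ⟨gam ξ, ⟨ξ, hξ, rfl⟩, w' - gam ξ, ht, by simp⟩
      simp [h2 _ this]
    · simp [hS ξ hξ]
  · beta_reduce
    -- the integrand on the product
    have hF : Integrable (fun p : V × (V × ℝ) => (ch (pr z (gam p.1)) * g p.1) * (ch (pr z p.2) * h p.2))
        ((volume : Measure V).prod (volume : Measure (V × ℝ))) := (mr_int_ch hg z).mul_prod (bdu_int_ch h1 z)
    have e1 : ext g z * G z = ∫ p : V × (V × ℝ), (ch (pr z (gam p.1)) * g p.1) * (ch (pr z p.2) * h p.2)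
        ∂((volume : Measure V).prod (volume : Measure (V × ℝ))) := by
      rw [integral_prod_mul (fun ξ : V => ch (pr z (gam ξ)) * g ξ) (fun w : V × ℝ => ch (pr z w) * h w), h3]
      rfl
    have e2 : ∫ p : V × (V × ℝ), (ch (pr z (gam p.1)) * g p.1) * (ch (pr z p.2) * h p.2)
        ∂((volume : Measure V).prod (volume : Measure (V × ℝ)))
        = ∫ p : V × (V × ℝ), ch (pr z p.2) * (g p.1 * h (p.2 - gam p.1)) ∂((volume : Measure V).prod (volume : Measure (V × ℝ))) := by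
      conv_lhs => rw [← mr_shear.map_eq]
      rw [integral_map mr_shear.measurable.aemeasurable (by rw [mr_shear.map_eq]; exact hF.aestronglyMeasurable)]
      congr 1
      ext p
      have : ch (pr z p.2) = ch (pr z (gam p.1)) * ch (pr z (p.2 - gam p.1)) := by
        rw [← ch_add, ← pr_add_right]
        congr 2
        abel
      rw [this]
      ring
    have hK' : Integrable (fun p : V × (V × ℝ) => ch (pr z p.2) * (g p.1 * h (p.2 - gam p.1)))
        ((volume : Measure V).prod (volume : Measure (V × ℝ))) := by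
      refine hK.bdd_mul (c := 1) ?_ (Filter.Eventually.of_forall fun p => (norm_ch _).le)
      exact (bdu_ch_cont.comp ((bdu_pr_cont_right z).comp continuous_snd)).aestronglyMeasurable
    rw [e1, e2, integral_prod_symm _ hK']
    congr 1
    ext w'
    exact integral_const_mul (ch (pr z w')) (fun ξ : V => g ξ * h (w' - gam ξ))

/-! ## cells -/

/-- a maximal `ρ`-separated finite subset of a bounded set -/
theorem mr_exists_max_sep {C₀ ρ : ℝ} (hρ : 0 < ρ) (U : Set V) (hU : U ⊆ closedBall 0 C₀) :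
    ∃ s : Finset V, (∀ v ∈ s, v ∈ U) ∧ (∀ v ∈ s, ∀ w ∈ s, v ≠ w → ρ ≤ ‖v - w‖) ∧ ∀ ξ ∈ U, ∃ v ∈ s, ‖ξ - v‖ < ρ := by
  classical
  rcases U.eq_empty_or_nonempty with rfl | ⟨ξ₀, hξ₀⟩
  · exact ⟨∅, by simp, by simp, by simp⟩
  have hC₀ : 0 ≤ C₀ := (norm_nonneg ξ₀).trans (mem_closedBall_zero_iff.1 (hU hξ₀))
  let P : ℕ → Prop := fun m => ∃ t : Finset V, (∀ v ∈ t, v ∈ U) ∧ (∀ v ∈ t, ∀ w ∈ t, v ≠ w → ρ ≤ ‖v - w‖) ∧ t.card = m
  obtain ⟨N, hN⟩ := exists_nat_ge ((2 * (C₀ / ρ) + 1) ^ Module.finrank ℝ V)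
  have hbound : ∀ m, P m → m ≤ N := by
    rintro m ⟨t, ht1, ht2, rfl⟩
    have h1 := card_le_of_sep (A := C₀ / ρ) (r := ρ) (by positivity) hρ t 0 (fun c hc => by
      rw [sub_zero, div_mul_cancel₀ _ hρ.ne']
      exact mem_closedBall_zero_iff.1 (hU (ht1 c hc))) ht2
    exact_mod_cast h1.trans hN
  have hP0 : P 0 := ⟨∅, by simp, by simp, rfl⟩
  obtain ⟨t, ht1, ht2, ht3⟩ : P (Nat.findGreatest P N) := Nat.findGreatest_spec (Nat.zero_le N) hP0
  refine ⟨t, ht1, ht2, fun ξ hξ => ?_⟩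
  by_contra hcon
  push Not at hcon
  have hnot : ξ ∉ t := fun hm => by
    have := hcon ξ hm
    rw [sub_self, norm_zero] at this
    exact absurd this (not_le.2 hρ)
  have hP1 : P (Nat.findGreatest P N + 1) := by
    refine ⟨insert ξ t, ?_, ?_, by rw [Finset.card_insert_of_notMem hnot, ht3]⟩
    · intro v hv
      rcases Finset.mem_insert.1 hv with rfl | hv
      · exact hξ
      · exact ht1 v hv
    · intro v hv w hw hne
      rcases Finset.mem_insert.1 hv with hv' | hv' <;> rcases Finset.mem_insert.1 hw with hw' | hw'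
      · exact absurd (hv'.trans hw'.symm) hne
      · rw [hv']; exact hcon w hw'
      · rw [hw', norm_sub_rev]; exact hcon v hv'
      · exact ht2 v hv' w hw' hne
  exact Nat.findGreatest_is_greatest (Nat.lt_succ_self _) (hbound _ hP1) hP1

/-- **LEAF L-MR-CELL: existence of cells.**
PLAN.  Finite `ρ`-separated subsets of `U` have at most `(2 C₀/ρ + 1)^k` points (`BD.card_le_of_sep`), take one, `s`, of maximal cardinality (as in `BD.exists_sep_net`): every `ξ ∈ U` has a `v ∈ s` with `‖ξ - v‖ < ρ`.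
Enumerate `s` (`s.equivFin` or `Finset.toList`, or a linear order by `Classical`/`WellOrderingRel`) and put `c v = closedBall v ρ \ ⋃_{w before v} closedBall w ρ`. -/
theorem exists_cells {C₀ ρ : ℝ} (hρ : 0 < ρ) (U : Set V) (hU : U ⊆ closedBall 0 C₀) : ∃ (s : Finset V) (c : V → Set V), Cells ρ U s c := by
  classical
  obtain ⟨s, hs1, hs2, hs3⟩ := mr_exists_max_sep hρ U hU
  refine ⟨s, fun v => closedBall v ρ \ ⋃ w ∈ s.filter (fun w => WellOrderingRel w v), closedBall w ρ, hs1, hs2, ?_, ?_, ?_, ?_⟩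
  · intro v _
    exact measurableSet_closedBall.diff (Finset.measurableSet_biUnion _ fun w _ => measurableSet_closedBall)
  · intro v _
    exact sdiff_subset
  · have key : ∀ v ∈ s, ∀ w ∈ s, WellOrderingRel v w →
        Disjoint (closedBall v ρ \ ⋃ u ∈ s.filter (fun u => WellOrderingRel u v), closedBall u ρ)
          (closedBall w ρ \ ⋃ u ∈ s.filter (fun u => WellOrderingRel u w), closedBall u ρ) := by
      intro v hv w _ hr
      rw [Set.disjoint_left]
      intro x hx hx'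
      exact hx'.2 (mem_biUnion (Finset.mem_coe.2 (Finset.mem_filter.2 ⟨hv, hr⟩)) hx.1)
    intro v hv w hw hne
    rcases trichotomous_of WellOrderingRel v w with hr | hr | hr
    · exact key v hv w hw hr
    · exact absurd hr hne
    · exact (key w hw v hv hr).symm
  · intro ξ hξ
    obtain ⟨v₀, hv₀, hd⟩ := hs3 ξ hξ
    have hne : ({v | v ∈ s ∧ ξ ∈ closedBall v ρ} : Set V).Nonempty :=
      ⟨v₀, hv₀, by rw [mem_closedBall, dist_eq_norm]; exact hd.le⟩
    obtain ⟨a, ⟨ha1, ha2⟩, hmin⟩ := (IsWellFounded.wf (r := (WellOrderingRel : V → V → Prop))).has_min _ hne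
    refine mem_biUnion (Finset.mem_coe.2 ha1) ⟨ha2, fun hx => ?_⟩
    simp only [mem_iUnion] at hx
    obtain ⟨w, hw, hxw⟩ := hx
    rw [Finset.mem_filter] at hw
    exact hmin w ⟨hw.1, hxw⟩ hw.2

/-- **LEAF L-MR-CSUM.**  pointwise: `ξ ∈ U` lies in exactly one cell; `ξ ∉ U`: all terms vanish. -/
theorem Cells.sum_indicator {ρ : ℝ} {U : Set V} {s : Finset V} {c : V → Set V} (h : Cells ρ U s c) {g : V → ℂ} (hg : ∀ ξ, ξ ∉ U → g ξ = 0) (ξ : V) :
    ∑ v ∈ s, (c v).indicator g ξ = g ξ := by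
  by_cases hξ : ξ ∈ U
  · have := h.cover hξ
    simp only [mem_iUnion] at this
    obtain ⟨v₀, hv₀, hm⟩ := this
    rw [Finset.sum_eq_single v₀, indicator_of_mem hm]
    · intro w hw hne
      exact indicator_of_notMem (fun hc => (Set.disjoint_left.1 (h.disj w hw v₀ hv₀ hne)) hc hm) _
    · intro hc
      exact absurd hv₀ hc
  · rw [hg ξ hξ]
    refine Finset.sum_eq_zero fun v _ => ?_
    by_cases hm : ξ ∈ c v
    · rw [indicator_of_mem hm, hg ξ hξ]
    · rw [indicator_of_notMem hm]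

/-- **LEAF L-MR-CSUM.**  `lintegral_finset_sum`, disjointness: `∑_v |1_{c v} g|² ≤ |g|²` pointwise. -/
theorem Cells.sum_l2_le {ρ : ℝ} {U : Set V} {s : Finset V} {c : V → Set V} (h : Cells ρ U s c) {g : V → ℂ} (hg : Measurable g) :
    ∑ v ∈ s, l2 ((c v).indicator g) ≤ l2 g := by
  unfold l2
  rw [← lintegral_finsetSum _ fun v hv => ((hg.indicator (h.meas v hv)).enorm.pow_const _)]
  refine lintegral_mono fun ξ => ?_
  by_cases hex : ∃ v₀ ∈ s, ξ ∈ c v₀
  · obtain ⟨v₀, hv₀, hm⟩ := hex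
    rw [Finset.sum_eq_single v₀, indicator_of_mem hm]
    · intro w hw hne
      rw [indicator_of_notMem (fun hc => (Set.disjoint_left.1 (h.disj w hw v₀ hv₀ hne)) hc hm), enorm_zero,
        ENNReal.zero_rpow_of_pos (by norm_num)]
    · intro hc
      exact absurd hv₀ hc
  · push Not at hex
    rw [Finset.sum_eq_zero fun v hv => by
      rw [indicator_of_notMem (hex v hv), enorm_zero, ENNReal.zero_rpow_of_pos (by norm_num)]]
    exact zero_le

/-- **LEAF L-MR-ROB: the robust family of a datum.**   `R = ρ⁻²`.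
PLAN.  `bdd`: `v ∈ U ⊆ closedBall 0 C₀`.   `mult`: `BD.card_le_of_sep` with `A = 1`: `≤ 3^k`.   `fs`: `ext_mul_FS` with `S = c v ⊆ closedBall v ρ`, `T = closedBall 0 (1/R) = closedBall 0 (ρ²)` (`BD.FS.dilate`);
`gam '' closedBall v ρ ⊆ cap v ρ 0`, `BD.cap_add_ball` with `r = ρ²`: `⊆ cap v (ρ + ρ²) (ρ² + 2 (C₀ + ρ) ρ² + ρ⁴) ⊆ cap v (C ρ) (C ρ²)` (`BD.cap_mono`, `ρ ≤ 1`). -/
theorem rob_cells {C₀ ρ : ℝ} (hC₀ : 0 ≤ C₀) (hρ : 0 < ρ) (hρ1 : ρ ≤ 1) {U : Set V} (hU : U ⊆ closedBall 0 C₀) {s : Finset V} {c : V → Set V} (h : Cells ρ U s c)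
    {g : V → ℂ} (hg : Dat C₀ g) {η : V × ℝ → ℂ} (hη : FS (closedBall 0 1) η) (a : V × ℝ) :
    Rob (2 * C₀ + 4 + 3 ^ Module.finrank ℝ V) ρ s id (fun v z => ext ((c v).indicator g) z * η ((ρ⁻¹ ^ 2)⁻¹ • (z - a))) := by
  have h3 : (0 : ℝ) < 3 ^ Module.finrank ℝ V := by positivity
  have hv : ∀ v ∈ s, ‖v‖ ≤ C₀ := fun v hv => mem_closedBall_zero_iff.1 (hU (h.sub v hv))
  refine ⟨fun v hvs => ?_, fun ξ t ht hξ => ?_, fun v hvs => ?_⟩
  · exact (hv v hvs).trans (by linarith)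
  · have h1 := card_le_of_sep (A := 1) (r := ρ) zero_le_one hρ t ξ (fun c hc => by rw [one_mul]; exact hξ c hc)
      (fun c hc c' hc' hne => h.sep c (ht hc) c' (ht hc') hne)
    norm_num at h1
    linarith
  · have hR : (0 : ℝ) < ρ⁻¹ ^ 2 := by positivity
    have h1 := ext_mul_FS (hg.indicator (h.meas v hvs)).integrable (S := c v) (fun ξ hξ => indicator_of_notMem hξ _)
      (hη.dilate hR a)
    refine h1.mono ?_
    have e : 1 / ρ⁻¹ ^ 2 = ρ ^ 2 := by
      rw [inv_pow, one_div, inv_inv]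
    rw [e]
    have hsub : gam '' c v ⊆ cap v ρ 0 := by
      rintro _ ⟨ξ, hξ, rfl⟩
      refine ⟨?_, ?_⟩
      · have := h.near v hvs hξ
        rwa [mem_closedBall, dist_eq_norm] at this
      · simp [gam]
    refine (Set.add_subset_add_right hsub).trans ((cap_add_ball v hρ.le (by positivity)).trans (cap_mono ?_ ?_))
    · nlinarith
    · have hv' := hv v hvs
      have hρ2 : 0 < ρ ^ 2 := by positivity
      have e1 : 0 + ρ ^ 2 + 2 * (‖v‖ + ρ) * ρ ^ 2 + (ρ ^ 2) ^ 2 = (1 + 2 * (‖v‖ + ρ) + ρ ^ 2) * ρ ^ 2 := by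
        ring
      rw [e1]
      refine mul_le_mul_of_nonneg_right ?_ hρ2.le
      nlinarith

end Claimed.Agent.MR
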