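import Claimed.Agent.Lib.MR.Thick

/-!
# Box MR, bridge to packets, file 3: `mrl` ⟹ MULTILINEAR SUM OVER SEPARATED POINTS, SEPARATE WITNESSES, THICK FIELDS            (architect helper164)            CONTRACT
PAPER-FREE.   EXIT `mrt_main`:   `MrlAt V p C₀ X M` (= the exit `mrl` of helper13's box at the exponent `p`)  ⟹
`∑_{z ∈ Y} ∏_i |tfld (G i) (z + o i z)|^(p/d) ≤ X' Q^M ∏_i (N⁻¹ ∫ |G i|²)^(p/(2d))`  for `Y` 1-separated in the slab `|t - t₀| ≤ C₁ N`, offsets `|o i z| ≤ C₁`, `G i` in the `C₁/N`-neighbourhood of the paraboloid over `U i`, `(U i)` `Q`-transverse.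
Consumer: p:local-multilinear in count form (H packets.tex l.693-784, only use: frame.tex l.1522), `G i` = density of `θ · V_i`.
CHAIN.  `disc` (points + offsets ⟹ integral of `∏ avp s E 1`) → `avp_tfld_le` (`thk_dom` + Peetre: average of translated exact extensions, total mass independent of `N`) → `avg_slots` (Tonelli, one slot at a time) → `MrlAt`.
Every `sorry` is a leaf `L-MRT-*`.  Statements are frozen; auxiliary lemmas directly above your theorem (prefix `mrt_`); edit only your block.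
-/

set_option autoImplicit false
open MeasureTheory Set Metric
open scoped ENNReal NNReal
open Claimed.Agent.BD

namespace Claimed.Agent.MR

variable {V : Type} [NormedAddCommGroup V] [InnerProductSpace ℝ V] [FiniteDimensional ℝ V] [MeasurableSpace V] [BorelSpace V]

variable (V) in
/-- lossless multilinear restriction at the exponent `p` with the constant `X Q^M` (shape of `mrl`) -/
def MrlAt (p C₀ X : ℝ) (M : ℕ) : Prop :=
  ∀ (Q : ℝ) (U : Fin (dd V) → Set V) (g : Fin (dd V) → V → ℂ), 1 ≤ Q → Tr Q U → (∀ i, U i ⊆ closedBall 0 C₀) → (∀ i, Dat C₀ (g i)) → (∀ i ξ, ξ ∉ U i → g i ξ = 0) →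
    ∫⁻ z, ∏ i, ‖ext (g i) z‖ₑ ^ (p / (dd V : ℝ)) ≤ ENNReal.ofReal (X * Q ^ M) * ∏ i, l2 (g i) ^ (p / (2 * (dd V : ℝ)))

/-- **LEAF L-MRT-AVG: averaging in every slot** (Tonelli, one slot at a time).   `classical`.   `c := ∫⁻ ρ`, `I i x := ∫⁻ ω, f i ω x * ρ ω ∂ν` (measurable in `x`: `Measurable.lintegral_prod_left'`-type lemma applied to `hf i`, `hρ`).
CLAIM `P S` (`S : Finset ι`):  `∀ ω : ι → Ω, ∫⁻ x, (∏ i ∈ S, I i x) * ∏ i ∈ Sᶜ, f i (ω i) x ∂μ ≤ B * c ^ S.card`.     `Finset.induction_on`.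
`S = ∅`: `h ω`.     `insert j S` (`j ∉ S`):  `(insert j S)ᶜ = Sᶜ.erase j`, `∏ i ∈ Sᶜ, g i = g j * ∏ i ∈ Sᶜ.erase j, g i` (`Finset.mul_prod_erase`).   With `R x = (∏ i ∈ S, I i x) * ∏ i ∈ Sᶜ.erase j, f i (ω i) x`:
`∫⁻ x, I j x * R x = ∫⁻ x, ∫⁻ ω', f j ω' x * ρ ω' * R x = ∫⁻ ω', ρ ω' * ∫⁻ x, f j ω' x * R x` (`lintegral_mul_const`, `lintegral_lintegral_swap`, `lintegral_const_mul`), and `∫⁻ x, f j ω' x * R x ≤ B c^|S|` is `P S` at `Function.update ω j ω'`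
(`Function.update_self`, `Function.update_of_ne` on `Sᶜ.erase j`).     END: `P univ` at any `ω` (`Nonempty Ω`), `Finset.compl_univ`, `Finset.prod_empty`, `mul_one`, `Finset.card_univ`. -/
theorem avg_slots {Z Ω ι : Type*} [MeasurableSpace Z] [MeasurableSpace Ω] [Nonempty Ω] [Fintype ι] (μ : Measure Z) [SFinite μ] (ν : Measure Ω) [SFinite ν]
    (f : ι → Ω → Z → ℝ≥0∞) (hf : ∀ i, Measurable (Function.uncurry (f i))) (ρ : Ω → ℝ≥0∞) (hρ : Measurable ρ) (B : ℝ≥0∞)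
    (h : ∀ ω : ι → Ω, ∫⁻ x, ∏ i, f i (ω i) x ∂μ ≤ B) :
    ∫⁻ x, ∏ i, (∫⁻ ω, f i ω x * ρ ω ∂ν) ∂μ ≤ B * (∫⁻ ω, ρ ω ∂ν) ^ Fintype.card ι := by
  classical
  obtain ⟨c, hc⟩ : ∃ c : ℝ≥0∞, c = ∫⁻ ω, ρ ω ∂ν := ⟨_, rfl⟩
  obtain ⟨I, hI⟩ : ∃ I : ι → Z → ℝ≥0∞, I = fun i x => ∫⁻ ω, f i ω x * ρ ω ∂ν := ⟨_, rfl⟩
  have hIm : ∀ i, Measurable (I i) := by
    intro i
    rw [hI]
    have : Measurable fun q : Ω × Z => f i q.1 q.2 * ρ q.1 := (hf i).mul (hρ.comp measurable_fst)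
    exact this.lintegral_prod_left'
  have hfm : ∀ i ω, Measurable (f i ω) := fun i ω => (hf i).comp measurable_prodMk_left
  have key : ∀ S : Finset ι, ∀ ω : ι → Ω, ∫⁻ x, (∏ i ∈ S, I i x) * ∏ i ∈ Sᶜ, f i (ω i) x ∂μ ≤ B * c ^ S.card := by
    intro S
    induction S using Finset.induction_on with
    | empty =>
      intro ω
      simpa using h ω
    | insert j S hj ih =>
      intro ω
      obtain ⟨R, hR⟩ : ∃ R : Z → ℝ≥0∞, R = fun x => (∏ i ∈ S, I i x) * ∏ i ∈ (insert j S)ᶜ, f i (ω i) x := ⟨_, rfl⟩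
      have hRm : Measurable R := by
        rw [hR]
        exact (Finset.measurable_prod _ fun i _ => hIm i).mul (Finset.measurable_prod _ fun i _ => hfm i (ω i))
      have e1 : ∀ x, (∏ i ∈ insert j S, I i x) * ∏ i ∈ (insert j S)ᶜ, f i (ω i) x = ∫⁻ ω', f j ω' x * ρ ω' * R x ∂ν := by
        intro x
        have hm : Measurable fun ω' => f j ω' x * ρ ω' := ((hf j).comp measurable_prodMk_right).mul hρ
        rw [lintegral_mul_const _ hm, Finset.prod_insert hj, hR, hI]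
        ring
      have e2 : ∀ ω' x, f j ω' x * R x = (∏ i ∈ S, I i x) * ∏ i ∈ Sᶜ, f i (Function.update ω j ω' i) x := by
        intro ω' x
        have hjc : j ∈ Sᶜ := Finset.mem_compl.2 hj
        rw [← Finset.mul_prod_erase Sᶜ _ hjc, Function.update_self, hR, Finset.compl_insert]
        have : ∏ i ∈ Sᶜ.erase j, f i (Function.update ω j ω' i) x = ∏ i ∈ Sᶜ.erase j, f i (ω i) x := by
          refine Finset.prod_congr rfl fun i hi => ?_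
          rw [Function.update_of_ne (Finset.ne_of_mem_erase hi)]
        rw [this]
        ring
      simp_rw [e1]
      rw [lintegral_lintegral_swap]
      · calc ∫⁻ ω', ∫⁻ x, f j ω' x * ρ ω' * R x ∂μ ∂ν ≤ ∫⁻ ω', ρ ω' * (B * c ^ S.card) ∂ν := by
              refine lintegral_mono fun ω' => ?_
              have e3 : ∀ x, f j ω' x * ρ ω' * R x = ρ ω' * (f j ω' x * R x) := fun x => by ring
              simp_rw [e3]
              have hm2 : Measurable fun x => f j ω' x * R x := (hfm j ω').mul hRm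
              rw [lintegral_const_mul _ hm2]
              refine mul_le_mul' le_rfl ?_
              simp_rw [e2]
              exact ih _
          _ = B * c ^ (insert j S).card := by
              rw [lintegral_mul_const _ hρ, ← hc, Finset.card_insert_of_notMem hj, pow_succ]
              ring
      · refine Measurable.aemeasurable ?_
        have : Measurable fun q : Z × Ω => f j q.2 q.1 * ρ q.2 * R q.1 :=
          (((hf j).comp measurable_swap).mul (hρ.comp measurable_snd)).mul (hRm.comp measurable_fst)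
        exact this
  obtain ⟨ω₀⟩ := ‹Nonempty Ω›
  have := key Finset.univ fun _ => ω₀
  simp only [Finset.compl_univ, Finset.prod_empty, mul_one, Finset.card_univ] at this
  rw [← hc]
  rw [hI] at this
  exact this

/-- **LEAF L-MRT-DISC: separated points with separate offsets ⟹ integral.**
PLAN.  `A₀` from `smv_ball C E s`.   For `z ∈ Y`, `x ∈ closedBall z (1/4)`, `y = z - x + o i z` (`‖y‖ ≤ C₁ + 1`):  `H i (z + o i z) = H i (x + y)`,  `ofReal ((1 + (C₁+1))^(-E)) ≤ wt E 1 y` (`BD.wt_ge_of_le`), so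
`‖H i (z + o i z)‖ₑ^s ≤ ofReal (A₀ (C₁+2)^E) * avp s E 1 (H i) x`.   Product over `i` (`Finset.prod_le_prod'`, `Finset.prod_mul_distrib`, `Finset.prod_const`).   Integrate over `x ∈ closedBall z (1/4)` (`setLIntegral_const`, `BD.exists_volume_closedBall`: volume `= c 4^(-d) > 0`).
The balls are pairwise disjoint (`1 ≤ ‖z - z'‖`, radii `1/4`):  `∑_z ∫_{closedBall z (1/4)} = ∫_{⋃}` (`lintegral_biUnion_finset`, `measurableSet_closedBall`). -/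
theorem disc (C C₁ E s : ℝ) (hs : 0 < s) (hE : (dd V : ℝ) < E) (hC₁ : 0 ≤ C₁) :
    ∃ A : ℝ, ∀ (H : Fin (dd V) → V × ℝ → ℂ) (Y : Finset (V × ℝ)) (o : Fin (dd V) → V × ℝ → V × ℝ), (∀ i, FS (closedBall 0 C) (H i)) →
      (∀ z ∈ Y, ∀ z' ∈ Y, z ≠ z' → 1 ≤ ‖z - z'‖) → (∀ i, ∀ z ∈ Y, ‖o i z‖ ≤ C₁) →
      ∑ z ∈ Y, ∏ i, ‖H i (z + o i z)‖ₑ ^ s ≤ ENNReal.ofReal A * ∫⁻ x in ⋃ z ∈ Y, closedBall z (1 / 4), ∏ i, avp s E 1 (H i) x := by
  obtain ⟨A₀, hA₀⟩ := smv_ball (V := V) C E s hs hE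
  obtain ⟨c, hc, hvol⟩ := BD.exists_volume_closedBall (V := V)
  have hE0 : 0 ≤ E := le_trans (Nat.cast_nonneg _) hE.le
  set κ : ℝ := max A₀ 0 * (1 + (C₁ + 1)) ^ E with hκ
  have hκ0 : 0 ≤ κ := by positivity
  set v : ℝ := c * (1 / 4 : ℝ) ^ (dd V : ℝ) with hv
  have hv0 : 0 < v := by positivity
  refine ⟨v⁻¹ * κ ^ (dd V), ?_⟩
  intro H Y o hH hsep ho
  -- pointwise
  have hpt : ∀ i, ∀ z ∈ Y, ∀ x ∈ closedBall z (1 / 4 : ℝ), ‖H i (z + o i z)‖ₑ ^ s ≤ ENNReal.ofReal κ * avp s E 1 (H i) x := by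
    intro i z hz x hx
    set y := z - x + o i z with hy
    have hyn : ‖y‖ ≤ (C₁ + 1) * 1 := by
      rw [Metric.mem_closedBall, dist_eq_norm, norm_sub_rev] at hx
      have := norm_add_le (z - x) (o i z)
      have := ho i z hz
      linarith
    have h1 := hA₀ (H i) (hH i) x y
    have h2 : ENNReal.ofReal ((1 + (C₁ + 1)) ^ (-E)) ≤ wt E 1 y := BD.wt_ge_of_le hE0 one_pos hyn
    have e : x + y = z + o i z := by rw [hy]; abel
    rw [e] at h1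
    have hb : (0 : ℝ) < 1 + (C₁ + 1) := by positivity
    have h3 : ENNReal.ofReal ((1 + (C₁ + 1)) ^ E) * ENNReal.ofReal ((1 + (C₁ + 1)) ^ (-E)) = 1 := by
      rw [← ENNReal.ofReal_mul (by positivity), ← Real.rpow_add hb, add_neg_cancel, Real.rpow_zero, ENNReal.ofReal_one]
    calc ‖H i (z + o i z)‖ₑ ^ s = ‖H i (z + o i z)‖ₑ ^ s * (ENNReal.ofReal ((1 + (C₁ + 1)) ^ E) * ENNReal.ofReal ((1 + (C₁ + 1)) ^ (-E))) := by rw [h3, mul_one]
      _ = ENNReal.ofReal ((1 + (C₁ + 1)) ^ E) * (‖H i (z + o i z)‖ₑ ^ s * ENNReal.ofReal ((1 + (C₁ + 1)) ^ (-E))) := by ring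
      _ ≤ ENNReal.ofReal ((1 + (C₁ + 1)) ^ E) * (‖H i (z + o i z)‖ₑ ^ s * wt E 1 y) := by gcongr
      _ ≤ ENNReal.ofReal ((1 + (C₁ + 1)) ^ E) * (ENNReal.ofReal A₀ * avp s E 1 (H i) x) := by gcongr
      _ ≤ ENNReal.ofReal ((1 + (C₁ + 1)) ^ E) * (ENNReal.ofReal (max A₀ 0) * avp s E 1 (H i) x) := by
          gcongr
          exact le_max_left _ _
      _ = ENNReal.ofReal κ * avp s E 1 (H i) x := by
          rw [hκ, ENNReal.ofReal_mul (le_max_right _ _)]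
          ring
  have hz : ∀ z ∈ Y, ∏ i, ‖H i (z + o i z)‖ₑ ^ s ≤ ENNReal.ofReal (v⁻¹ * κ ^ (dd V)) * ∫⁻ x in closedBall z (1 / 4 : ℝ), ∏ i, avp s E 1 (H i) x := by
    intro z hz
    set L := ∏ i, ‖H i (z + o i z)‖ₑ ^ s with hL
    have h1 : L * ENNReal.ofReal v ≤ ENNReal.ofReal (κ ^ (dd V)) * ∫⁻ x in closedBall z (1 / 4 : ℝ), ∏ i, avp s E 1 (H i) x := by
      calc L * ENNReal.ofReal v = ∫⁻ _x in closedBall z (1 / 4 : ℝ), L := by
            rw [setLIntegral_const, hvol z (1 / 4) (by norm_num)]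
        _ ≤ ∫⁻ x in closedBall z (1 / 4 : ℝ), ENNReal.ofReal (κ ^ (dd V)) * ∏ i, avp s E 1 (H i) x := by
            refine setLIntegral_mono' measurableSet_closedBall fun x hx => ?_
            calc L ≤ ∏ i : Fin (dd V), (ENNReal.ofReal κ * avp s E 1 (H i) x) := Finset.prod_le_prod' fun i _ => hpt i z hz x hx
              _ = _ := by
                  rw [Finset.prod_mul_distrib, Finset.prod_const, Finset.card_univ, Fintype.card_fin, ENNReal.ofReal_pow hκ0]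
        _ = _ := lintegral_const_mul' _ _ ENNReal.ofReal_ne_top
    have hv1 : ENNReal.ofReal v * ENNReal.ofReal v⁻¹ = 1 := by
      rw [← ENNReal.ofReal_mul hv0.le, mul_inv_cancel₀ hv0.ne', ENNReal.ofReal_one]
    calc L = L * (ENNReal.ofReal v * ENNReal.ofReal v⁻¹) := by rw [hv1, mul_one]
      _ = (L * ENNReal.ofReal v) * ENNReal.ofReal v⁻¹ := by ring
      _ ≤ (ENNReal.ofReal (κ ^ (dd V)) * ∫⁻ x in closedBall z (1 / 4 : ℝ), ∏ i, avp s E 1 (H i) x) * ENNReal.ofReal v⁻¹ := by gcongr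
      _ = _ := by
          rw [ENNReal.ofReal_mul (inv_nonneg.2 hv0.le)]
          ring
  have hdisj : Set.PairwiseDisjoint (↑Y : Set (V × ℝ)) fun z => closedBall z (1 / 4 : ℝ) := by
    intro z hz z' hz' hne
    apply Metric.closedBall_disjoint_closedBall
    have := hsep z hz z' hz' hne
    rw [dist_eq_norm]
    linarith
  rw [lintegral_biUnion_finset hdisj fun z _ => measurableSet_closedBall, Finset.mul_sum]
  exact Finset.sum_le_sum hz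

theorem mrt_recentre_key (C₁ E : ℝ) (hC₁ : 0 ≤ C₁) (hE : 0 ≤ E) (N t₀ : ℝ) (hN : 1 ≤ N) (x u : V × ℝ) (hx : |x.2 - t₀| ≤ (C₁ + 1) * N) :
    wt E 1 u ≤ ENNReal.ofReal ((C₁ + 2) ^ E) * lw E (0 : V) 1 N⁻¹ ((0, x.2 + u.2) - (0, t₀)) := by
  unfold wt lw
  rw [← ENNReal.ofReal_mul (by positivity)]
  apply ENNReal.ofReal_le_ofReal
  have hN0 : 0 < N := by linarith
  have hL : ‖Lam (0 : V) 1 N⁻¹ ((0, x.2 + u.2) - (0, t₀))‖ ≤ C₁ + 1 + ‖u‖ := by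
    unfold Lam
    rw [Prod.norm_def]
    refine max_le ?_ ?_
    · simp only [Prod.fst_sub, sub_self, smul_zero, add_zero, norm_zero]
      positivity
    · simp only [Prod.snd_sub]
      rw [Real.norm_eq_abs, abs_mul, abs_of_pos (inv_pos.2 hN0)]
      have h1 : |x.2 + u.2 - t₀| ≤ (C₁ + 1) * N + ‖u‖ := by
        have e : x.2 + u.2 - t₀ = (x.2 - t₀) + u.2 := by ring
        rw [e]
        refine (abs_add_le _ _).trans (add_le_add hx ?_)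
        rw [← Real.norm_eq_abs]
        exact norm_snd_le u
      calc N⁻¹ * |x.2 + u.2 - t₀| ≤ N⁻¹ * ((C₁ + 1) * N + ‖u‖) := by gcongr
        _ = C₁ + 1 + N⁻¹ * ‖u‖ := by field_simp
        _ ≤ C₁ + 1 + 1 * ‖u‖ := by
            have : N⁻¹ ≤ 1 := inv_le_one_of_one_le₀ hN
            gcongr
        _ = C₁ + 1 + ‖u‖ := by ring
  have h2 : 1 + ‖Lam (0 : V) 1 N⁻¹ ((0, x.2 + u.2) - (0, t₀))‖ ≤ (C₁ + 2) * (1 + ‖u‖) := by
    nlinarith [norm_nonneg u]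
  have h3 : ((C₁ + 2) * (1 + ‖u‖)) ^ (-E) ≤ (1 + ‖Lam (0 : V) 1 N⁻¹ ((0, x.2 + u.2) - (0, t₀))‖) ^ (-E) :=
    Real.rpow_le_rpow_of_nonpos (by positivity) h2 (by linarith)
  rw [Real.mul_rpow (by positivity) (by positivity)] at h3
  calc (1 + ‖u‖ / 1) ^ (-E) = (C₁ + 2) ^ E * ((C₁ + 2) ^ (-E) * (1 + ‖u‖) ^ (-E)) := by
        rw [← mul_assoc, ← Real.rpow_add (by positivity), add_neg_cancel, Real.rpow_zero, one_mul, div_one]
    _ ≤ _ := by gcongr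

/-- **LEAF L-MRT-WGT: Peetre for the recentring of the `r`-weight.**   `c = (0, x.2 + u.2)`, `c' = (0, t₀)`:  `tw_eq_lw`, `lw_peetre` with `(y - c) + (c - c') = y - c'`;   `Lam 0 1 N⁻¹ (c - c') = (0, N⁻¹ (x.2 + u.2 - t₀))`, of norm `≤ C₁ + 1 + ‖u‖` (`N ≥ 1`, `|u.2| ≤ ‖u‖`),
so `ofReal ((C₁ + 2 + ‖u‖)^(-E)) ≤ lw E 0 1 N⁻¹ (c - c')`;   `(C₁ + 2 + ‖u‖) ≤ (C₁ + 2)(1 + ‖u‖)`;   `wt (E + d + 1) 1 u = ofReal ((1+‖u‖)^(-E)) * wt (d+1) 1 u` (`BD.wt_mul`). -/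
theorem wgt_recentre (C₁ E : ℝ) (hC₁ : 0 ≤ C₁) (hE : 0 ≤ E) (N t₀ : ℝ) (hN : 1 ≤ N) (x u y : V × ℝ) (hx : |x.2 - t₀| ≤ (C₁ + 1) * N) :
    wt (E + dd V + 1) 1 u * tw E (0 : V) 1 N⁻¹ (y - (0, x.2 + u.2)) ≤
      ENNReal.ofReal ((C₁ + 2) ^ E) * (wt (dd V + 1) 1 u * tw E (0 : V) 1 N⁻¹ (y - (0, t₀))) := by
  have hN0 : 0 < N := by linarith
  have hk := mrt_recentre_key C₁ E hC₁ hE N t₀ hN x u hx
  have hp := lw_peetre hE (0 : V) 1 N⁻¹ (y - (0, x.2 + u.2)) ((0, x.2 + u.2) - (0, t₀))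
  rw [sub_add_sub_cancel] at hp
  rw [tw_eq_lw E _ one_pos (inv_pos.2 hN0), tw_eq_lw E _ one_pos (inv_pos.2 hN0), add_assoc, ← wt_mul one_pos]
  calc wt E 1 u * wt (dd V + 1) 1 u * (ENNReal.ofReal (1 ^ Module.finrank ℝ V * N⁻¹) * lw E (0 : V) 1 N⁻¹ (y - (0, x.2 + u.2)))
      = wt (dd V + 1) 1 u * ENNReal.ofReal (1 ^ Module.finrank ℝ V * N⁻¹) * (wt E 1 u * lw E (0 : V) 1 N⁻¹ (y - (0, x.2 + u.2))) := by ring
    _ ≤ wt (dd V + 1) 1 u * ENNReal.ofReal (1 ^ Module.finrank ℝ V * N⁻¹) *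
          (ENNReal.ofReal ((C₁ + 2) ^ E) * lw E (0 : V) 1 N⁻¹ ((0, x.2 + u.2) - (0, t₀)) * lw E (0 : V) 1 N⁻¹ (y - (0, x.2 + u.2))) := by
        gcongr
    _ = wt (dd V + 1) 1 u * ENNReal.ofReal (1 ^ Module.finrank ℝ V * N⁻¹) *
          (ENNReal.ofReal ((C₁ + 2) ^ E) * (lw E (0 : V) 1 N⁻¹ (y - (0, x.2 + u.2)) * lw E (0 : V) 1 N⁻¹ ((0, x.2 + u.2) - (0, t₀)))) := by ring
    _ ≤ wt (dd V + 1) 1 u * ENNReal.ofReal (1 ^ Module.finrank ℝ V * N⁻¹) *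
          (ENNReal.ofReal ((C₁ + 2) ^ E) * lw E (0 : V) 1 N⁻¹ (y - (0, t₀))) := by
        gcongr
    _ = _ := by ring

/-- joint measurability of the translated exact extensions -/
theorem mrt_meas_thk {C₀ b : ℝ} {U : Set V} {G : V × ℝ → ℂ} (h : TDat b U G) (hU : U ⊆ closedBall 0 C₀) (s : ℝ) :
    Measurable fun q : ((V × ℝ) × (V × ℝ)) × (V × ℝ) => ‖thk G (q.2 + (q.1.1 + (q.1.2.1, 0))) q.1.2.2‖ₑ ^ s := by
  have h1 : Continuous fun q : ((V × ℝ) × (V × ℝ)) × (V × ℝ) => ((q.2 + (q.1.1 + (q.1.2.1, (0 : ℝ))), q.1.2.2) : (V × ℝ) × ℝ) := by fun_prop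
  have h2 := (thk_continuous h hU).comp h1
  exact (h2.enorm.measurable).pow_const s

theorem mrt_meas_thk_x {C₀ b : ℝ} {U : Set V} {G : V × ℝ → ℂ} (h : TDat b U G) (hU : U ⊆ closedBall 0 C₀) (s : ℝ) (x : V × ℝ) :
    Measurable fun ω : (V × ℝ) × (V × ℝ) => ‖thk G (x + (ω.1 + (ω.2.1, 0))) ω.2.2‖ₑ ^ s := by
  have h1 : Continuous fun ω : (V × ℝ) × (V × ℝ) => ((x + (ω.1 + (ω.2.1, (0 : ℝ))), ω.2.2) : (V × ℝ) × ℝ) := by fun_prop
  have h2 := (thk_continuous h hU).comp h1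
  exact (h2.enorm.measurable).pow_const s

/-- **LEAF L-MRT-AVP: the local averages of a thick field are averages of translated exact extensions.**
PLAN.  `A₁` from `thk_dom C₀ C₁ E s`; the constant is `A₁ (C₁+2)^E`.   `avp s E' 1 F x = ∫ ‖F (x + u)‖ₑ^s wt E' 1 u du` (`unfold avp`, `Real.one_rpow`, `ENNReal.ofReal_one`, `one_mul`; translation `lintegral_add_left_eq_self` for `fun y => ‖F y‖ₑ^s * wt E' 1 (y - x)`, `add_sub_cancel_left`; Haar instance: `BD.wt_haar`).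
`thk_dom` at `ζ = x + u`;  `(x + u) + (y.1, 0) = x + (u + (y.1, 0))`;  pull `wt E' 1 u` into the inner integral;  `wgt_recentre`;   `lintegral_prod` backwards (`Measure.volume_eq_prod`):
measurability of `(u, y) ↦ ‖thk G (x + (u + (y.1,0))) y.2‖ₑ^s * (…)` from `thk_continuous`, `BD.measurable_wt`, `BD.measurable_tw`. -/
theorem avp_tfld_le (C₀ C₁ E s : ℝ) (hs : 0 < s) (hE : (dd V : ℝ) < E) (hC₁ : 0 ≤ C₁) :
    ∃ A : ℝ, ∀ (N : ℝ) (U : Set V) (G : V × ℝ → ℂ) (t₀ : ℝ) (x : V × ℝ), 1 ≤ N → U ⊆ closedBall 0 C₀ → TDat (C₁ / N) U G → |x.2 - t₀| ≤ (C₁ + 1) * N →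
      avp s (E + dd V + 1) 1 (tfld G) x ≤ ENNReal.ofReal A * ∫⁻ ω : (V × ℝ) × (V × ℝ),
        ‖thk G (x + (ω.1 + (ω.2.1, 0))) ω.2.2‖ₑ ^ s * (wt (dd V + 1) 1 ω.1 * tw E (0 : V) 1 N⁻¹ (ω.2 - (0, t₀))) := by
  obtain ⟨A₁, hA₁⟩ := thk_dom (V := V) C₀ C₁ E s hs hE
  have hE0 : 0 ≤ E := le_trans (Nat.cast_nonneg _) hE.le
  refine ⟨max A₁ 0 * (C₁ + 2) ^ E, ?_⟩
  intro N U G t₀ x hN hU hG hx
  have hN0 : 0 < N := by linarith
  have := BD.wt_haar (V := V)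
  have e1 : avp s (E + dd V + 1) 1 (tfld G) x = ∫⁻ u, ‖tfld G (x + u)‖ₑ ^ s * wt (E + dd V + 1) 1 u := by
    unfold avp
    rw [Real.one_rpow, ENNReal.ofReal_one, one_mul,
      ← lintegral_add_left_eq_self (fun y => ‖tfld G y‖ₑ ^ s * wt (E + dd V + 1) 1 (y - x)) x]
    simp only [add_sub_cancel_left]
  have hmeas : Measurable fun ω : (V × ℝ) × (V × ℝ) =>
      ‖thk G (x + (ω.1 + (ω.2.1, 0))) ω.2.2‖ₑ ^ s * (wt (dd V + 1) 1 ω.1 * tw E (0 : V) 1 N⁻¹ (ω.2 - (0, t₀))) := by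
    have h1 : Measurable fun ω : (V × ℝ) × (V × ℝ) => ‖thk G (x + (ω.1 + (ω.2.1, 0))) ω.2.2‖ₑ ^ s :=
      mrt_meas_thk_x hG hU s x
    have h2 : Measurable fun ω : (V × ℝ) × (V × ℝ) => wt (dd V + 1) 1 ω.1 := (BD.measurable_wt _ _).comp measurable_fst
    have h3 : Measurable fun ω : (V × ℝ) × (V × ℝ) => tw E (0 : V) 1 N⁻¹ (ω.2 - (0, t₀)) :=
      (BD.measurable_tw _ _ _ _).comp (measurable_snd.sub_const _)
    exact h1.mul (h2.mul h3)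
  have e2 := lintegral_prod (μ := (volume : Measure (V × ℝ))) (ν := (volume : Measure (V × ℝ))) _ hmeas.aemeasurable
  rw [← Measure.volume_eq_prod] at e2
  rw [e1, e2, ← lintegral_const_mul' _ _ ENNReal.ofReal_ne_top]
  refine lintegral_mono fun u => ?_
  show ‖tfld G (x + u)‖ₑ ^ s * wt (E + dd V + 1) 1 u ≤ ENNReal.ofReal (max A₁ 0 * (C₁ + 2) ^ E) *
    ∫⁻ y : V × ℝ, ‖thk G (x + (u + (y.1, 0))) y.2‖ₑ ^ s * (wt (dd V + 1) 1 u * tw E (0 : V) 1 N⁻¹ (y - (0, t₀)))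
  have h1 := hA₁ N U G (x + u) hN0 hU hG
  calc ‖tfld G (x + u)‖ₑ ^ s * wt (E + dd V + 1) 1 u
      ≤ (ENNReal.ofReal A₁ * ∫⁻ y : V × ℝ, ‖thk G (x + u + (y.1, 0)) y.2‖ₑ ^ s * tw E 0 1 N⁻¹ (y - (0, (x + u).2))) * wt (E + dd V + 1) 1 u := by
        gcongr
    _ ≤ (ENNReal.ofReal (max A₁ 0) * ∫⁻ y : V × ℝ, ‖thk G (x + u + (y.1, 0)) y.2‖ₑ ^ s * tw E 0 1 N⁻¹ (y - (0, (x + u).2))) * wt (E + dd V + 1) 1 u := by
        gcongr
        exact le_max_left _ _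
    _ = ENNReal.ofReal (max A₁ 0) * ∫⁻ y : V × ℝ, ‖thk G (x + u + (y.1, 0)) y.2‖ₑ ^ s * tw E 0 1 N⁻¹ (y - (0, (x + u).2)) * wt (E + dd V + 1) 1 u := by
        rw [mul_assoc, lintegral_mul_const' _ _ (by unfold wt; exact ENNReal.ofReal_ne_top)]
    _ ≤ ENNReal.ofReal (max A₁ 0) * ∫⁻ y : V × ℝ, ENNReal.ofReal ((C₁ + 2) ^ E) *
          (‖thk G (x + (u + (y.1, 0))) y.2‖ₑ ^ s * (wt (dd V + 1) 1 u * tw E (0 : V) 1 N⁻¹ (y - (0, t₀)))) := by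
        refine mul_le_mul_right (lintegral_mono fun y => ?_) _
        have h2 := wgt_recentre C₁ E hC₁ hE0 N t₀ hN x u y hx
        show ‖thk G (x + u + (y.1, 0)) y.2‖ₑ ^ s * tw E 0 1 N⁻¹ (y - (0, (x + u).2)) * wt (E + dd V + 1) 1 u ≤
          ENNReal.ofReal ((C₁ + 2) ^ E) * (‖thk G (x + (u + (y.1, 0))) y.2‖ₑ ^ s * (wt (dd V + 1) 1 u * tw E (0 : V) 1 N⁻¹ (y - (0, t₀))))
        rw [add_assoc x u, Prod.snd_add]
        calc ‖thk G (x + (u + (y.1, 0))) y.2‖ₑ ^ s * tw E 0 1 N⁻¹ (y - (0, x.2 + u.2)) * wt (E + dd V + 1) 1 u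
            = ‖thk G (x + (u + (y.1, 0))) y.2‖ₑ ^ s * (wt (E + dd V + 1) 1 u * tw E 0 1 N⁻¹ (y - (0, x.2 + u.2))) := by ring
          _ ≤ ‖thk G (x + (u + (y.1, 0))) y.2‖ₑ ^ s * (ENNReal.ofReal ((C₁ + 2) ^ E) * (wt (dd V + 1) 1 u * tw E (0 : V) 1 N⁻¹ (y - (0, t₀)))) := by
              gcongr
          _ = _ := by ring
    _ = _ := by
        rw [lintegral_const_mul' _ _ ENNReal.ofReal_ne_top, ← mul_assoc, ← ENNReal.ofReal_mul (le_max_right _ _)]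

/-- **LEAF L-MRT-MASS: the total mass of the averaging weight does not depend on `N`, `t₀`.**   `lintegral_prod_mul` (`Measure.volume_eq_prod`; `BD.measurable_wt`, `BD.measurable_tw`), `BD.exists_lintegral_wt` (`R = 1`, exponent `d + 1 > d`), `BD.exists_lintegral_tw`, `lintegral_sub_right_eq_self`. -/
theorem wgt_mass (E : ℝ) (hE : (dd V : ℝ) < E) : ∃ c : ℝ, 0 < c ∧ ∀ (N t₀ : ℝ), 0 < N →
    ∫⁻ ω : (V × ℝ) × (V × ℝ), wt (dd V + 1) 1 ω.1 * tw E (0 : V) 1 N⁻¹ (ω.2 - (0, t₀)) = ENNReal.ofReal c := by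
  obtain ⟨c₁, hc₁, h₁⟩ := exists_lintegral_wt (V := V) (E := dd V + 1) (by linarith)
  obtain ⟨c₂, hc₂, h₂⟩ := exists_lintegral_tw (V := V) hE
  refine ⟨c₁ * c₂, by positivity, fun N t₀ hN => ?_⟩
  have := wt_haar (V := V)
  have hm2 : Measurable fun y : V × ℝ => tw E (0 : V) 1 N⁻¹ (y - (0, t₀)) :=
    (measurable_tw _ _ _ _).comp (measurable_id.sub measurable_const)
  rw [Measure.volume_eq_prod, lintegral_prod_mul (f := wt (dd V + 1) 1) (g := fun y : V × ℝ => tw E (0 : V) 1 N⁻¹ (y - (0, t₀)))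
      (measurable_wt _ _).aemeasurable hm2.aemeasurable,
    h₁ 1 one_pos, lintegral_sub_right_eq_self (fun y => tw E (0 : V) 1 N⁻¹ y), h₂ _ _ _ one_pos (inv_pos.2 hN), Real.one_rpow, mul_one,
    ← ENNReal.ofReal_mul hc₁.le]

/-- **LEAF L-MRT-MAIN: EXIT OF THE BRIDGE** (assembly).   `d = dd V`, `s = p / d > 0`, `E = d + 1`, `E' = E + d + 1`, `C = C₀ + C₀² + C₁`.
`A_D` from `disc C C₁ E' s`, `A_W` from `avp_tfld_le C₀ C₁ E s`, `c` from `wgt_mass E`.   WLOG the constants are `≥ 0` (replace by `max · 0` / `|·|`, `ENNReal.ofReal_le_ofReal`).     `X' = A_D A_W^d c^d |X| (2 C₁)^(p/2)` (any bigger constant is fine).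
(1) `tfld (G i) ∈ FS (closedBall 0 C)`: `tfld_FS` with `b = C₁/N ≤ C₁` and `FS.mono`.   `disc`:  LHS `≤ A_D ∫_{x ∈ Ω₀} ∏ avp s E' 1 (tfld (G i)) x`, `Ω₀ = ⋃_{z ∈ Y} closedBall z (1/4)`.
(2) on `Ω₀`: `|x.2 - t₀| ≤ C₁ N + 1/4 ≤ (C₁+1) N` (`|x.2 - z.2| ≤ ‖x - z‖`);  `avp_tfld_le` (`setLIntegral_mono'` with `measurableSet`, `Finset.prod_le_prod'`, `Finset.prod_mul_distrib`, `Finset.prod_const`, `Finset.card_fin`).
(3) `avg_slots` with `μ = volume.restrict Ω₀`, `ν = volume` on `(V × ℝ) × (V × ℝ)`, `f i ω x = ‖thk (G i) (x + (ω.1 + (ω.2.1, 0))) ω.2.2‖ₑ^s` (measurable: `thk_continuous` composed with a continuous map), `ρ` = the weight, `B = ofReal (X Q^M) ∏ (ofReal (2 C₁/N) ∫|G i|²)^(p/(2d))`.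
    Its hypothesis: `thk_translate` gives `g i` with `thk (G i) (x + a) r = ext (g i) x`;  `setLIntegral_le_lintegral`;  `h Q U g …`;  `ENNReal.rpow_le_rpow` on `l2 (g i) ≤ …`.
(4) `ofReal (2 C₁/N) = ofReal (2 C₁) * ofReal N⁻¹`,  `ENNReal.mul_rpow_of_nonneg`,  `∏_i ofReal (2C₁)^(p/(2d)) = ofReal (2C₁)^(p/2)`. -/
theorem mrt_main (p C₀ C₁ X : ℝ) (M : ℕ) (hp : 0 < p) (hC₀ : 0 ≤ C₀) (hC₁ : 0 ≤ C₁) (h : MrlAt V p C₀ X M) :
    ∃ X' : ℝ, ∀ (Q N : ℝ) (U : Fin (dd V) → Set V) (G : Fin (dd V) → V × ℝ → ℂ) (t₀ : ℝ) (Y : Finset (V × ℝ)) (o : Fin (dd V) → V × ℝ → V × ℝ),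
      1 ≤ Q → 1 ≤ N → Tr Q U → (∀ i, U i ⊆ closedBall 0 C₀) → (∀ i, TDat (C₁ / N) (U i) (G i)) →
      (∀ z ∈ Y, ∀ z' ∈ Y, z ≠ z' → 1 ≤ ‖z - z'‖) → (∀ z ∈ Y, |z.2 - t₀| ≤ C₁ * N) → (∀ i, ∀ z ∈ Y, ‖o i z‖ ≤ C₁) →
      ∑ z ∈ Y, ∏ i, ‖tfld (G i) (z + o i z)‖ₑ ^ (p / (dd V : ℝ)) ≤
        ENNReal.ofReal (X' * Q ^ M) * ∏ i, (ENNReal.ofReal N⁻¹ * ∫⁻ w, ‖G i w‖ₑ ^ (2 : ℝ)) ^ (p / (2 * (dd V : ℝ))) := by
  have hd0 : (0 : ℝ) < (dd V : ℝ) := by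
    have : 0 < dd V := Nat.succ_pos _
    exact_mod_cast this
  set s : ℝ := p / (dd V : ℝ) with hs_def
  have hs : 0 < s := div_pos hp hd0
  set e : ℝ := p / (2 * (dd V : ℝ)) with he_def
  have he : 0 ≤ e := by positivity
  have hE : (dd V : ℝ) < (dd V : ℝ) + 1 := by linarith
  have hE' : (dd V : ℝ) < (dd V : ℝ) + 1 + dd V + 1 := by linarith
  obtain ⟨AD, hAD⟩ := disc (V := V) (C₀ + C₀ ^ 2 + C₁) C₁ ((dd V : ℝ) + 1 + dd V + 1) s hs hE' hC₁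
  obtain ⟨AW, hAW⟩ := avp_tfld_le (V := V) C₀ C₁ ((dd V : ℝ) + 1) s hs hE hC₁
  obtain ⟨c, hc, hmass⟩ := wgt_mass (V := V) ((dd V : ℝ) + 1) hE
  refine ⟨max AD 0 * (max AW 0) ^ (dd V) * c ^ (dd V) * max X 0 * (2 * C₁) ^ (p / 2), ?_⟩
  intro Q N U G t₀ Y o hQ hN hT hU hG hsep hslab ho
  have hN0 : 0 < N := by linarith
  have hb : 0 ≤ C₁ / N := by positivity
  have hbC : C₁ / N ≤ C₁ := div_le_self hC₁ hN
  set Ω₀ : Set (V × ℝ) := ⋃ z ∈ Y, closedBall z (1 / 4 : ℝ) with hΩ₀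
  have hΩm : MeasurableSet Ω₀ := Finset.measurableSet_biUnion Y fun z _ => measurableSet_closedBall
  set J : Fin (dd V) → ℝ≥0∞ := fun i => ∫⁻ w, ‖G i w‖ₑ ^ (2 : ℝ) with hJ
  set ρ : (V × ℝ) × (V × ℝ) → ℝ≥0∞ := fun ω => wt (dd V + 1) 1 ω.1 * tw ((dd V : ℝ) + 1) (0 : V) 1 N⁻¹ (ω.2 - (0, t₀)) with hρ
  set f : Fin (dd V) → (V × ℝ) × (V × ℝ) → V × ℝ → ℝ≥0∞ := fun i ω x => ‖thk (G i) (x + (ω.1 + (ω.2.1, 0))) ω.2.2‖ₑ ^ s with hf
  set B : ℝ≥0∞ := ENNReal.ofReal (max X 0 * Q ^ M) * ∏ i, (ENNReal.ofReal (2 * (C₁ / N)) * J i) ^ e with hB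
  -- (1)
  have hFS : ∀ i, FS (closedBall 0 (C₀ + C₀ ^ 2 + C₁)) (tfld (G i)) := fun i =>
    (tfld_FS hC₀ hb (hG i) (hU i)).mono (closedBall_subset_closedBall (by linarith))
  have h1 := hAD (fun i => tfld (G i)) Y o hFS hsep ho
  -- (2)
  have h2 : ∫⁻ x in Ω₀, ∏ i, avp s ((dd V : ℝ) + 1 + dd V + 1) 1 (tfld (G i)) x ≤
      ENNReal.ofReal ((max AW 0) ^ (dd V)) * ∫⁻ x in Ω₀, ∏ i, ∫⁻ ω, f i ω x * ρ ω := by
    rw [← lintegral_const_mul' _ _ ENNReal.ofReal_ne_top]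
    refine setLIntegral_mono' hΩm fun x hx => ?_
    have hx2 : |x.2 - t₀| ≤ (C₁ + 1) * N := by
      rw [hΩ₀] at hx
      simp only [Set.mem_iUnion, exists_prop] at hx
      obtain ⟨z, hz, hxz⟩ := hx
      rw [Metric.mem_closedBall, dist_eq_norm] at hxz
      have h3 : |x.2 - z.2| ≤ ‖x - z‖ := by
        have := norm_snd_le (x - z)
        simpa using this
      have h4 := hslab z hz
      have h5 : |x.2 - t₀| ≤ |x.2 - z.2| + |z.2 - t₀| := by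
        have : x.2 - t₀ = (x.2 - z.2) + (z.2 - t₀) := by ring
        rw [this]
        exact abs_add_le _ _
      nlinarith
    calc ∏ i, avp s ((dd V : ℝ) + 1 + dd V + 1) 1 (tfld (G i)) x
        ≤ ∏ i : Fin (dd V), (ENNReal.ofReal (max AW 0) * ∫⁻ ω, f i ω x * ρ ω) := by
          refine Finset.prod_le_prod' fun i _ => ?_
          refine (hAW N (U i) (G i) t₀ x hN (hU i) (hG i) hx2).trans ?_
          gcongr
          exact le_max_left _ _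
      _ = _ := by
          rw [Finset.prod_mul_distrib, Finset.prod_const, Finset.card_univ, Fintype.card_fin, ENNReal.ofReal_pow (le_max_right _ _)]
  -- (3)
  have hρm : Measurable ρ :=
    ((BD.measurable_wt _ _).comp measurable_fst).mul ((BD.measurable_tw _ _ _ _).comp (measurable_snd.sub_const _))
  have hfm : ∀ i, Measurable (Function.uncurry (f i)) := fun i => mrt_meas_thk (hG i) (hU i) s
  have hBω : ∀ ω : Fin (dd V) → (V × ℝ) × (V × ℝ), ∫⁻ x, ∏ i, f i (ω i) x ∂(volume.restrict Ω₀) ≤ B := by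
    intro ω
    have hex := fun i => thk_translate hb (hG i) (hU i) ((ω i).1 + ((ω i).2.1, 0)) (ω i).2.2
    choose g hg1 hg2 hg3 hg4 using hex
    have e1 : ∀ x, ∏ i, f i (ω i) x = ∏ i, ‖ext (g i) x‖ₑ ^ s := by
      intro x
      refine Finset.prod_congr rfl fun i _ => ?_
      show ‖thk (G i) (x + ((ω i).1 + ((ω i).2.1, 0))) (ω i).2.2‖ₑ ^ s = _
      rw [hg4 i x]
    simp only [e1]
    refine (setLIntegral_le_lintegral _ _).trans ((h Q U g hQ hT hU hg1 hg2).trans ?_)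
    rw [hB]
    refine mul_le_mul' (ENNReal.ofReal_le_ofReal (mul_le_mul_of_nonneg_right (le_max_left _ _) (by positivity))) ?_
    exact Finset.prod_le_prod' fun i _ => ENNReal.rpow_le_rpow (hg3 i) he
  have h3 := avg_slots (volume.restrict Ω₀) (volume : Measure ((V × ℝ) × (V × ℝ))) f hfm ρ hρm B hBω
  rw [Fintype.card_fin, hmass N t₀ hN0] at h3
  -- (4)
  have h4 : ∏ i, (ENNReal.ofReal (2 * (C₁ / N)) * J i) ^ e = ENNReal.ofReal ((2 * C₁) ^ (p / 2)) * ∏ i, (ENNReal.ofReal N⁻¹ * J i) ^ e := by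
    have e2 : ∀ i, (ENNReal.ofReal (2 * (C₁ / N)) * J i) ^ e = ENNReal.ofReal (2 * C₁) ^ e * (ENNReal.ofReal N⁻¹ * J i) ^ e := by
      intro i
      rw [← ENNReal.mul_rpow_of_nonneg _ _ he, ← mul_assoc, ← ENNReal.ofReal_mul (by positivity)]
      congr 3
      rw [div_eq_mul_inv]; ring
    simp only [e2]
    rw [Finset.prod_mul_distrib, Finset.prod_const, Finset.card_univ, Fintype.card_fin]
    congr 1
    rw [← ENNReal.rpow_natCast, ← ENNReal.rpow_mul, ENNReal.ofReal_rpow_of_nonneg (by positivity) (by positivity)]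
    congr 2
    rw [he_def]
    field_simp
  calc ∑ z ∈ Y, ∏ i, ‖tfld (G i) (z + o i z)‖ₑ ^ s
      ≤ ENNReal.ofReal AD * ∫⁻ x in Ω₀, ∏ i, avp s ((dd V : ℝ) + 1 + dd V + 1) 1 (tfld (G i)) x := h1
    _ ≤ ENNReal.ofReal (max AD 0) * (ENNReal.ofReal ((max AW 0) ^ (dd V)) * (B * ENNReal.ofReal c ^ (dd V))) := by
        refine mul_le_mul' (ENNReal.ofReal_le_ofReal (le_max_left _ _)) (h2.trans ?_)
        exact mul_le_mul_right h3 _
    _ = _ := by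
        rw [hB, h4, ← ENNReal.ofReal_pow hc.le]
        have hX0 : 0 ≤ max X 0 := le_max_right _ _
        have hA0 : 0 ≤ max AD 0 := le_max_right _ _
        have hW0 : 0 ≤ max AW 0 := le_max_right _ _
        have e3 : ENNReal.ofReal (max AD 0 * (max AW 0) ^ (dd V) * c ^ (dd V) * max X 0 * (2 * C₁) ^ (p / 2) * Q ^ M) =
            ENNReal.ofReal (max AD 0) * ENNReal.ofReal ((max AW 0) ^ (dd V)) * ENNReal.ofReal (c ^ (dd V)) * ENNReal.ofReal (max X 0 * Q ^ M) * ENNReal.ofReal ((2 * C₁) ^ (p / 2)) := by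
          rw [← ENNReal.ofReal_mul hA0, ← ENNReal.ofReal_mul (by positivity), ← ENNReal.ofReal_mul (by positivity), ← ENNReal.ofReal_mul (by positivity)]
          congr 1
          ring
        rw [e3]
        ring

end Claimed.Agent.MR
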