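import Claimed.Agent.Lib.MR.Top
import Claimed.Agent.Lib.MR.ThickMain

/-!
# Box MR: `MrlAt` (input of the bridge `mrt_main` of helper164) from `strong` + `homog`            (helper13)
-/

set_option autoImplicit false
open MeasureTheory Set Metric
open scoped ENNReal NNReal
open Claimed.Agent.BD

namespace Claimed.Agent.MR

variable {V : Type} [NormedAddCommGroup V] [InnerProductSpace ℝ V] [FiniteDimensional ℝ V] [MeasurableSpace V] [BorelSpace V]

theorem mrl_at (hk : 1 ≤ Module.finrank ℝ V) (p C₀ : ℝ) (hC₀ : 0 ≤ C₀) (hp : pk V < p) : ∃ X : ℝ, ∃ M : ℕ, MrlAt V p C₀ X M := by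
  obtain ⟨C, M₀, hC, h⟩ := strong (V := V) hk C₀ 0 p hC₀ le_rfl hp
  refine ⟨C, M₀, fun Q U g hQ hT hU hg h0 => ?_⟩
  have hd : (0 : ℝ) < dd V := by unfold dd; positivity
  have hp0 : 0 < p := lt_of_lt_of_le (by norm_num) ((pk_div (V := V) hk).2.2.trans hp.le)
  have hθ : 0 < p / (dd V : ℝ) := by positivity
  have h1 := homog (C₀ := C₀) 0 (p / (dd V : ℝ)) hθ volume (ENNReal.ofReal (C * Q ^ M₀)) U (fun g' hg' h0' h1' => h Q U g' hQ hT hU hg' h0' h1') g hg h0
  have e : p / (dd V : ℝ) / 2 = p / (2 * (dd V : ℝ)) := by rw [div_div, mul_comm]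
  rw [e] at h1
  exact (lintegral_mono fun z => Finset.prod_le_prod' fun i _ => ENNReal.rpow_le_rpow (le_sx le_rfl _ _) hθ.le).trans h1

end Claimed.Agent.MR
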