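import Claimed.Agent.Lib.MR.Gauss
import Claimed.Agent.R254.Gen.Cover

/-!
# Box MR, file 7: a priori polynomial count of the unit balls where one extension is high; covering lemma => level sets            (architect helper13)            CONTRACT
Every `sorry` is a leaf `L-MR-*`.  Statements are frozen; auxiliary lemmas directly above your theorem (prefix `mr_`); edit only your block.
-/

set_option autoImplicit false
open MeasureTheory Set Metric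
open scoped ENNReal NNReal ComplexConjugate
open Claimed.Agent.BD

namespace Claimed.Agent.MR

variable {V : Type} [NormedAddCommGroup V] [InnerProductSpace ℝ V] [FiniteDimensional ℝ V] [MeasurableSpace V] [BorelSpace V]

/-- **LEAF L-MR-PACK: packing in `V × ℝ`.**   The balls `closedBall z (1/3)`, `z ∈ Z`, are disjoint and lie in `closedBall z₀ (T + 1/3)`;  `BD.exists_volume_closedBall` (as `BD.card_le_of_sep`). -/
theorem card_le_of_sep1 (Z : Finset (V × ℝ)) (hZ : ∀ a ∈ Z, ∀ b ∈ Z, a ≠ b → 1 ≤ dist a b) (z₀ : V × ℝ) {T : ℝ} (hT : 0 ≤ T) (h : ∀ a ∈ Z, dist a z₀ ≤ T) :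
    (Z.card : ℝ) ≤ (3 * T + 1) ^ (dd V) := by
  obtain ⟨c, hc, hvol⟩ := exists_volume_closedBall (V := V)
  have hdisj : Set.PairwiseDisjoint (↑Z : Set (V × ℝ)) (fun z => closedBall z (1 / 3 : ℝ)) := by
    intro a ha b hb hne
    refine closedBall_disjoint_closedBall ?_
    have := hZ a ha b hb hne
    linarith
  have hsub : (⋃ z ∈ Z, closedBall z (1 / 3 : ℝ)) ⊆ closedBall z₀ (T + 1 / 3) := by
    intro x hx
    simp only [mem_iUnion] at hx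
    obtain ⟨z, hz, hxz⟩ := hx
    rw [mem_closedBall] at hxz ⊢
    exact (dist_triangle x z z₀).trans (by linarith [h z hz])
  have h1 := measure_mono (μ := (volume : Measure (V × ℝ))) hsub
  rw [measure_biUnion_finset hdisj (fun z _ => measurableSet_closedBall), hvol z₀ (T + 1 / 3) (by positivity)] at h1
  simp only [hvol _ (1 / 3 : ℝ) (by norm_num), Finset.sum_const, nsmul_eq_mul] at h1
  rw [← ENNReal.ofReal_natCast, ← ENNReal.ofReal_mul (Nat.cast_nonneg _),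
    ENNReal.ofReal_le_ofReal_iff (by positivity), Real.rpow_natCast, Real.rpow_natCast] at h1
  have h3 : (0 : ℝ) < (1 / 3 : ℝ) ^ (dd V) := by positivity
  have e : (3 * T + 1) ^ (dd V) * (1 / 3 : ℝ) ^ (dd V) = (T + 1 / 3) ^ (dd V) := by
    rw [← mul_pow]
    congr 1
    ring
  have h4 : (Z.card : ℝ) * (1 / 3 : ℝ) ^ (dd V) ≤ (3 * T + 1) ^ (dd V) * (1 / 3 : ℝ) ^ (dd V) := by
    rw [e]
    have : c * ((Z.card : ℝ) * (1 / 3 : ℝ) ^ (dd V)) ≤ c * (T + 1 / 3) ^ (dd V) := by linarith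
    exact le_of_mul_le_mul_left this hc
  exact le_of_mul_le_mul_right h4 h3

theorem mr_ker_eq_gram (z z' : V × ℝ) :
    ∫ ξ : V, ch (pr z (gam ξ)) * conj (ch (pr z' (gam ξ))) * ((Real.exp (-(‖ξ‖ ^ 2 / 2)) : ℝ) : ℂ) = gram (Real.sqrt 2)⁻¹ z z' 0 0 := by
  unfold gram
  congr 1
  ext ξ
  have e : Real.exp (-((Real.sqrt 2)⁻¹ ^ 2 * ‖0 - ξ‖ ^ 2 / 2)) * Real.exp (-((Real.sqrt 2)⁻¹ ^ 2 * ‖0 - ξ‖ ^ 2 / 2)) = Real.exp (-(‖ξ‖ ^ 2 / 2)) := by
    rw [← Real.exp_add, inv_pow, Real.sq_sqrt (by norm_num), zero_sub, norm_neg]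
    congr 1
    ring
  rw [e]
  ring

/-- **LEAF L-MR-KER: the Gaussian `TT*` kernel decays.**   `∫ ch (pr (z - z') (gam ξ)) e^{-‖ξ‖²/2} dξ = gram (√2)⁻¹ z z' 0 0` (`e^{-ϱ²‖ξ‖²/2} e^{-ϱ²‖ξ‖²/2} = e^{-‖ξ‖²/2}` for `ϱ² = 1/2`; `ch (a - b) = ch a * conj (ch b)`), `gram_off 0` for `‖z - z'‖ ≥ T`, `gram_diag` in general. -/
theorem ker_decay : ∃ C : ℝ, 0 ≤ C ∧ (∀ z z' : V × ℝ, ‖∫ ξ : V, ch (pr z (gam ξ)) * conj (ch (pr z' (gam ξ))) * ((Real.exp (-(‖ξ‖ ^ 2 / 2)) : ℝ) : ℂ)‖ ≤ C) ∧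
    ∀ (T : ℝ) (z z' : V × ℝ), 0 < T → T ≤ ‖z - z'‖ →
      ‖∫ ξ : V, ch (pr z (gam ξ)) * conj (ch (pr z' (gam ξ))) * ((Real.exp (-(‖ξ‖ ^ 2 / 2)) : ℝ) : ℂ)‖ ≤ C * T ^ (-((Module.finrank ℝ V : ℝ) / 2)) := by
  obtain ⟨C, hC0, hC⟩ := gram_off (V := V) 0 le_rfl
  have hϱ : 0 < (Real.sqrt 2)⁻¹ := by positivity
  have hϱ2 : (Real.sqrt 2)⁻¹ ^ 2 = 1 / 2 := by rw [inv_pow, Real.sq_sqrt (by norm_num), one_div]
  have hπ := Real.pi_pos
  obtain ⟨P, hP⟩ : ∃ P : ℝ, P = (Real.pi / (Real.sqrt 2)⁻¹ ^ 2) ^ ((Module.finrank ℝ V : ℝ) / 2) := ⟨_, rfl⟩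
  have hP0 : 0 ≤ P := by rw [hP]; positivity
  have e0 : Real.exp (-((Real.sqrt 2)⁻¹ ^ 2 * ‖(0 : V) - 0‖ ^ 2 / 4)) = 1 := by simp
  refine ⟨C + P, by positivity, fun z z' => ?_, fun T z z' hT hTz => ?_⟩
  · rw [mr_ker_eq_gram]
    have := gram_diag hϱ z z' (0 : V) 0
    rw [e0, mul_one, ← hP] at this
    linarith
  · rw [mr_ker_eq_gram]
    have := hC (Real.sqrt 2)⁻¹ T z z' 0 0 hϱ hϱ2.ge hT hTz (by simp) (by simp)
    rw [e0, mul_one] at this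
    exact this.trans (mul_le_mul_of_nonneg_right (by linarith) (by positivity))

/-- the Gaussian weight -/
noncomputable def mrW (ξ : V) : ℝ := Real.exp (-(‖ξ‖ ^ 2 / 2))

/-- the Gaussian measure (not normalised) -/
noncomputable def mrNu : Measure V := volume.withDensity fun ξ => ENNReal.ofReal (mrW ξ)

theorem mrW_pos (ξ : V) : 0 < mrW ξ := Real.exp_pos _

theorem mrW_meas : Measurable (mrW : V → ℝ) := by
  unfold mrW
  fun_prop

theorem mrW_integrable : Integrable (mrW : V → ℝ) := by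
  have := mr_gauss_integrable (V := V) (c := 1 / 2) (by norm_num) 0
  refine this.congr (Filter.Eventually.of_forall fun ξ => ?_)
  simp only [mrW, sub_zero]
  congr 1
  ring

instance mrNu_finite : IsFiniteMeasure (mrNu : Measure V) :=
  isFiniteMeasure_withDensity_ofReal mrW_integrable.2

theorem mr_integral_nu (F : V → ℂ) : ∫ ξ, F ξ ∂(mrNu : Measure V) = ∫ ξ, F ξ * ((mrW ξ : ℝ) : ℂ) := by
  unfold mrNu
  rw [integral_withDensity_eq_integral_toReal_smul mrW_meas.ennreal_ofReal (Filter.Eventually.of_forall fun _ => ENNReal.ofReal_lt_top)]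
  congr 1
  ext ξ
  rw [ENNReal.toReal_ofReal (mrW_pos ξ).le, Complex.real_smul, mul_comm]

/-- the row sums of the Gaussian kernel over a union of small separated balls -/
theorem mr_row {Ck c : ℝ} (hCk0 : 0 ≤ Ck) (hc : 0 < c) (K : V × ℝ → V × ℝ → ℂ) (hK1 : ∀ z z', ‖K z z'‖ ≤ Ck)
    (hK2 : ∀ (T : ℝ) (z z' : V × ℝ), 0 < T → T ≤ ‖z - z'‖ → ‖K z z'‖ ≤ Ck * T ^ (-((Module.finrank ℝ V : ℝ) / 2)))
    (hvol : ∀ (z : V × ℝ) (R : ℝ), 0 < R → volume (closedBall z R) = ENNReal.ofReal (c * R ^ (dd V : ℝ)))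
    (Zs : Finset (V × ℝ)) (r T : ℝ) (hsep : ∀ a ∈ Zs, ∀ b ∈ Zs, a ≠ b → 1 ≤ dist a b) (hr : 0 < r) (hr3 : r ≤ 1 / 3) (hT : 1 ≤ T)
    (z : V × ℝ) (y : V × ℝ) (hy : y ∈ closedBall z r) :
    ∑ z' ∈ Zs, ∫⁻ y' in closedBall z' r, ‖K y y'‖ₑ
      ≤ ENNReal.ofReal (c * Ck * 7 ^ (dd V) * r ^ (dd V) * (T ^ (dd V) + Zs.card * T ^ (-((Module.finrank ℝ V : ℝ) / 2)))) := by
  classical
  have hT0 : 0 < T := by linarith
  set t : ℝ := T ^ (-((Module.finrank ℝ V : ℝ) / 2)) with ht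
  have ht0 : 0 ≤ t := by positivity
  have hterm : ∀ z' ∈ Zs, ∫⁻ y' in closedBall z' r, ‖K y y'‖ₑ
      ≤ ENNReal.ofReal ((if dist z' z ≤ T + 1 then Ck else Ck * t) * (c * r ^ (dd V))) := by
    intro z' _
    have hb : ∀ y' ∈ closedBall z' r, ‖K y y'‖ₑ ≤ ENNReal.ofReal (if dist z' z ≤ T + 1 then Ck else Ck * t) := by
      intro y' hy'
      rw [← ofReal_norm]
      refine ENNReal.ofReal_le_ofReal ?_
      split_ifs with hn
      · exact hK1 _ _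
      · refine hK2 T y y' hT0 ?_
        rw [not_le] at hn
        rw [mem_closedBall] at hy hy'
        rw [← dist_eq_norm]
        have h1 : dist z' z ≤ dist z' y' + dist y' y + dist y z := dist_triangle4 _ _ _ _
        rw [dist_comm z' y', dist_comm y' y] at h1
        linarith
    refine (setLIntegral_mono' measurableSet_closedBall hb).trans (le_of_eq ?_)
    rw [setLIntegral_const, hvol z' r hr, Real.rpow_natCast, ← ENNReal.ofReal_mul (by split_ifs <;> positivity)]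
  refine (Finset.sum_le_sum hterm).trans ?_
  rw [← ENNReal.ofReal_sum_of_nonneg (fun z' _ => by split_ifs <;> positivity)]
  refine ENNReal.ofReal_le_ofReal ?_
  rw [← Finset.sum_mul, Finset.sum_ite, Finset.sum_const, Finset.sum_const, nsmul_eq_mul, nsmul_eq_mul]
  have hnear : ((Zs.filter fun z' => dist z' z ≤ T + 1).card : ℝ) ≤ (7 * T) ^ (dd V) := by
    have h1 := card_le_of_sep1 (Zs.filter fun z' => dist z' z ≤ T + 1)
      (fun a ha b hb hne => hsep a (Finset.mem_filter.1 ha).1 b (Finset.mem_filter.1 hb).1 hne) z (T := T + 1) (by linarith)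
      (fun a ha => (Finset.mem_filter.1 ha).2)
    exact h1.trans (pow_le_pow_left₀ (by linarith) (by linarith) _)
  have hfar : ((Zs.filter fun z' => ¬ dist z' z ≤ T + 1).card : ℝ) ≤ Zs.card := by
    exact_mod_cast Finset.card_filter_le _ _
  have h7 : (1 : ℝ) ≤ 7 ^ (dd V) := one_le_pow₀ (by norm_num)
  have hcr : 0 ≤ c * r ^ (dd V) := by positivity
  have hn0 : (0 : ℝ) ≤ Zs.card := Nat.cast_nonneg _
  calc (((Zs.filter fun z' => dist z' z ≤ T + 1).card : ℝ) * Ck + ((Zs.filter fun z' => ¬ dist z' z ≤ T + 1).card : ℝ) * (Ck * t)) * (c * r ^ (dd V))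
      ≤ ((7 * T) ^ (dd V) * Ck + (Zs.card : ℝ) * (Ck * t)) * (c * r ^ (dd V)) :=
        mul_le_mul_of_nonneg_right (add_le_add (mul_le_mul_of_nonneg_right hnear hCk0)
          (mul_le_mul_of_nonneg_right hfar (by positivity))) hcr
    _ ≤ (7 ^ (dd V) * T ^ (dd V) * Ck + 7 ^ (dd V) * ((Zs.card : ℝ) * (Ck * t))) * (c * r ^ (dd V)) := by
        refine mul_le_mul_of_nonneg_right ?_ hcr
        rw [mul_pow]
        have : 0 ≤ (Zs.card : ℝ) * (Ck * t) := by positivity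
        nlinarith
    _ = c * Ck * 7 ^ (dd V) * r ^ (dd V) * (T ^ (dd V) + Zs.card * t) := by ring

/-- **LEAF L-MR-L2B: `L²` mass on a union of small separated balls.**
PLAN = `R254.er_tt_schur` with `Z = V × ℝ`, `ζ = volume.restrict Ω`, `Ω = ⋃_{z ∈ Zs} closedBall z r`, `Y = V`, `ν = volume.withDensity (ofReal e^{-‖ξ‖²/2})`, `k z ξ = ch (pr z (gam ξ))`, datum `g̃ = e^{‖ξ‖²/2} g` (`∫ |g̃|² dν = ∫ |g|² e^{‖ξ‖²/2} ≤ e^{C₀²/2} l2 g`),  `∫ k g̃ dν = ext g`.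
Schur row at `y ∈ closedBall z r`:  `∫_Ω |K(y,y')| dy' ≤ ∑_{z'} vol(B_r) sup`;  the `z'` with `dist z z' ≤ T + 1`: at most `(3T+4)^d` (`card_le_of_sep1`), kernel `≤ C`;  the others: `‖y - y'‖ ≥ T + 1 - 2r ≥ T`, kernel `≤ C T^(-k/2)`.
`vol(B_r) = c r^d` (`BD.exists_volume_closedBall`).   LHS: the balls are disjoint (`r ≤ 1/3`): `∑_z ∫_{closedBall z r} = ∫_Ω` (`lintegral_biUnion_finset`). -/
theorem l2_on_balls (C₀ : ℝ) (hC₀ : 0 ≤ C₀) : ∃ C : ℝ, 0 ≤ C ∧ ∀ (Zs : Finset (V × ℝ)) (r T : ℝ) (g : V → ℂ), (∀ a ∈ Zs, ∀ b ∈ Zs, a ≠ b → 1 ≤ dist a b) →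
    0 < r → r ≤ 1 / 3 → 1 ≤ T → Dat C₀ g →
    ∑ z ∈ Zs, ∫⁻ y in closedBall z r, ‖ext g y‖ₑ ^ (2 : ℝ) ≤
      ENNReal.ofReal (C * r ^ (dd V) * (T ^ (dd V) + Zs.card * T ^ (-((Module.finrank ℝ V : ℝ) / 2)))) * l2 g := by
  obtain ⟨Ck, hCk0, hK1, hK2⟩ := ker_decay (V := V)
  obtain ⟨c, hc, hvol⟩ := exists_volume_closedBall (V := V)
  refine ⟨c * Ck * 7 ^ (dd V) * Real.exp (C₀ ^ 2 / 2), by positivity, fun Zs r T g hsep hr hr3 hT hg => ?_⟩
  have hT0 : 0 < T := by linarith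
  set A : ℝ := c * Ck * 7 ^ (dd V) * r ^ (dd V) * (T ^ (dd V) + Zs.card * T ^ (-((Module.finrank ℝ V : ℝ) / 2))) with hA
  have hA0 : 0 ≤ A := by positivity
  have hdisj : Set.PairwiseDisjoint (↑Zs : Set (V × ℝ)) (fun z => closedBall z r) := by
    intro a ha b hb hne
    refine closedBall_disjoint_closedBall ?_
    have := hsep a ha b hb hne
    linarith
  set Ω : Set (V × ℝ) := ⋃ z ∈ Zs, closedBall z r with hΩ
  have hΩm : MeasurableSet Ω := Finset.measurableSet_biUnion _ fun z _ => measurableSet_closedBall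
  have hΩfin : volume Ω < ∞ := by
    refine (measure_biUnion_finset_le _ _).trans_lt ?_
    exact ENNReal.sum_lt_top.2 fun z _ => (isCompact_closedBall z r).measure_lt_top
  have : IsFiniteMeasure ((volume : Measure (V × ℝ)).restrict Ω) := ⟨by rw [Measure.restrict_apply_univ]; exact hΩfin⟩
  -- the kernel and the datum
  set k : V × ℝ → V → ℂ := fun z ξ => ch (pr z (gam ξ)) with hk
  have hkm : Measurable (Function.uncurry k) := by
    have h1 : Continuous fun p : (V × ℝ) × V => pr p.1 (gam p.2) := by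
      unfold pr gam
      fun_prop
    exact (bdu_ch_cont.comp h1).measurable
  set gt : V → ℂ := fun ξ => ((Real.exp (‖ξ‖ ^ 2 / 2) : ℝ) : ℂ) * g ξ with hgt
  have hgtD : Dat C₀ gt := hg.mul (m := fun ξ => ((Real.exp (‖ξ‖ ^ 2 / 2) : ℝ) : ℂ)) (by fun_prop) (B := Real.exp (C₀ ^ 2 / 2)) (fun ξ hξ => by
    rw [Complex.norm_real, Real.norm_of_nonneg (Real.exp_pos _).le, Real.exp_le_exp]
    have := pow_le_pow_left₀ (norm_nonneg ξ) hξ 2
    linarith)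
  have hrow : ∀ᵐ y ∂((volume : Measure (V × ℝ)).restrict Ω), ∫⁻ y', ‖∫ ξ, k y ξ * conj (k y' ξ) ∂(mrNu : Measure V)‖ₑ ∂((volume : Measure (V × ℝ)).restrict Ω)
      ≤ ENNReal.ofReal A := by
    refine ae_restrict_of_forall_mem hΩm fun y hy => ?_
    simp only [hΩ, mem_iUnion] at hy
    obtain ⟨z, _, hyz⟩ := hy
    rw [hΩ, lintegral_biUnion_finset hdisj fun z _ => measurableSet_closedBall]
    simp only [mr_integral_nu]
    exact mr_row hCk0 hc (fun z z' => ∫ ξ : V, ch (pr z (gam ξ)) * conj (ch (pr z' (gam ξ))) * ((Real.exp (-(‖ξ‖ ^ 2 / 2)) : ℝ) : ℂ))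
      hK1 hK2 hvol Zs r T hsep hr hr3 hT z y hyz
  have hmain := Claimed.Agent.R254.er_tt_schur ((volume : Measure (V × ℝ)).restrict Ω) (mrNu : Measure V) k hkm 1
    (fun z ξ => (norm_ch _).le) A hA0 hrow gt hgtD.meas hgtD.bdd
  have e1 : ∀ y, ∫ ξ, k y ξ * gt ξ ∂(mrNu : Measure V) = ext g y := by
    intro y
    rw [mr_integral_nu]
    unfold ext
    congr 1
    ext ξ
    have : ((Real.exp (‖ξ‖ ^ 2 / 2) : ℝ) : ℂ) * ((mrW ξ : ℝ) : ℂ) = 1 := by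
      rw [← Complex.ofReal_mul, mrW, ← Real.exp_add]
      simp
    calc k y ξ * gt ξ * ((mrW ξ : ℝ) : ℂ) = k y ξ * g ξ * (((Real.exp (‖ξ‖ ^ 2 / 2) : ℝ) : ℂ) * ((mrW ξ : ℝ) : ℂ)) := by
          rw [hgt]; ring
      _ = ch (pr y (gam ξ)) * g ξ := by rw [this, mul_one]
  have e2 : ∫⁻ ξ, ‖gt ξ‖ₑ ^ (2 : ℝ) ∂(mrNu : Measure V) ≤ ENNReal.ofReal (Real.exp (C₀ ^ 2 / 2)) * l2 g := by
    unfold mrNu l2
    rw [lintegral_withDensity_eq_lintegral_mul _ mrW_meas.ennreal_ofReal (hgtD.meas.enorm.pow_const _),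
      ← lintegral_const_mul' _ _ ENNReal.ofReal_ne_top]
    refine lintegral_mono fun ξ => ?_
    simp only [Pi.mul_apply]
    by_cases h0 : g ξ = 0
    · simp [hgt, h0]
    have hξ := hg.supp ξ h0
    have e3 : ‖gt ξ‖ₑ ^ (2 : ℝ) = ENNReal.ofReal (Real.exp (‖ξ‖ ^ 2 / 2) * Real.exp (‖ξ‖ ^ 2 / 2)) * ‖g ξ‖ₑ ^ (2 : ℝ) := by
      rw [hgt, enorm_mul, ENNReal.mul_rpow_of_nonneg _ _ (by norm_num), ← ofReal_norm, Complex.norm_real,
        Real.norm_of_nonneg (Real.exp_pos _).le, ENNReal.ofReal_mul (Real.exp_pos _).le]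
      congr 1
      rw [show (2 : ℝ) = ((2 : ℕ) : ℝ) by norm_num, ENNReal.rpow_natCast, pow_two]
    rw [e3, ← mul_assoc, ← ENNReal.ofReal_mul (mrW_pos ξ).le]
    refine mul_le_mul_left (ENNReal.ofReal_le_ofReal ?_) _
    rw [mrW, ← Real.exp_add, ← Real.exp_add, Real.exp_le_exp]
    have := pow_le_pow_left₀ (norm_nonneg ξ) hξ 2
    linarith
  simp only [e1] at hmain
  rw [← lintegral_biUnion_finset hdisj fun z _ => measurableSet_closedBall]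
  refine hmain.trans ((mul_le_mul_right e2 _).trans (le_of_eq ?_))
  rw [← mul_assoc, ← ENNReal.ofReal_mul hA0]
  congr 2
  rw [hA]
  ring

/-- real-number core of `count_high` -/
theorem mr_count_real (k d : ℕ) (hk : 1 ≤ k) (X₁ : ℝ) (hX₁ : 0 < X₁) (lam : ℝ) (h0 : 0 < lam) (h1 : lam ≤ 1) (N : ℝ) (hN : 0 ≤ N)
    (h : ∀ T : ℝ, 1 ≤ T → N * lam ^ 2 ≤ (X₁ / 2) * (T ^ d + N * T ^ (-((k : ℝ) / 2)))) :
    N ≤ X₁ * (X₁ ^ (2 / (k : ℝ)) + 1) ^ d * lam ^ (-(2 + 4 * (d : ℝ) / (k : ℝ))) := by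
  have hk0 : (0 : ℝ) < k := by exact_mod_cast hk
  obtain ⟨u, hu⟩ : ∃ u : ℝ, u = X₁ / lam ^ 2 := ⟨_, rfl⟩
  have hu0 : 0 < u := by rw [hu]; positivity
  obtain ⟨T, hT⟩ : ∃ T : ℝ, T = u ^ (2 / (k : ℝ)) + 1 := ⟨_, rfl⟩
  have hup : 0 < u ^ (2 / (k : ℝ)) := Real.rpow_pos_of_pos hu0 _
  have hT1 : 1 ≤ T := by rw [hT]; linarith
  have ht : T ^ (-((k : ℝ) / 2)) ≤ lam ^ 2 / X₁ := by
    have h2 : T ^ (-((k : ℝ) / 2)) ≤ (u ^ (2 / (k : ℝ))) ^ (-((k : ℝ) / 2)) :=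
      Real.rpow_le_rpow_of_nonpos hup (by rw [hT]; linarith) (by
        have : 0 ≤ (k : ℝ) / 2 := by positivity
        linarith)
    refine h2.trans (le_of_eq ?_)
    rw [← Real.rpow_mul hu0.le, show 2 / (k : ℝ) * -((k : ℝ) / 2) = -1 by field_simp, Real.rpow_neg_one, hu, inv_div]
  have h3 : N * lam ^ 2 ≤ X₁ * T ^ d := by
    have h4 := h T hT1
    have h5 : X₁ / 2 * (N * T ^ (-((k : ℝ) / 2))) ≤ N * lam ^ 2 / 2 := by
      have := mul_le_mul_of_nonneg_left ht (by positivity : 0 ≤ X₁ / 2 * N)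
      calc X₁ / 2 * (N * T ^ (-((k : ℝ) / 2))) = X₁ / 2 * N * T ^ (-((k : ℝ) / 2)) := by ring
        _ ≤ X₁ / 2 * N * (lam ^ 2 / X₁) := this
        _ = N * lam ^ 2 / 2 := by field_simp
    linarith
  obtain ⟨a, ha⟩ : ∃ a : ℝ, a = lam ^ (-(4 / (k : ℝ))) := ⟨_, rfl⟩
  have ha1 : 1 ≤ a := by
    rw [ha]
    exact Real.one_le_rpow_of_pos_of_le_one_of_nonpos h0 h1 (by
      have : 0 ≤ 4 / (k : ℝ) := by positivity
      linarith)
  have hua : u ^ (2 / (k : ℝ)) = X₁ ^ (2 / (k : ℝ)) * a := by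
    rw [hu, Real.div_rpow hX₁.le (by positivity), ← Real.rpow_natCast lam 2, ← Real.rpow_mul h0.le, ha, Real.rpow_neg h0.le,
      div_eq_mul_inv]
    congr 3
    push_cast
    ring
  have hXp : 0 < X₁ ^ (2 / (k : ℝ)) := Real.rpow_pos_of_pos hX₁ _
  have hTa : T ≤ (X₁ ^ (2 / (k : ℝ)) + 1) * a := by
    rw [hT, hua]
    nlinarith
  have hTd : T ^ d ≤ (X₁ ^ (2 / (k : ℝ)) + 1) ^ d * a ^ d := by
    rw [← mul_pow]
    exact pow_le_pow_left₀ (by linarith) hTa d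
  have hl2 : 0 < lam ^ 2 := by positivity
  have h6 : N ≤ X₁ * T ^ d * (lam ^ 2)⁻¹ := by
    rw [← div_eq_mul_inv, le_div_iff₀ hl2]
    exact h3
  have e : a ^ d * (lam ^ 2)⁻¹ = lam ^ (-(2 + 4 * (d : ℝ) / (k : ℝ))) := by
    rw [ha, ← Real.rpow_natCast _ d, ← Real.rpow_mul h0.le, ← Real.rpow_natCast lam 2, ← Real.rpow_neg h0.le, ← Real.rpow_add h0]
    congr 1
    push_cast
    ring
  calc N ≤ X₁ * T ^ d * (lam ^ 2)⁻¹ := h6
    _ ≤ X₁ * ((X₁ ^ (2 / (k : ℝ)) + 1) ^ d * a ^ d) * (lam ^ 2)⁻¹ :=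
        mul_le_mul_of_nonneg_right (mul_le_mul_of_nonneg_left hTd hX₁.le) (by positivity)
    _ = X₁ * (X₁ ^ (2 / (k : ℝ)) + 1) ^ d * (a ^ d * (lam ^ 2)⁻¹) := by ring
    _ = _ := by rw [e]

/-- the `L¹` norm of a normalised datum -/
theorem mr_l1_le {C₀ : ℝ} {g : V → ℂ} (hg : Dat C₀ g) (h2 : l2 g ≤ 1) :
    ∫ ξ, ‖g ξ‖ ≤ Real.sqrt (volume (closedBall (0 : V) C₀)).toReal := by
  have hv : volume (closedBall (0 : V) C₀) ≠ ∞ := (isCompact_closedBall _ _).measure_lt_top.ne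
  have h1 : (∫⁻ ξ, ‖g ξ‖ₑ) ^ (2 : ℝ) ≤ volume (closedBall (0 : V) C₀) :=
    hg.l1_le.trans ((mul_le_mul_right h2 _).trans (le_of_eq (mul_one _)))
  rw [integral_norm_eq_lintegral_enorm hg.meas.aestronglyMeasurable]
  refine Real.le_sqrt_of_sq_le ?_
  have h3 := ENNReal.toReal_mono hv h1
  rwa [← ENNReal.toReal_rpow, show (2 : ℝ) = ((2 : ℕ) : ℝ) by norm_num, Real.rpow_natCast] at h3

/-- **LEAF L-MR-COUNT: A PRIORI COUNT.**
PLAN.  `L = (C₀ + C₀²) vol(B(0,C₀))^(1/2) + 1` (`ext_lipschitz`, `Dat.l1_le`, `l2 g ≤ 1`), `r = lam/(6 L) ≤ 1/3`: `‖ext g y‖ ≥ lam/2` on `closedBall z r`.   So `#Z c r^d lam²/4 ≤ ∑_z ∫_{closedBall z r} ‖ext g‖² ≤ C r^d (T^d + #Z T^(-k/2))` (`l2_on_balls`).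
Choose `T = (8 C/(c lam²))^(2/k) + 1` (here `k ≥ 1`): `C T^(-k/2) ≤ c lam²/8`, hence `#Z ≤ 8 C T^d/(c lam²) ≤ C' lam^(-A)` with `A = 2 + 4 d/k`. -/
theorem count_high (hk : 1 ≤ Module.finrank ℝ V) (C₀ : ℝ) (hC₀ : 0 ≤ C₀) : ∃ C A : ℝ, 1 ≤ C ∧ 0 < A ∧ ∀ (g : V → ℂ) (lam : ℝ) (Z : Finset (V × ℝ)), Dat C₀ g → l2 g ≤ 1 →
    0 < lam → lam ≤ 1 → (∀ a ∈ Z, ∀ b ∈ Z, a ≠ b → 1 ≤ dist a b) → (∀ z ∈ Z, lam ≤ ‖ext g z‖) → (Z.card : ℝ) ≤ C * lam ^ (-A) := by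
  obtain ⟨C₁, hC₁0, hC₁⟩ := l2_on_balls (V := V) C₀ hC₀
  obtain ⟨c, hc, hvol⟩ := exists_volume_closedBall (V := V)
  obtain ⟨sv, hsv⟩ : ∃ sv : ℝ, sv = Real.sqrt (volume (closedBall (0 : V) C₀)).toReal := ⟨_, rfl⟩
  have hsv0 : 0 ≤ sv := by rw [hsv]; exact Real.sqrt_nonneg _
  obtain ⟨L, hL⟩ : ∃ L : ℝ, L = (C₀ + C₀ ^ 2) * sv + 1 := ⟨_, rfl⟩
  have hL1 : 1 ≤ L := by
    rw [hL]
    have : 0 ≤ (C₀ + C₀ ^ 2) * sv := by positivity
    linarith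
  obtain ⟨X₁, hX₁⟩ : ∃ X₁ : ℝ, X₁ = 8 * (C₁ + 1) / c := ⟨_, rfl⟩
  have hX₁0 : 0 < X₁ := by rw [hX₁]; positivity
  have hkpos : (0 : ℝ) < Module.finrank ℝ V := by exact_mod_cast hk
  have hXp : 0 < X₁ ^ (2 / (Module.finrank ℝ V : ℝ)) := Real.rpow_pos_of_pos hX₁0 _
  refine ⟨X₁ * (X₁ ^ (2 / (Module.finrank ℝ V : ℝ)) + 1) ^ (dd V) + 1, 2 + 4 * (dd V : ℝ) / (Module.finrank ℝ V : ℝ), ?_, by positivity, ?_⟩
  · have : 0 ≤ X₁ * (X₁ ^ (2 / (Module.finrank ℝ V : ℝ)) + 1) ^ (dd V) := by positivity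
    linarith
  intro g lam Z hg h2 hlam hlam1 hsep hhigh
  have hmain := mr_count_real (Module.finrank ℝ V) (dd V) hk X₁ hX₁0 lam hlam hlam1 (Z.card : ℝ) (Nat.cast_nonneg _) ?_
  · refine hmain.trans (mul_le_mul_of_nonneg_right (by linarith) (Real.rpow_nonneg hlam.le _))
  intro T hT
  have hT0 : 0 < T := by linarith
  obtain ⟨r, hr⟩ : ∃ r : ℝ, r = lam / (6 * L) := ⟨_, rfl⟩
  have hr0 : 0 < r := by rw [hr]; positivity
  have hLr : L * r = lam / 6 := by rw [hr]; field_simp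
  have hr3 : r ≤ 1 / 3 := by
    have : r ≤ L * r := le_mul_of_one_le_left hr0.le hL1
    linarith
  have hlow : ∀ z ∈ Z, ∀ y ∈ closedBall z r, lam / 2 ≤ ‖ext g y‖ := by
    intro z hz y hy
    have h3 := ext_lipschitz hg z y
    have h4 : ‖z - y‖ ≤ r := by
      rw [← dist_eq_norm, dist_comm]
      exact mem_closedBall.1 hy
    have h5 : (C₀ + C₀ ^ 2) * ‖z - y‖ * ∫ ξ, ‖g ξ‖ ≤ (C₀ + C₀ ^ 2) * r * sv := by
      refine mul_le_mul (mul_le_mul_of_nonneg_left h4 (by positivity)) (hsv ▸ mr_l1_le hg h2)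
        (integral_nonneg fun _ => norm_nonneg _) (by positivity)
    have h6 : (C₀ + C₀ ^ 2) * r * sv ≤ L * r := by
      rw [hL]
      nlinarith
    have h7 : ‖ext g z‖ - ‖ext g y‖ ≤ ‖ext g z - ext g y‖ := norm_sub_norm_le _ _
    have := hhigh z hz
    linarith
  have hball : ∀ z ∈ Z, ENNReal.ofReal ((lam / 2) ^ 2 * (c * r ^ (dd V))) ≤ ∫⁻ y in closedBall z r, ‖ext g y‖ₑ ^ (2 : ℝ) := by
    intro z hz
    rw [ENNReal.ofReal_mul (by positivity), ← Real.rpow_natCast r, ← hvol z r hr0, ← setLIntegral_const]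
    refine setLIntegral_mono' measurableSet_closedBall fun y hy => ?_
    rw [← ofReal_norm, ENNReal.ofReal_rpow_of_nonneg (norm_nonneg _) (by norm_num), show (2 : ℝ) = ((2 : ℕ) : ℝ) by norm_num,
      Real.rpow_natCast]
    exact ENNReal.ofReal_le_ofReal (pow_le_pow_left₀ (by positivity) (hlow z hz y hy) 2)
  have h8 := (Finset.sum_le_sum hball).trans (hC₁ Z r T g hsep hr0 hr3 hT hg)
  have h9 : ENNReal.ofReal (C₁ * r ^ (dd V) * (T ^ (dd V) + Z.card * T ^ (-((Module.finrank ℝ V : ℝ) / 2)))) * l2 g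
      ≤ ENNReal.ofReal (C₁ * r ^ (dd V) * (T ^ (dd V) + Z.card * T ^ (-((Module.finrank ℝ V : ℝ) / 2)))) :=
    (mul_le_mul_right h2 _).trans (le_of_eq (mul_one _))
  have h10 := h8.trans h9
  rw [Finset.sum_const, nsmul_eq_mul, ← ENNReal.ofReal_natCast, ← ENNReal.ofReal_mul (Nat.cast_nonneg _),
    ENNReal.ofReal_le_ofReal_iff (by positivity)] at h10
  have hrd : 0 < r ^ (dd V) := by positivity
  have hS : 0 ≤ T ^ (dd V) + Z.card * T ^ (-((Module.finrank ℝ V : ℝ) / 2)) := by positivity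
  have h11 : (Z.card : ℝ) * ((lam / 2) ^ 2 * c) ≤ C₁ * (T ^ (dd V) + Z.card * T ^ (-((Module.finrank ℝ V : ℝ) / 2))) := by
    refine le_of_mul_le_mul_right ?_ hrd
    calc (Z.card : ℝ) * ((lam / 2) ^ 2 * c) * r ^ (dd V) = (Z.card : ℝ) * ((lam / 2) ^ 2 * (c * r ^ (dd V))) := by ring
      _ ≤ C₁ * r ^ (dd V) * (T ^ (dd V) + Z.card * T ^ (-((Module.finrank ℝ V : ℝ) / 2))) := h10
      _ = _ := by ring
  have h12 : X₁ / 2 = 4 * (C₁ + 1) / c := by rw [hX₁]; ring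
  rw [h12, div_mul_eq_mul_div, le_div_iff₀ hc]
  nlinarith

/-- **L-MR-COVB: from the covering lemma and a bound on sparse families to a bound of a level set.**   Clone of `R254.er_cover_bound`: `E3 → V × ℝ`, exponent `3 → q`, closed balls, the level set is covered by the balls of radius `Rad 0` about `Z`. -/
theorem cover_bound (u : V × ℝ → ℝ≥0∞) (hu : Measurable u) (q : ℝ) (hq : 0 < q) (μ : ℝ) (hμ : 0 < μ) (Z : Finset (V × ℝ)) (Rad : ℕ → ℝ)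
    (hZ : ∀ x, ENNReal.ofReal μ < u x → ∃ z ∈ Z, dist x z ≤ Rad 0)
    (M : ℝ) (hM : (Z.card : ℝ) ≤ M) (hM1 : 1 ≤ M) (n : ℕ) (hn : 1 ≤ n)
    (h0 : 0 < Rad 0) (hmono : ∀ j, Rad j ≤ Rad (j + 1)) (D : ℕ) (hD : M ^ ((1 : ℝ) / n) ≤ D) (Bd : ℝ≥0∞)
    (hsp : ∀ j < n, ∀ W : Finset (V × ℝ), (W.card : ℝ) ≤ M →
      (∀ a ∈ W, ∀ a' ∈ W, a ≠ a' → Rad (j + 1) - Rad j ≤ dist a a') →
        ∑ a ∈ W, ∫⁻ x in closedBall a (3 * Rad j), u x ^ q ≤ Bd) :
    volume {x | ENNReal.ofReal μ < u x} ≤ ((n * D : ℕ) : ℝ≥0∞) * (ENNReal.ofReal (μ ^ (-q)) * Bd) := by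
  classical
  obtain ⟨lev, col, ctr, h1, h2⟩ := R254.er_cov_main Z M hM hM1 n hn Rad h0 hmono D hD
  have hR1 : ∀ k, Rad 0 ≤ Rad k := by
    intro k
    induction k with
    | zero => exact le_rfl
    | succ k ih => exact ih.trans (hmono k)
  obtain ⟨U, hU⟩ : ∃ U : Set (V × ℝ), U = {x | ENNReal.ofReal μ < u x} := ⟨_, rfl⟩
  rw [← hU]
  obtain ⟨W, hW⟩ : ∃ W : ℕ × ℕ → Finset (V × ℝ),
      ∀ p, W p = (Z.filter fun z => lev z = p.1 ∧ col z = p.2).image ctr := ⟨_, fun _ => rfl⟩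
  have hcov : U ⊆ ⋃ p ∈ (Finset.range n ×ˢ Finset.range D), ⋃ a ∈ W p, (U ∩ closedBall a (3 * Rad p.1)) := by
    intro x hx
    have hx' : ENNReal.ofReal μ < u x := by rw [hU] at hx; exact hx
    obtain ⟨z, hz, hd⟩ := hZ x hx'
    obtain ⟨a1, a2, a3, a4⟩ := h1 z hz
    simp only [Set.mem_iUnion]
    refine ⟨(lev z, col z), Finset.mem_product.2 ⟨Finset.mem_range.2 a1, Finset.mem_range.2 a2⟩,
      ctr z, ?_, hx, ?_⟩
    · rw [hW]
      exact Finset.mem_image_of_mem ctr (Finset.mem_filter.2 ⟨hz, rfl, rfl⟩)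
    · rw [mem_closedBall]
      have := dist_triangle x z (ctr z)
      have := hR1 (lev z)
      show dist x (ctr z) ≤ 3 * Rad (lev z)
      linarith
  have hpow : ENNReal.ofReal (μ ^ q) = (ENNReal.ofReal μ) ^ q := (ENNReal.ofReal_rpow_of_pos hμ).symm
  have hcheb : ∀ (a : V × ℝ) (ϱ : ℝ), ENNReal.ofReal (μ ^ q) * volume (U ∩ closedBall a ϱ) ≤
      ∫⁻ x in closedBall a ϱ, u x ^ q := by
    intro a ϱ
    have hm : Measurable fun x => u x ^ q := hu.pow_const _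
    have h3 := mul_meas_ge_le_lintegral (μ := volume.restrict (closedBall a ϱ)) hm (ENNReal.ofReal (μ ^ q))
    refine le_trans (mul_le_mul_right ?_ _) h3
    rw [Measure.restrict_apply (measurableSet_le measurable_const hm)]
    refine measure_mono (Set.inter_subset_inter_left _ ?_)
    intro x hx
    rw [hU] at hx
    show ENNReal.ofReal (μ ^ q) ≤ u x ^ q
    rw [hpow]
    exact ENNReal.rpow_le_rpow (le_of_lt hx) hq.le
  have hsum : ∀ p ∈ (Finset.range n ×ˢ Finset.range D),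
      ∑ a ∈ W p, ∫⁻ x in closedBall a (3 * Rad p.1), u x ^ q ≤ Bd := by
    intro p hp
    have hp1 := Finset.mem_range.1 (Finset.mem_product.1 hp).1
    refine hsp p.1 hp1 (W p) ?_ ?_
    · rw [hW]
      refine le_trans ?_ hM
      exact_mod_cast Finset.card_image_le.trans (Finset.card_filter_le _ _)
    · intro a ha a' ha' hne
      rw [hW] at ha ha'
      obtain ⟨z, hz, rfl⟩ := Finset.mem_image.1 ha
      obtain ⟨z', hz', rfl⟩ := Finset.mem_image.1 ha'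
      obtain ⟨b1, b2, b3⟩ := Finset.mem_filter.1 hz
      obtain ⟨c1, c2, c3⟩ := Finset.mem_filter.1 hz'
      have := h2 z b1 z' c1 (b2.trans c2.symm) (b3.trans c3.symm) hne
      rw [b2] at this
      exact this.le
  have hvol : volume U ≤ ∑ p ∈ (Finset.range n ×ˢ Finset.range D), ∑ a ∈ W p,
      volume (U ∩ closedBall a (3 * Rad p.1)) :=
    (measure_mono hcov).trans ((measure_biUnion_finset_le _ _).trans
      (Finset.sum_le_sum fun p _ => measure_biUnion_finset_le _ _))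
  have hmain : ENNReal.ofReal (μ ^ q) * volume U ≤ ((n * D : ℕ) : ℝ≥0∞) * Bd := by
    calc ENNReal.ofReal (μ ^ q) * volume U
        ≤ ENNReal.ofReal (μ ^ q) * ∑ p ∈ (Finset.range n ×ˢ Finset.range D), ∑ a ∈ W p,
            volume (U ∩ closedBall a (3 * Rad p.1)) := mul_le_mul_right hvol _
      _ = ∑ p ∈ (Finset.range n ×ˢ Finset.range D), ∑ a ∈ W p,
            ENNReal.ofReal (μ ^ q) * volume (U ∩ closedBall a (3 * Rad p.1)) := by
          rw [Finset.mul_sum]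
          exact Finset.sum_congr rfl fun p _ => Finset.mul_sum _ _ _
      _ ≤ ∑ p ∈ (Finset.range n ×ˢ Finset.range D), Bd :=
          Finset.sum_le_sum fun p hp =>
            (Finset.sum_le_sum fun a _ => hcheb a (3 * Rad p.1)).trans (hsum p hp)
      _ = ((n * D : ℕ) : ℝ≥0∞) * Bd := by
          rw [Finset.sum_const, Finset.card_product, Finset.card_range, Finset.card_range,
            nsmul_eq_mul]
  have hone : ENNReal.ofReal (μ ^ (-q)) * ENNReal.ofReal (μ ^ q) = 1 := by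
    rw [← ENNReal.ofReal_mul (by positivity), ← Real.rpow_add hμ, neg_add_cancel, Real.rpow_zero,
      ENNReal.ofReal_one]
  calc volume U = ENNReal.ofReal (μ ^ (-q)) * (ENNReal.ofReal (μ ^ q) * volume U) := by
        rw [← mul_assoc, hone, one_mul]
    _ ≤ ENNReal.ofReal (μ ^ (-q)) * (((n * D : ℕ) : ℝ≥0∞) * Bd) := mul_le_mul_right hmain _
    _ = _ := by ring

/-- the radii of the covering -/
noncomputable def rad (M : ℝ) (j : ℕ) : ℝ := (1000 * M ^ 2) ^ (3 ^ j)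

/-- real-number core of `rad_spec`: `B = rad M j` -/
theorem mr_rad_core (k : ℕ) (hk : 1 ≤ k) (M B : ℝ) (hM : 1 ≤ M) (hB : 1000 * M ^ 2 ≤ B) :
    M * ((3 * B) ^ k * (B ^ 3 - B) ^ (-((k : ℝ) / 2)) + Real.exp (-((3 * B) ^ 2 / 2)) + 3 * B / (B ^ 3 - B)) ≤ 1 := by
  have hM0 : 0 < M := by linarith
  have hMM : M ≤ M ^ 2 := by nlinarith
  have hBM : 1000 * M ≤ B := by linarith
  have hB1000 : 1000 ≤ B := by linarith
  have hB0 : 0 < B := by linarith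
  have hB2 : 1000 * M * 1000 ≤ B ^ 2 := by
    rw [pow_two]
    exact mul_le_mul hBM hB1000 (by norm_num) hB0.le
  have hS : B ^ 3 / 2 ≤ B ^ 3 - B := by
    have : 0 ≤ B * (B ^ 2 - 2) := mul_nonneg hB0.le (by nlinarith)
    nlinarith
  have hS0 : 0 < B ^ 3 - B := lt_of_lt_of_le (by positivity) hS
  obtain ⟨S, hSdef⟩ : ∃ S : ℝ, S = B ^ 3 - B := ⟨_, rfl⟩
  rw [← hSdef] at hS hS0 ⊢
  -- the first term
  have hy0 : 0 ≤ 3 * B * S ^ (-(1 / 2 : ℝ)) := mul_nonneg (by positivity) (Real.rpow_nonneg hS0.le _)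
  have hy2 : (3 * B * S ^ (-(1 / 2 : ℝ))) ^ 2 = 9 * B ^ 2 / S := by
    have e : (S ^ (-(1 / 2 : ℝ))) ^ 2 = S⁻¹ := by
      rw [← Real.rpow_natCast (S ^ (-(1 / 2 : ℝ))) 2, ← Real.rpow_mul hS0.le, ← Real.rpow_neg_one]
      norm_num
    rw [mul_pow, e]
    ring
  have hyM : 3 * B * S ^ (-(1 / 2 : ℝ)) ≤ 14 / 100 / M := by
    refine (pow_le_pow_iff_left₀ hy0 (by positivity) two_ne_zero).1 ?_
    rw [hy2]
    calc 9 * B ^ 2 / S ≤ 18 / B := by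
          rw [div_le_div_iff₀ hS0 hB0]
          nlinarith
      _ ≤ 18 / (1000 * M ^ 2) := div_le_div_of_nonneg_left (by norm_num) (by positivity) hB
      _ ≤ (14 / 100 / M) ^ 2 := by
          rw [div_pow, div_le_div_iff₀ (by positivity) (by positivity)]
          nlinarith [sq_nonneg M]
  have hy1 : 3 * B * S ^ (-(1 / 2 : ℝ)) ≤ 1 := by
    refine hyM.trans ?_
    rw [div_le_one hM0]
    linarith
  have h1 : (3 * B) ^ k * S ^ (-((k : ℝ) / 2)) ≤ 14 / 100 / M := by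
    have e : S ^ (-((k : ℝ) / 2)) = (S ^ (-(1 / 2 : ℝ))) ^ k := by
      rw [← Real.rpow_natCast (S ^ (-(1 / 2 : ℝ))) k, ← Real.rpow_mul hS0.le]
      congr 1
      ring
    rw [e, ← mul_pow]
    exact (pow_le_of_le_one hy0 hy1 (by omega)).trans hyM
  -- the Gaussian term
  have h2 : Real.exp (-((3 * B) ^ 2 / 2)) ≤ 1 / 100 / M := by
    have e : (1 : ℝ) / 100 / M = (100 * M)⁻¹ := by
      rw [div_div, one_div]
    rw [Real.exp_neg, e]
    refine inv_anti₀ (by positivity) ?_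
    have := Real.add_one_le_exp ((3 * B) ^ 2 / 2)
    nlinarith
  -- the ratio
  have h3 : 3 * B / S ≤ 1 / 100 / M := by
    rw [div_div, div_le_div_iff₀ hS0 (by positivity)]
    have : 600 * M * B ≤ B ^ 2 * B := mul_le_mul_of_nonneg_right (by linarith) hB0.le
    nlinarith
  calc M * ((3 * B) ^ k * S ^ (-((k : ℝ) / 2)) + Real.exp (-((3 * B) ^ 2 / 2)) + 3 * B / S)
      ≤ M * (14 / 100 / M + 1 / 100 / M + 1 / 100 / M) := mul_le_mul_of_nonneg_left (by linarith) hM0.le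
    _ = 16 / 100 := by
        field_simp
        norm_num
    _ ≤ 1 := by norm_num

/-- **LEAF L-MR-RAD: the radii are admissible for `sparse`.**   `B = rad M j ≥ 1000 M²`, `rad M (j+1) = B³`, `R = 3B`, `S = B³ - B ≥ B³/2`.
`R^k S^(-k/2) = (R²/S)^(k/2) ≤ (18/B)^(k/2) ≤ (18/B)^(1/2) ≤ (18/1000)^(1/2)/M ≤ 0.14/M`  (`18/B ≤ 1`, `k ≥ 1`);   `e^{-R²/2} ≤ 1/(1 + R²/2) ≤ 2/R² ≤ 0.01/M`;   `R/S ≤ 6/B² ≤ 0.01/M`. -/
theorem rad_spec (k : ℕ) (hk : 1 ≤ k) (M : ℝ) (hM : 1 ≤ M) (j : ℕ) :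
    1 ≤ rad M j ∧ rad M j ≤ rad M (j + 1) ∧ 0 < rad M (j + 1) - rad M j ∧
      M * ((3 * rad M j) ^ k * (rad M (j + 1) - rad M j) ^ (-((k : ℝ) / 2)) + Real.exp (-((3 * rad M j) ^ 2 / 2)) + 3 * rad M j / (rad M (j + 1) - rad M j)) ≤ 1 := by
  have hbase : 1 ≤ 1000 * M ^ 2 := by nlinarith
  have hB : 1000 * M ^ 2 ≤ rad M j := le_self_pow₀ hbase (pow_ne_zero _ (by norm_num))
  have hstep : rad M (j + 1) = rad M j ^ 3 := by
    unfold rad
    rw [pow_succ 3 j, pow_mul]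
  have hB1 : 1 ≤ rad M j := hbase.trans hB
  have hB1000 : 1000 ≤ rad M j := le_trans (by nlinarith) hB
  have hlt : rad M j < rad M j ^ 3 := by
    have : 0 < rad M j * (rad M j ^ 2 - 1) := mul_pos (by linarith) (by nlinarith)
    nlinarith
  rw [hstep]
  exact ⟨hB1, hlt.le, sub_pos.2 hlt, mr_rad_core k hk M _ hM hB⟩

end Claimed.Agent.MR
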