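import Claimed.Agent.Lib.BD.Lev
import Claimed.Agent.Lib.BD.GeoT
import Claimed.Agent.Lib.MK.Graph

/-!
# Box MR: LOSSLESS multilinear restriction for the paraboloid above the endpoint (replaces Tao 2020, Thm 1.7)            (architect helper13)            DEFINITIONS
PAPER-FREE.   `V` abstract finite dimensional inner product space, `k = finrank V ≥ 1`, `d = m = k + 1 = BD.dd V`, space-time `V × ℝ` (language of `Lib/BD/Defs`: `pr`, `ch`, `FS`, `cap`, `avp`, `wt`, `mA`, `Rob`, `Grp`, `gsum`).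
EXIT (`Top.lean`): `mrl` :  for `p > 2 (k+1) / k`:   `∫ ∏_i |ext g_i|^(p/d) ≤ C Q^M ∏_i (∫ |g_i|²)^(p/(2d))`,  `g_i = 0` off `U_i ⊆ closedBall 0 C₀`, `(U_i)` `Q`-transverse (no determinants).

## Plan of the whole box (redesign of report 869: NO frequency kernels `Hop`, NO Taylor series, NO integration by parts / stationary phase, NO enlargement of supports)
PART ML (`Fam`, `Infl`, `Loc`).  `ρ ∈ (0,1]`, `R = ρ⁻²`.  Cut `g_i` into cells of radius `ρ` about `ρ`-separated centres `v ∈ U_i` (`Cells`).   `H i v = ext (g_i 1_cell) · η((· - a)/R)` is a robust family of `Lib/BD` (`Rob`), transverse in the centres (`MRobQ`).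
Ball inflation at `t = 2` with the constant `A Q^M` (`infl2`: `BD.tube_dom` + `MK.mk_graph_fin`), `L²` orthogonality (`BD.mA_orth`), `l + 1` steps (`ml_lev` = clone of `BD.lev_main`), start `BD.lev_start` (loss `ρ^(-(k+1) 2^(-l))`):
`ml_loc` :  `∫_{B(a,R)} ∏ |ext g_i|^(2/k) ≤ X Q^M R^ε ∏_i (∑_v lm E R (g_i 1_cell v) a)^(1/k)`,    `lm E R g a = R⁻¹ ∫ |ext g y|² (1 + |y - a|/R)^(-E) dy` = LOCAL `L²` MASS.
PART SP (`Gauss`, `Sparse`).  `lm ≤ C ∑_l 2^(-l(E-1)) gm (2^l R)`, `gm ϱ g a = ϱ⁻¹ ∫_{|t - a_t| ≤ ϱ} ∫ |ext g(x,t)|² e^{-|x - a_x|²/ϱ²} dx dt`.   EXACT Gaussian calculus (Mathlib `GaussianFourier.integral_cexp_neg_mul_sq_norm_add`):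
`∫ |ext g(x,t)|² e^{-|x-a|²/ϱ²} dx = ϱ^(2k) ∫ |Sop ϱ (a,t) g η|² dη`,  the Gram kernel of `Sop` is an explicit Gaussian;  `R254.er_tt_schur`:   `∑_{a ∈ W} gm ϱ g a ≤ C (1 + #W (ϱ^k S^(-k/2) + e^{-ϱ²/4})) ∫|g|²` for `S`-separated `W`.
PART LV (`Count`, `Level`, `Top`).  A priori polynomial count of high unit balls (Gaussian `TT*`), Tao's covering lemma `R254.er_cov_main`, radii `(82 M²)^(3^j)`, Chebyshev, layer cake, homogeneity, `L²` data.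
-/

set_option autoImplicit false
open MeasureTheory Set Metric
open scoped ENNReal NNReal RealInnerProductSpace
open Claimed.Agent.BD

namespace Claimed.Agent.MR

noncomputable section

variable {V : Type} [NormedAddCommGroup V] [InnerProductSpace ℝ V] [FiniteDimensional ℝ V] [MeasurableSpace V] [BorelSpace V]

/-- the lift to the paraboloid `τ = |ξ|²` (convention of `Lib/BD`) -/
def gam (ξ : V) : V × ℝ := (ξ, ‖ξ‖ ^ 2)

/-- the extension operator `∫ e^{i(x·ξ + t|ξ|²)} g(ξ) dξ` -/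
def ext (g : V → ℂ) (z : V × ℝ) : ℂ := ∫ ξ, ch (pr z (gam ξ)) * g ξ

/-- `∫ |g|²` -/
def l2 (g : V → ℂ) : ℝ≥0∞ := ∫⁻ ξ, ‖g ξ‖ₑ ^ (2 : ℝ)

/-- working class of data: bounded Borel functions vanishing off `closedBall 0 C₀` -/
structure Dat (C₀ : ℝ) (g : V → ℂ) : Prop where
  meas : Measurable g
  bdd : ∃ B : ℝ, ∀ ξ, ‖g ξ‖ ≤ B
  supp : ∀ ξ, g ξ ≠ 0 → ‖ξ‖ ≤ C₀

/-- `Q`-transversality of `k + 1` subsets of `V`, without determinants (`= BD.BdgTrans Q U`, `= R257.Transv Q` for all choices) -/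
def Tr (Q : ℝ) (U : Fin (dd V) → Set V) : Prop :=
  ∀ ξ : Fin (dd V) → V, (∀ i, ξ i ∈ U i) → ∀ t : Fin (dd V) → ℝ, ∑ i, |t i| ≤ Q * (‖∑ i, t i • ξ i‖ + |∑ i, t i|)

/-- a `(k+1)`-tuple of robust families at scale `ρ` whose CENTRES are `Q`-transverse -/
structure MRobQ (C Q ρ : ℝ) {ι : Type} (s : Fin (dd V) → Finset ι) (v : Fin (dd V) → ι → V)
    (H : Fin (dd V) → ι → V × ℝ → ℂ) : Prop where
  rob : ∀ i, Rob C ρ (s i) (v i) (H i)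
  trans : ∀ j : Fin (dd V) → ι, (∀ i, j i ∈ s i) → ∀ t : Fin (dd V) → ℝ,
    ∑ i, |t i| ≤ Q * (‖∑ i, t i • v i (j i)‖ + |∑ i, t i|)

/-- a decomposition of `U` into Borel cells of radius `ρ` about `ρ`-separated centres IN `U` (index type = `V`, the centre is the index) -/
structure Cells (ρ : ℝ) (U : Set V) (s : Finset V) (c : V → Set V) : Prop where
  sub : ∀ v ∈ s, v ∈ U
  sep : ∀ v ∈ s, ∀ w ∈ s, v ≠ w → ρ ≤ ‖v - w‖
  meas : ∀ v ∈ s, MeasurableSet (c v)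
  near : ∀ v ∈ s, c v ⊆ closedBall v ρ
  disj : ∀ v ∈ s, ∀ w ∈ s, v ≠ w → Disjoint (c v) (c w)
  cover : U ⊆ ⋃ v ∈ s, c v

variable (V) in
/-- the endpoint exponent `p_k = 2 (k+1) / k` -/
def pk : ℝ := 2 * (dd V : ℝ) / (Module.finrank ℝ V : ℝ)

/-- the local `L²` mass `R⁻¹ ∫ |ext g y|² (1 + |y - a|/R)^(-E) dy` -/
def lm (E R : ℝ) (g : V → ℂ) (a : V × ℝ) : ℝ≥0∞ :=
  ENNReal.ofReal R⁻¹ * ∫⁻ y, ‖ext g y‖ₑ ^ (2 : ℝ) * wt E R (y - a)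

/-- the Gaussian local `L²` mass `ϱ⁻¹ ∫_{|τ| ≤ ϱ} ∫ |ext g(x, a_t + τ)|² e^{-|x - a_x|²/ϱ²} dx dτ` -/
def gm (ϱ : ℝ) (g : V → ℂ) (a : V × ℝ) : ℝ≥0∞ :=
  ENNReal.ofReal ϱ⁻¹ * ∫⁻ τ in Icc (-ϱ) ϱ, ∫⁻ x : V, ‖ext g (x, a.2 + τ)‖ₑ ^ (2 : ℝ) * ENNReal.ofReal (Real.exp (-(‖x - a.1‖ ^ 2 / ϱ ^ 2)))

/-- the Gaussian frequency localisation at the space-time point `b` -/
def Sop (ϱ : ℝ) (b : V × ℝ) (g : V → ℂ) (η : V) : ℂ :=
  ∫ ξ, ((Real.exp (-(ϱ ^ 2 * ‖η - ξ‖ ^ 2 / 2)) : ℝ) : ℂ) * (ch (pr b (gam ξ)) * g ξ)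

/-- the geometric mean `∏_i |ext g_i|^(1/d)` -/
def gmean (g : Fin (dd V) → V → ℂ) (z : V × ℝ) : ℝ≥0∞ := ∏ i, ‖ext (g i) z‖ₑ ^ (1 / (dd V : ℝ))

end

end Claimed.Agent.MR
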