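import Claimed.Agent.Lib.MR.Fam
import Claimed.Agent.R254.Gen.Schur

/-!
# Box MR, file 5: exact Gaussian calculus; almost orthogonality of the Gaussian local masses over a sparse set of centres            (architect helper13)            CONTRACT
`k = finrank V`.   No Plancherel, no integration by parts: only Fubini and `GaussianFourier.integral_cexp_neg_mul_sq_norm_add`, `GaussianFourier.integral_rexp_neg_mul_sq_norm` (Mathlib) and `R254.er_tt_schur` (`TT*` + Schur, on main).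
Every `sorry` is a leaf `L-MR-*`.  Statements are frozen; auxiliary lemmas directly above your theorem (prefix `mr_`); edit only your block.
-/

set_option autoImplicit false
open MeasureTheory Set Metric
open scoped ENNReal NNReal RealInnerProductSpace ComplexConjugate
open Claimed.Agent.BD

namespace Claimed.Agent.MR

variable {V : Type} [NormedAddCommGroup V] [InnerProductSpace ℝ V] [FiniteDimensional ℝ V] [MeasurableSpace V] [BorelSpace V]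

/-- the Gram kernel of `Sop` -/
noncomputable def gram (ϱ : ℝ) (b b' : V × ℝ) (η η' : V) : ℂ :=
  ∫ ξ, ((Real.exp (-(ϱ ^ 2 * ‖η - ξ‖ ^ 2 / 2)) * Real.exp (-(ϱ ^ 2 * ‖η' - ξ‖ ^ 2 / 2)) : ℝ) : ℂ) * (ch (pr b (gam ξ)) * conj (ch (pr b' (gam ξ))))

/-- the integrand of `gram` after the shift `ξ = (η + η')/2 + ζ`. -/
theorem mr_gram_shift (ϱ : ℝ) (b b' : V × ℝ) (η η' ζ : V) :
    ((Real.exp (-(ϱ ^ 2 * ‖η - ((1 / 2 : ℝ) • (η + η') + ζ)‖ ^ 2 / 2)) * Real.exp (-(ϱ ^ 2 * ‖η' - ((1 / 2 : ℝ) • (η + η') + ζ)‖ ^ 2 / 2)) : ℝ) : ℂ)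
        * (ch (pr b (gam ((1 / 2 : ℝ) • (η + η') + ζ))) * conj (ch (pr b' (gam ((1 / 2 : ℝ) • (η + η') + ζ)))))
      = (((Real.exp (-(ϱ ^ 2 * ‖η - η'‖ ^ 2 / 4)) : ℝ) : ℂ) * ch (⟪b.1 - b'.1, (1 / 2 : ℝ) • (η + η')⟫ + (b.2 - b'.2) * ‖(1 / 2 : ℝ) • (η + η')‖ ^ 2))
        * Complex.exp (-(((ϱ ^ 2 : ℝ) : ℂ) - ((b.2 - b'.2 : ℝ) : ℂ) * Complex.I) * (‖ζ‖ : ℂ) ^ 2
            + Complex.I * ((⟪(b.1 - b'.1) + (b.2 - b'.2) • (η + η'), ζ⟫ : ℝ) : ℂ)) := by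
  set m : V := (1 / 2 : ℝ) • (η + η') with hm
  have e1 : ‖η - (m + ζ)‖ ^ 2 + ‖η' - (m + ζ)‖ ^ 2 = ‖η - η'‖ ^ 2 / 2 + 2 * ‖ζ‖ ^ 2 := by
    have a1 : η - (m + ζ) = (1 / 2 : ℝ) • (η - η') - ζ := by
      rw [hm]; module
    have a2 : η' - (m + ζ) = -((1 / 2 : ℝ) • (η - η')) - ζ := by
      rw [hm]; module
    rw [a1, a2, norm_sub_sq_real, norm_sub_sq_real, norm_neg, inner_neg_left, norm_smul]
    norm_num
    ring
  have e2 : pr b (gam (m + ζ)) - pr b' (gam (m + ζ))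
      = (⟪b.1 - b'.1, m⟫ + (b.2 - b'.2) * ‖m‖ ^ 2) + (⟪(b.1 - b'.1) + (b.2 - b'.2) • (η + η'), ζ⟫ + (b.2 - b'.2) * ‖ζ‖ ^ 2) := by
    have a3 : ⟪η + η', ζ⟫ = 2 * ⟪m, ζ⟫ := by
      rw [hm, inner_smul_left]; simp
    have a4 : ⟪(b.2 - b'.2) • (η + η'), ζ⟫ = (b.2 - b'.2) * (2 * ⟪m, ζ⟫) := by
      rw [inner_smul_left, a3]; simp
    simp only [pr, gam]
    rw [norm_add_sq_real, inner_add_left, inner_sub_left, inner_sub_left, inner_add_right,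
      inner_add_right, a4]
    ring
  rw [bde_ch_conj, ← ch_add, ← Real.exp_add]
  have e3 : pr b (gam (m + ζ)) + -pr b' (gam (m + ζ)) = pr b (gam (m + ζ)) - pr b' (gam (m + ζ)) := by ring
  rw [e3, e2, ch_add]
  have e4 : -(ϱ ^ 2 * ‖η - (m + ζ)‖ ^ 2 / 2) + -(ϱ ^ 2 * ‖η' - (m + ζ)‖ ^ 2 / 2)
      = -(ϱ ^ 2 * ‖η - η'‖ ^ 2 / 4) + -(ϱ ^ 2 * ‖ζ‖ ^ 2) := by
    have : -(ϱ ^ 2 * ‖η - (m + ζ)‖ ^ 2 / 2) + -(ϱ ^ 2 * ‖η' - (m + ζ)‖ ^ 2 / 2)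
      = -(ϱ ^ 2 / 2 * (‖η - (m + ζ)‖ ^ 2 + ‖η' - (m + ζ)‖ ^ 2)) := by ring
    rw [this, e1]; ring
  rw [e4, Real.exp_add]
  have e5 : Complex.exp (-(((ϱ ^ 2 : ℝ) : ℂ) - ((b.2 - b'.2 : ℝ) : ℂ) * Complex.I) * (‖ζ‖ : ℂ) ^ 2
            + Complex.I * ((⟪(b.1 - b'.1) + (b.2 - b'.2) • (η + η'), ζ⟫ : ℝ) : ℂ))
      = ((Real.exp (-(ϱ ^ 2 * ‖ζ‖ ^ 2)) : ℝ) : ℂ) * ch (⟪(b.1 - b'.1) + (b.2 - b'.2) • (η + η'), ζ⟫ + (b.2 - b'.2) * ‖ζ‖ ^ 2) := by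
    unfold ch
    rw [Complex.ofReal_exp, ← Complex.exp_add]
    congr 1
    push_cast
    ring
  rw [e5]
  push_cast
  ring

/-- **LEAF L-MR-GRAM: the Gram kernel is an explicit Gaussian.**   `Δ = b.1 - b'.1`, `s = b.2 - b'.2`.
PLAN.  Substitute `ξ = (η + η')/2 + ζ` (`integral_add_left_eq_self`/`integral_sub_right_eq_self`):  `‖η - ξ‖² + ‖η' - ξ‖² = ‖η - η'‖²/2 + 2‖ζ‖²` (parallelogram),  `pr b (gam ξ) - pr b' (gam ξ) = ⟪Δ,ξ⟫ + s‖ξ‖² = const + ⟪Δ + s(η+η'), ζ⟫ + s‖ζ‖²`.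
So `gram = e^{-ϱ²‖η-η'‖²/4} · unimodular · ∫ cexp (-(ϱ² - i s) ‖ζ‖² + i ⟪w, ζ⟫) dζ`, `w = Δ + s (η + η')`;  Mathlib formula with `b = ϱ² - i s`, `c = i`:  `(π/b)^(k/2) cexp (-‖w‖²/(4b))`.
`‖(π/b)^(k/2)‖ = (π/‖b‖)^(k/2)` (`Complex.norm_cpow_of_ne_zero`, exponent real), `‖b‖ = √(ϱ⁴ + s²)`, `Re (1/(4b)) = ϱ²/(4(ϱ⁴+s²))` (`Complex.norm_exp`). -/
theorem gram_norm_le {ϱ : ℝ} (hϱ : 0 < ϱ) (b b' : V × ℝ) (η η' : V) :
    ‖gram ϱ b b' η η'‖ ≤ (Real.pi / Real.sqrt (ϱ ^ 4 + (b.2 - b'.2) ^ 2)) ^ ((Module.finrank ℝ V : ℝ) / 2) * Real.exp (-(ϱ ^ 2 * ‖η - η'‖ ^ 2 / 4)) *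
      Real.exp (-(ϱ ^ 2 * ‖(b.1 - b'.1) + (b.2 - b'.2) • (η + η')‖ ^ 2 / (4 * (ϱ ^ 4 + (b.2 - b'.2) ^ 2)))) := by
  set s : ℝ := b.2 - b'.2 with hs
  set w : V := (b.1 - b'.1) + s • (η + η') with hw
  set bb : ℂ := ((ϱ ^ 2 : ℝ) : ℂ) - (s : ℂ) * Complex.I with hbb
  have hre : bb.re = ϱ ^ 2 := by
    rw [hbb]
    simp only [Complex.sub_re, Complex.ofReal_re, Complex.mul_re, Complex.I_re, Complex.I_im, Complex.ofReal_im]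
    ring
  have him : bb.im = -s := by
    rw [hbb]
    simp only [Complex.sub_im, Complex.ofReal_re, Complex.mul_im, Complex.I_re, Complex.I_im, Complex.ofReal_im]
    ring
  have hb0 : 0 < bb.re := by rw [hre]; positivity
  have hX : 0 < ϱ ^ 4 + s ^ 2 := by positivity
  have hns : Complex.normSq bb = ϱ ^ 4 + s ^ 2 := by
    rw [Complex.normSq_apply, hre, him]; ring
  have hnorm : ‖bb‖ = Real.sqrt (ϱ ^ 4 + s ^ 2) := by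
    rw [← hns, Complex.norm_def]
  have hg : gram ϱ b b' η η' = (((Real.exp (-(ϱ ^ 2 * ‖η - η'‖ ^ 2 / 4)) : ℝ) : ℂ) * ch (⟪b.1 - b'.1, (1 / 2 : ℝ) • (η + η')⟫ + s * ‖(1 / 2 : ℝ) • (η + η')‖ ^ 2))
      * (((Real.pi : ℂ) / bb) ^ ((Module.finrank ℝ V : ℂ) / 2) * Complex.exp (Complex.I ^ 2 * (‖w‖ : ℂ) ^ 2 / (4 * bb))) := by
    unfold gram
    rw [← integral_add_left_eq_self _ ((1 / 2 : ℝ) • (η + η'))]
    simp_rw [mr_gram_shift]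
    rw [integral_const_mul, ← GaussianFourier.integral_cexp_neg_mul_sq_norm_add hb0 Complex.I w]
  rw [hg, norm_mul, norm_mul, norm_mul, norm_ch, mul_one, Complex.norm_real,
    Real.norm_of_nonneg (Real.exp_pos _).le]
  have h1 : ‖((Real.pi : ℂ) / bb) ^ ((Module.finrank ℝ V : ℂ) / 2)‖
      = (Real.pi / Real.sqrt (ϱ ^ 4 + s ^ 2)) ^ ((Module.finrank ℝ V : ℝ) / 2) := by
    have e : ((Module.finrank ℝ V : ℂ) / 2) = (((Module.finrank ℝ V : ℝ) / 2 : ℝ) : ℂ) := by push_cast; ring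
    rw [e, Complex.norm_cpow_real, norm_div, hnorm, Complex.norm_real, Real.norm_of_nonneg Real.pi_pos.le]
  have h2 : ‖Complex.exp (Complex.I ^ 2 * (‖w‖ : ℂ) ^ 2 / (4 * bb))‖
      = Real.exp (-(ϱ ^ 2 * ‖w‖ ^ 2 / (4 * (ϱ ^ 4 + s ^ 2)))) := by
    rw [Complex.norm_exp]
    congr 1
    have e : Complex.I ^ 2 * (‖w‖ : ℂ) ^ 2 / (4 * bb) = ((-(‖w‖ ^ 2 / 4) : ℝ) : ℂ) * bb⁻¹ := by
      rw [Complex.I_sq]; push_cast
      rw [div_eq_mul_inv, mul_inv]; ring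
    rw [e, Complex.re_ofReal_mul, Complex.inv_re, hre, hns]
    field_simp
  rw [h1, h2]
  apply le_of_eq
  ring

theorem gauss_decay_exp (k : ℕ) {y : ℝ} (hy : 0 < y) : Real.exp (-y) ≤ (1 + (k.factorial : ℝ)) * y ^ (-((k : ℝ) / 4)) := by
  have hκ : (0 : ℝ) ≤ (k : ℝ) / 4 := by positivity
  have hκk : (k : ℝ) / 4 ≤ k := by
    have : (0 : ℝ) ≤ k := Nat.cast_nonneg k
    linarith
  have h1 : y ^ ((k : ℝ) / 4) ≤ 1 + y ^ k := by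
    rcases le_total y 1 with h | h
    · have := Real.rpow_le_one hy.le h hκ
      have : 0 ≤ y ^ k := by positivity
      linarith
    · have := Real.rpow_le_rpow_of_exponent_le h hκk
      rw [Real.rpow_natCast] at this
      linarith
  have hf : (0 : ℝ) < k.factorial := by exact_mod_cast k.factorial_pos
  have h2 : y ^ k ≤ k.factorial * Real.exp y := by
    have := Real.pow_div_factorial_le_exp y hy.le k
    rw [div_le_iff₀ hf] at this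
    linarith
  have h3 : 1 ≤ Real.exp y := Real.one_le_exp hy.le
  have h4 : y ^ ((k : ℝ) / 4) ≤ (1 + (k.factorial : ℝ)) * Real.exp y := by nlinarith
  have hyk : 0 < y ^ ((k : ℝ) / 4) := Real.rpow_pos_of_pos hy _
  rw [Real.exp_neg, Real.rpow_neg hy.le, ← div_eq_mul_inv, le_div_iff₀ hyk, inv_mul_le_iff₀ (Real.exp_pos y)]
  linarith

/-- **LEAF L-MR-GNUM: decay of the explicit kernel.**   Pure real analysis.
PLAN.  `X = ϱ⁴ + s²`, `κ = k/4`, `T' = T/(4 C₁ + 1)`.   If `|s| ≥ T'`: `√X ≥ |s| ≥ T'`, the exponential is `≤ 1`.   If `|s| < T'`: `‖Δ‖ ≥ T`, `‖Δ + s σ‖ ≥ T - 2 C₁ T' ≥ T/2`;  `e^{-y} ≤ (1 + n!) y^{-κ}` for `y > 0`, `n = k`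
(`y^κ ≤ 1 + y^n ≤ (1 + n!) e^y`: `Real.pow_div_factorial_le_exp`), with `y = ϱ² T²/(16 X)`:  `X^{-κ} y^{-κ} = (16/(ϱ² T²))^κ ≤ (32/T²)^κ`. -/
theorem gauss_decay (k : ℕ) (C₁ : ℝ) (hC₁ : 0 ≤ C₁) : ∃ C : ℝ, 0 ≤ C ∧ ∀ (ϱ s T D : ℝ), 1 / 2 ≤ ϱ ^ 2 → 0 < T → 0 ≤ D →
    (|s| < T / (4 * C₁ + 1) → T / 2 ≤ D) →
    (Real.pi / Real.sqrt (ϱ ^ 4 + s ^ 2)) ^ ((k : ℝ) / 2) * Real.exp (-(ϱ ^ 2 * D ^ 2 / (4 * (ϱ ^ 4 + s ^ 2)))) ≤ C * T ^ (-((k : ℝ) / 2)) := by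
  have hπ := Real.pi_pos
  have hh : (0 : ℝ) ≤ (k : ℝ) / 2 := by positivity
  have hκ : (0 : ℝ) ≤ (k : ℝ) / 4 := by positivity
  have hc : 0 < 4 * C₁ + 1 := by positivity
  refine ⟨(Real.pi * (4 * C₁ + 1)) ^ ((k : ℝ) / 2) + (1 + (k.factorial : ℝ)) * Real.pi ^ ((k : ℝ) / 2) * 32 ^ ((k : ℝ) / 4),
    by positivity, ?_⟩
  intro ϱ s T D hϱ hT hD hs
  obtain ⟨X, hX⟩ : ∃ X, X = ϱ ^ 4 + s ^ 2 := ⟨_, rfl⟩
  rw [← hX]
  have hX0 : 0 < X := by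
    rw [hX]
    have : ϱ ^ 4 = (ϱ ^ 2) ^ 2 := by ring
    nlinarith [sq_nonneg s]
  have hsX : 0 < Real.sqrt X := Real.sqrt_pos.2 hX0
  have hTh : 0 < T ^ (-((k : ℝ) / 2)) := Real.rpow_pos_of_pos hT _
  have hA : 0 ≤ (Real.pi * (4 * C₁ + 1)) ^ ((k : ℝ) / 2) := by positivity
  have hB : 0 ≤ (1 + (k.factorial : ℝ)) * Real.pi ^ ((k : ℝ) / 2) * 32 ^ ((k : ℝ) / 4) := by positivity
  by_cases hcase : |s| < T / (4 * C₁ + 1)
  · -- small `s`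
    have hDT := hs hcase
    obtain ⟨y₀, hy₀⟩ : ∃ y, y = ϱ ^ 2 * T ^ 2 / (16 * X) := ⟨_, rfl⟩
    have hϱ0 : 0 < ϱ ^ 2 := by linarith
    have hy₀0 : 0 < y₀ := by rw [hy₀]; positivity
    have hyy : y₀ ≤ ϱ ^ 2 * D ^ 2 / (4 * X) := by
      rw [hy₀, div_le_div_iff₀ (by positivity) (by positivity)]
      have : T ^ 2 ≤ 4 * D ^ 2 := by nlinarith
      have h5 : ϱ ^ 2 * T ^ 2 ≤ ϱ ^ 2 * (4 * D ^ 2) := mul_le_mul_of_nonneg_left this hϱ0.le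
      have h6 := mul_le_mul_of_nonneg_right h5 (by positivity : (0 : ℝ) ≤ 4 * X)
      nlinarith
    have e1 : Real.exp (-(ϱ ^ 2 * D ^ 2 / (4 * X))) ≤ (1 + (k.factorial : ℝ)) * y₀ ^ (-((k : ℝ) / 4)) :=
      (Real.exp_le_exp.2 (by linarith)).trans (gauss_decay_exp k hy₀0)
    have e2 : (Real.pi / Real.sqrt X) ^ ((k : ℝ) / 2) = Real.pi ^ ((k : ℝ) / 2) * X ^ (-((k : ℝ) / 4)) := by
      rw [Real.div_rpow hπ.le hsX.le, Real.sqrt_eq_rpow, ← Real.rpow_mul hX0.le, Real.rpow_neg hX0.le, div_eq_mul_inv]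
      congr 3
      ring
    have e3 : X ^ (-((k : ℝ) / 4)) * y₀ ^ (-((k : ℝ) / 4)) ≤ 32 ^ ((k : ℝ) / 4) * T ^ (-((k : ℝ) / 2)) := by
      rw [← Real.mul_rpow hX0.le hy₀0.le]
      have e4 : X * y₀ = ϱ ^ 2 * T ^ 2 / 16 := by rw [hy₀]; field_simp
      rw [e4]
      have e5 : (ϱ ^ 2 * T ^ 2 / 16) ^ (-((k : ℝ) / 4)) ≤ (T ^ 2 / 32) ^ (-((k : ℝ) / 4)) := by
        refine Real.rpow_le_rpow_of_nonpos (by positivity) ?_ (by linarith)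
        have : 0 < T ^ 2 := by positivity
        nlinarith
      refine e5.trans (le_of_eq ?_)
      rw [Real.div_rpow (by positivity) (by norm_num), ← Real.rpow_natCast T 2, ← Real.rpow_mul hT.le,
        Real.rpow_neg (by norm_num : (0 : ℝ) ≤ 32), div_inv_eq_mul, mul_comm]
      congr 2
      push_cast
      ring
    calc (Real.pi / Real.sqrt X) ^ ((k : ℝ) / 2) * Real.exp (-(ϱ ^ 2 * D ^ 2 / (4 * X)))
        ≤ (Real.pi ^ ((k : ℝ) / 2) * X ^ (-((k : ℝ) / 4))) * ((1 + (k.factorial : ℝ)) * y₀ ^ (-((k : ℝ) / 4))) := by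
          rw [e2]
          exact mul_le_mul_of_nonneg_left e1 (by positivity)
      _ = (1 + (k.factorial : ℝ)) * Real.pi ^ ((k : ℝ) / 2) * (X ^ (-((k : ℝ) / 4)) * y₀ ^ (-((k : ℝ) / 4))) := by ring
      _ ≤ (1 + (k.factorial : ℝ)) * Real.pi ^ ((k : ℝ) / 2) * (32 ^ ((k : ℝ) / 4) * T ^ (-((k : ℝ) / 2))) :=
          mul_le_mul_of_nonneg_left e3 (by positivity)
      _ = ((1 + (k.factorial : ℝ)) * Real.pi ^ ((k : ℝ) / 2) * 32 ^ ((k : ℝ) / 4)) * T ^ (-((k : ℝ) / 2)) := by ring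
      _ ≤ _ := mul_le_mul_of_nonneg_right (by linarith) hTh.le
  · -- large `s`
    rw [not_lt] at hcase
    have hT' : 0 < T / (4 * C₁ + 1) := by positivity
    have h1 : T / (4 * C₁ + 1) ≤ Real.sqrt X := by
      refine hcase.trans (Real.abs_le_sqrt ?_)
      rw [hX]
      have : 0 ≤ ϱ ^ 4 := by positivity
      linarith
    have h2 : Real.pi / Real.sqrt X ≤ Real.pi * (4 * C₁ + 1) / T := by
      have : Real.pi * (4 * C₁ + 1) / T = Real.pi / (T / (4 * C₁ + 1)) := by field_simp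
      rw [this]
      exact div_le_div_of_nonneg_left hπ.le hT' h1
    have h3 : (Real.pi / Real.sqrt X) ^ ((k : ℝ) / 2) ≤ (Real.pi * (4 * C₁ + 1)) ^ ((k : ℝ) / 2) * T ^ (-((k : ℝ) / 2)) := by
      refine (Real.rpow_le_rpow (by positivity) h2 hh).trans (le_of_eq ?_)
      rw [Real.div_rpow (by positivity) hT.le, Real.rpow_neg hT.le, div_eq_mul_inv]
    have h4 : Real.exp (-(ϱ ^ 2 * D ^ 2 / (4 * X))) ≤ 1 := by
      rw [Real.exp_le_one_iff]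
      have : 0 ≤ ϱ ^ 2 * D ^ 2 / (4 * X) := by positivity
      linarith
    calc (Real.pi / Real.sqrt X) ^ ((k : ℝ) / 2) * Real.exp (-(ϱ ^ 2 * D ^ 2 / (4 * X)))
        ≤ ((Real.pi * (4 * C₁ + 1)) ^ ((k : ℝ) / 2) * T ^ (-((k : ℝ) / 2))) * 1 :=
          mul_le_mul h3 h4 (Real.exp_pos _).le (by positivity)
      _ = (Real.pi * (4 * C₁ + 1)) ^ ((k : ℝ) / 2) * T ^ (-((k : ℝ) / 2)) := mul_one _
      _ ≤ _ := mul_le_mul_of_nonneg_right (by linarith) hTh.le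

/-- **LEAF L-MR-GOFF: off-diagonal bound of the Gram kernel.**   `gram_norm_le`, `gauss_decay (finrank) C₁` with `D = ‖Δ + s (η+η')‖`:  if `|s| < T/(4C₁+1)` then `‖Δ‖ ≥ T` (sup norm of `b - b'`: `Prod.norm_def`) and `‖s (η+η')‖ ≤ 2 C₁ |s| ≤ T/2`. -/
theorem gram_off (C₁ : ℝ) (hC₁ : 0 ≤ C₁) : ∃ C : ℝ, 0 ≤ C ∧ ∀ (ϱ T : ℝ) (b b' : V × ℝ) (η η' : V), 0 < ϱ → 1 / 2 ≤ ϱ ^ 2 → 0 < T → T ≤ ‖b - b'‖ → ‖η‖ ≤ C₁ → ‖η'‖ ≤ C₁ →
    ‖gram ϱ b b' η η'‖ ≤ C * T ^ (-((Module.finrank ℝ V : ℝ) / 2)) * Real.exp (-(ϱ ^ 2 * ‖η - η'‖ ^ 2 / 4)) := by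
  obtain ⟨C, hC0, hC⟩ := gauss_decay (Module.finrank ℝ V) C₁ hC₁
  refine ⟨C, hC0, fun ϱ T b b' η η' hϱ hϱ2 hT hTb hη hη' => ?_⟩
  have h1 := gram_norm_le hϱ b b' η η'
  have hcond : |b.2 - b'.2| < T / (4 * C₁ + 1) → T / 2 ≤ ‖(b.1 - b'.1) + (b.2 - b'.2) • (η + η')‖ := by
    intro hs
    have hc : 0 < 4 * C₁ + 1 := by positivity
    have hs' : |b.2 - b'.2| * (4 * C₁ + 1) < T := (lt_div_iff₀ hc).1 hs
    have hsT : |b.2 - b'.2| < T := by nlinarith [abs_nonneg (b.2 - b'.2)]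
    have hΔ : T ≤ ‖b.1 - b'.1‖ := by
      rw [Prod.norm_def] at hTb
      rcases le_max_iff.1 hTb with h | h
      · exact h
      · exact absurd (lt_of_le_of_lt h hsT) (lt_irrefl _)
    have h2 : ‖(b.2 - b'.2) • (η + η')‖ ≤ |b.2 - b'.2| * (2 * C₁) := by
      rw [norm_smul, Real.norm_eq_abs]
      exact mul_le_mul_of_nonneg_left ((norm_add_le _ _).trans (by linarith)) (abs_nonneg _)
    have h3 : ‖b.1 - b'.1‖ - ‖(b.2 - b'.2) • (η + η')‖ ≤ ‖(b.1 - b'.1) + (b.2 - b'.2) • (η + η')‖ := by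
      have := norm_sub_norm_le (b.1 - b'.1) (-((b.2 - b'.2) • (η + η')))
      rwa [norm_neg, sub_neg_eq_add] at this
    nlinarith [abs_nonneg (b.2 - b'.2)]
  have h2 := hC ϱ (b.2 - b'.2) T ‖(b.1 - b'.1) + (b.2 - b'.2) • (η + η')‖ hϱ2 hT (norm_nonneg _) hcond
  refine h1.trans ?_
  have h3 := mul_le_mul_of_nonneg_right h2 (Real.exp_pos (-(ϱ ^ 2 * ‖η - η'‖ ^ 2 / 4))).le
  refine le_trans (le_of_eq ?_) h3
  ring

/-- **LEAF L-MR-GDIAG.**   `gram_norm_le`, `√(ϱ⁴ + s²) ≥ ϱ²`, last exponential `≤ 1`. -/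
theorem gram_diag {ϱ : ℝ} (hϱ : 0 < ϱ) (b b' : V × ℝ) (η η' : V) :
    ‖gram ϱ b b' η η'‖ ≤ (Real.pi / ϱ ^ 2) ^ ((Module.finrank ℝ V : ℝ) / 2) * Real.exp (-(ϱ ^ 2 * ‖η - η'‖ ^ 2 / 4)) := by
  refine (gram_norm_le hϱ b b' η η').trans ?_
  have hπ := Real.pi_pos
  have h1 : ϱ ^ 2 ≤ Real.sqrt (ϱ ^ 4 + (b.2 - b'.2) ^ 2) := by
    refine Real.le_sqrt_of_sq_le ?_
    nlinarith [sq_nonneg (b.2 - b'.2)]
  have h2 : (Real.pi / Real.sqrt (ϱ ^ 4 + (b.2 - b'.2) ^ 2)) ^ ((Module.finrank ℝ V : ℝ) / 2) ≤ (Real.pi / ϱ ^ 2) ^ ((Module.finrank ℝ V : ℝ) / 2) :=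
    Real.rpow_le_rpow (by positivity) (div_le_div_of_nonneg_left hπ.le (by positivity) h1) (by positivity)
  have h3 : Real.exp (-(ϱ ^ 2 * ‖(b.1 - b'.1) + (b.2 - b'.2) • (η + η')‖ ^ 2 / (4 * (ϱ ^ 4 + (b.2 - b'.2) ^ 2)))) ≤ 1 := by
    rw [Real.exp_le_one_iff, neg_nonpos]
    positivity
  calc _ ≤ (Real.pi / ϱ ^ 2) ^ ((Module.finrank ℝ V : ℝ) / 2) * Real.exp (-(ϱ ^ 2 * ‖η - η'‖ ^ 2 / 4)) * 1 :=
        mul_le_mul (mul_le_mul_of_nonneg_right h2 (Real.exp_pos _).le) h3 (Real.exp_pos _).le (by positivity)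
    _ = _ := mul_one _

/-- shifted real Gaussians are integrable. -/
theorem mr_gauss_integrable {c : ℝ} (hc : 0 < c) (a : V) : Integrable fun x : V => Real.exp (-(c * ‖x - a‖ ^ 2)) := by
  have h0 : Integrable fun x : V => Real.exp (-(c * ‖x‖ ^ 2)) := by
    have h := GaussianFourier.integrable_cexp_neg_mul_sq_norm_add (V := V) (b := (c : ℂ)) (by simpa using hc) 0 0
    have h2 := h.norm
    refine h2.congr (Filter.Eventually.of_forall fun x => ?_)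
    simp only [Complex.norm_exp]
    congr 1
    simp [← Complex.ofReal_pow, ← Complex.ofReal_mul, ← Complex.ofReal_neg]
  exact h0.comp_sub_right a

theorem mr_gauss_integral {c : ℝ} (hc : 0 < c) (a : V) :
    ∫ x : V, Real.exp (-(c * ‖x - a‖ ^ 2)) = (Real.pi / c) ^ ((Module.finrank ℝ V : ℝ) / 2) := by
  rw [integral_sub_right_eq_self (fun x : V => Real.exp (-(c * ‖x‖ ^ 2))) a,
    ← GaussianFourier.integral_rexp_neg_mul_sq_norm hc]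
  simp only [neg_mul]

/-- expansion of the square of an integral operator (`TT*` identity). -/
theorem mr_sq_expand {X : Type*} [MeasurableSpace X] (μ : Measure X) [SFinite μ] (K : X → V → ℂ)
    (hK : Measurable (Function.uncurry K)) (κ : X → ℝ) (hκ : Integrable (fun x => κ x ^ 2) μ)
    (H : V → ℂ) (hHm : Measurable H) (hH : Integrable H) (hKκ : ∀ x ξ, ‖K x ξ * H ξ‖ ≤ κ x * ‖H ξ‖) :
    Integrable (fun x => ‖∫ ξ, K x ξ * H ξ‖ ^ 2) μ ∧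
    ((∫ x, ‖∫ ξ, K x ξ * H ξ‖ ^ 2 ∂μ : ℝ) : ℂ)
      = ∫ p : V × V, H p.1 * conj (H p.2) * ∫ x, K x p.1 * conj (K x p.2) ∂μ := by
  have hK' : Measurable fun q : X × V => K q.1 q.2 := hK
  have hcj : Measurable (fun w : ℂ => conj w) := Complex.continuous_conj.measurable
  have hKH : ∀ x, Integrable fun ξ => K x ξ * H ξ := fun x => by
    refine (hH.norm.const_mul (κ x)).mono' ?_ (Filter.Eventually.of_forall (hKκ x))
    exact ((hK'.comp (measurable_const.prodMk measurable_id)).mul hHm).aestronglyMeasurable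
  set T : X → ℂ := fun x => ∫ ξ, K x ξ * H ξ with hT
  have hTm : Measurable T := by
    have hm : Measurable (Function.uncurry fun x ξ => K x ξ * H ξ) := hK'.mul (hHm.comp measurable_snd)
    exact (hm.stronglyMeasurable.integral_prod_right).measurable
  set N : ℝ := ∫ ξ, ‖H ξ‖ with hN
  have hTb : ∀ x, ‖T x‖ ^ 2 ≤ κ x ^ 2 * N ^ 2 := fun x => by
    have h1 : ‖T x‖ ≤ κ x * N := by
      refine (norm_integral_le_integral_norm _).trans ?_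
      rw [hN, ← integral_const_mul]
      exact integral_mono (hKH x).norm (hH.norm.const_mul _) (hKκ x)
    rw [← mul_pow]
    exact pow_le_pow_left₀ (norm_nonneg _) h1 2
  have hTi : Integrable (fun x => ‖T x‖ ^ 2) μ := by
    refine (hκ.mul_const (N ^ 2)).mono' (hTm.norm.pow_const 2).aestronglyMeasurable
      (Filter.Eventually.of_forall fun x => ?_)
    rw [Real.norm_of_nonneg (by positivity)]
    exact hTb x
  refine ⟨hTi, ?_⟩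
  -- the triple function
  set F : X → V × V → ℂ := fun x p => (K x p.1 * H p.1) * conj (K x p.2 * H p.2) with hF
  have hFm : Measurable (Function.uncurry F) := by
    have m1 : Measurable fun q : X × (V × V) => K q.1 q.2.1 * H q.2.1 :=
      (hK'.comp (measurable_fst.prodMk (measurable_fst.comp measurable_snd))).mul
        (hHm.comp (measurable_fst.comp measurable_snd))
    have m2 : Measurable fun q : X × (V × V) => K q.1 q.2.2 * H q.2.2 :=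
      (hK'.comp (measurable_fst.prodMk (measurable_snd.comp measurable_snd))).mul
        (hHm.comp (measurable_snd.comp measurable_snd))
    exact m1.mul (hcj.comp m2)
  have hFi : Integrable (Function.uncurry F) (μ.prod (volume : Measure (V × V))) := by
    have hb : Integrable (fun q : X × (V × V) => κ q.1 ^ 2 * (‖H q.2.1‖ * ‖H q.2.2‖))
        (μ.prod (volume : Measure (V × V))) :=
      hκ.mul_prod (hH.norm.mul_prod hH.norm)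
    refine hb.mono' hFm.aestronglyMeasurable (Filter.Eventually.of_forall fun q => ?_)
    simp only [Function.uncurry, hF, norm_mul, RCLike.norm_conj]
    have h1 := hKκ q.1 q.2.1
    have h2 := hKκ q.1 q.2.2
    rw [norm_mul] at h1 h2
    calc ‖K q.1 q.2.1‖ * ‖H q.2.1‖ * (‖K q.1 q.2.2‖ * ‖H q.2.2‖)
        ≤ (κ q.1 * ‖H q.2.1‖) * (κ q.1 * ‖H q.2.2‖) :=
          mul_le_mul h1 h2 (by positivity) (le_trans (by positivity) h1)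
      _ = _ := by ring
  have e1 : ∀ x, ((‖T x‖ ^ 2 : ℝ) : ℂ) = ∫ p : V × V, F x p := fun x => by
    have : ∫ p : V × V, F x p = (∫ ξ, K x ξ * H ξ) * ∫ ξ, conj (K x ξ * H ξ) :=
      integral_prod_mul (fun ξ => K x ξ * H ξ) fun ξ => conj (K x ξ * H ξ)
    rw [this, integral_conj, Complex.mul_conj']
    push_cast
    rfl
  have e0 : ((∫ x, ‖∫ ξ, K x ξ * H ξ‖ ^ 2 ∂μ : ℝ) : ℂ) = ∫ x, ((‖T x‖ ^ 2 : ℝ) : ℂ) ∂μ :=
    (integral_ofReal (𝕜 := ℂ)).symm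
  rw [e0]
  simp_rw [e1]
  rw [integral_integral_swap hFi]
  refine integral_congr_ae (Filter.Eventually.of_forall fun p => ?_)
  simp only [hF]
  rw [← integral_const_mul]
  refine integral_congr_ae (Filter.Eventually.of_forall fun x => ?_)
  simp only [map_mul]
  ring

/-- the Gram kernel of the Gaussian window in `x`. -/
theorem mr_gram_x {ϱ : ℝ} (hϱ : 0 < ϱ) (a ξ ξ' : V) :
    ∫ x : V, (((Real.exp (-(‖x - a‖ ^ 2 / (2 * ϱ ^ 2))) : ℝ) : ℂ) * ch ⟪x - a, ξ⟫)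
        * conj (((Real.exp (-(‖x - a‖ ^ 2 / (2 * ϱ ^ 2))) : ℝ) : ℂ) * ch ⟪x - a, ξ'⟫)
      = (((Real.pi * ϱ ^ 2) ^ ((Module.finrank ℝ V : ℝ) / 2) * Real.exp (-(ϱ ^ 2 * ‖ξ - ξ'‖ ^ 2 / 4)) : ℝ) : ℂ) := by
  set c : ℝ := (ϱ ^ 2)⁻¹ with hc
  have hc0 : 0 < c := by positivity
  have h1 := GaussianFourier.integral_cexp_neg_mul_sq_norm_add (V := V) (b := (c : ℂ)) (by simpa using hc0)
    Complex.I (ξ - ξ')
  have e1 : ∀ x : V, (((Real.exp (-(‖x - a‖ ^ 2 / (2 * ϱ ^ 2))) : ℝ) : ℂ) * ch ⟪x - a, ξ⟫)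
        * conj (((Real.exp (-(‖x - a‖ ^ 2 / (2 * ϱ ^ 2))) : ℝ) : ℂ) * ch ⟪x - a, ξ'⟫)
      = (fun y : V => Complex.exp (-(c : ℂ) * (‖y‖ : ℂ) ^ 2 + Complex.I * ((⟪ξ - ξ', y⟫ : ℝ) : ℂ))) (x - a) := by
    intro x
    simp only [map_mul, Complex.conj_ofReal, bde_ch_conj]
    have : ((Real.exp (-(‖x - a‖ ^ 2 / (2 * ϱ ^ 2))) : ℝ) : ℂ) * ch ⟪x - a, ξ⟫
        * (((Real.exp (-(‖x - a‖ ^ 2 / (2 * ϱ ^ 2))) : ℝ) : ℂ) * ch (-⟪x - a, ξ'⟫))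
        = ((Real.exp (-(‖x - a‖ ^ 2 / (2 * ϱ ^ 2))) * Real.exp (-(‖x - a‖ ^ 2 / (2 * ϱ ^ 2))) : ℝ) : ℂ)
          * (ch ⟪x - a, ξ⟫ * ch (-⟪x - a, ξ'⟫)) := by push_cast; ring
    rw [this, ← ch_add, ← Real.exp_add]
    unfold ch
    rw [Complex.ofReal_exp, ← Complex.exp_add]
    congr 1
    have e5 : ⟪ξ - ξ', x - a⟫ = ⟪x - a, ξ⟫ + -⟪x - a, ξ'⟫ := by
      rw [inner_sub_left, real_inner_comm, real_inner_comm ξ']; ring
    rw [e5, hc]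
    push_cast
    field_simp
    ring
  simp_rw [e1]
  rw [integral_sub_right_eq_self (fun y : V => Complex.exp (-(c : ℂ) * (‖y‖ : ℂ) ^ 2 + Complex.I * ((⟪ξ - ξ', y⟫ : ℝ) : ℂ))) a, h1]
  have e2 : ((Real.pi : ℂ) / (c : ℂ)) ^ ((Module.finrank ℝ V : ℂ) / 2)
      = (((Real.pi * ϱ ^ 2) ^ ((Module.finrank ℝ V : ℝ) / 2) : ℝ) : ℂ) := by
    rw [Complex.ofReal_cpow (by positivity)]
    congr 1
    · rw [hc]; push_cast; field_simp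
    · push_cast; ring
  have e3 : Complex.exp (Complex.I ^ 2 * (‖ξ - ξ'‖ : ℂ) ^ 2 / (4 * (c : ℂ)))
      = ((Real.exp (-(ϱ ^ 2 * ‖ξ - ξ'‖ ^ 2 / 4)) : ℝ) : ℂ) := by
    rw [Complex.ofReal_exp]
    congr 1
    rw [Complex.I_sq, hc]
    push_cast
    field_simp
  rw [e2, e3]
  push_cast
  ring

/-- the Gram kernel of the Gaussian localisation in frequency. -/
theorem mr_gram_eta {ϱ : ℝ} (hϱ : 0 < ϱ) (ξ ξ' : V) :
    ∫ η : V, ((Real.exp (-(ϱ ^ 2 * ‖η - ξ‖ ^ 2 / 2)) : ℝ) : ℂ) * conj ((Real.exp (-(ϱ ^ 2 * ‖η - ξ'‖ ^ 2 / 2)) : ℝ) : ℂ)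
      = (((Real.pi / ϱ ^ 2) ^ ((Module.finrank ℝ V : ℝ) / 2) * Real.exp (-(ϱ ^ 2 * ‖ξ - ξ'‖ ^ 2 / 4)) : ℝ) : ℂ) := by
  have e1 : ∀ η : V, ((Real.exp (-(ϱ ^ 2 * ‖η - ξ‖ ^ 2 / 2)) : ℝ) : ℂ) * conj ((Real.exp (-(ϱ ^ 2 * ‖η - ξ'‖ ^ 2 / 2)) : ℝ) : ℂ)
      = ((Real.exp (-(ϱ ^ 2 * ‖η - (1 / 2 : ℝ) • (ξ + ξ')‖ ^ 2)) * Real.exp (-(ϱ ^ 2 * ‖ξ - ξ'‖ ^ 2 / 4)) : ℝ) : ℂ) := by
    intro η
    rw [Complex.conj_ofReal, ← Complex.ofReal_mul, ← Real.exp_add, ← Real.exp_add]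
    congr 2
    set ζ : V := η - (1 / 2 : ℝ) • (ξ + ξ') with hζ
    have a1 : η - ξ = ζ - (1 / 2 : ℝ) • (ξ - ξ') := by rw [hζ]; module
    have a2 : η - ξ' = ζ + (1 / 2 : ℝ) • (ξ - ξ') := by rw [hζ]; module
    rw [a1, a2, norm_sub_sq_real, norm_add_sq_real, norm_smul]
    norm_num
    ring
  simp_rw [e1]
  have e2 : ∫ η : V, ((Real.exp (-(ϱ ^ 2 * ‖η - (1 / 2 : ℝ) • (ξ + ξ')‖ ^ 2)) * Real.exp (-(ϱ ^ 2 * ‖ξ - ξ'‖ ^ 2 / 4)) : ℝ) : ℂ)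
      = ((∫ η : V, Real.exp (-(ϱ ^ 2 * ‖η - (1 / 2 : ℝ) • (ξ + ξ')‖ ^ 2)) * Real.exp (-(ϱ ^ 2 * ‖ξ - ξ'‖ ^ 2 / 4)) : ℝ) : ℂ) :=
    integral_ofReal (𝕜 := ℂ)
  rw [e2, integral_mul_const, mr_gauss_integral (by positivity)]

theorem mr_pow_id {ϱ : ℝ} (hϱ : 0 < ϱ) (k : ℕ) :
    (Real.pi * ϱ ^ 2) ^ ((k : ℝ) / 2) = ϱ ^ (2 * k) * (Real.pi / ϱ ^ 2) ^ ((k : ℝ) / 2) := by
  have e : Real.pi * ϱ ^ 2 = ϱ ^ 4 * (Real.pi / ϱ ^ 2) := by field_simp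
  rw [e, Real.mul_rpow (by positivity) (by positivity)]
  congr 1
  rw [← Real.rpow_natCast ϱ 4, ← Real.rpow_mul hϱ.le, ← Real.rpow_natCast ϱ (2 * k)]
  congr 1
  push_cast
  ring

/-- **LEAF L-MR-SLICE: Gaussian window in `x` = Gaussian localisation in frequency** (in fact an equality).
PLAN.  Both sides equal a constant times `I = ∫∫ g ξ conj(g ξ') e^{i(pr (a,t) (gam ξ) - pr (a,t) (gam ξ'))} e^{-ϱ²‖ξ-ξ'‖²/4} dξ dξ'`.   Expand the squares (`‖w‖² = w conj w`), Fubini (`g` bounded with bounded support: `Dat.integrable`; Gaussians integrable):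
`∫_x e^{i⟪x, ξ-ξ'⟫} e^{-‖x-a‖²/ϱ²} dx = e^{i⟪a,ξ-ξ'⟫} (π ϱ²)^(k/2) e^{-ϱ²‖ξ-ξ'‖²/4}` (Mathlib formula, `b = ϱ⁻²`, `c = i`),    `∫_η e^{-ϱ²‖η-ξ‖²/2 - ϱ²‖η-ξ'‖²/2} dη = (π/ϱ²)^(k/2) e^{-ϱ²‖ξ-ξ'‖²/4}`;    `(πϱ²)^(k/2) = ϱ^(2k) (π/ϱ²)^(k/2)`.
Convert `∫⁻ ‖·‖ₑ²` to Bochner integrals by `ofReal_integral_eq_lintegral_ofReal` (both integrands are integrable: bounded times Gaussian; `‖Sop η‖ ≤ ∫ |g ξ| e^{-ϱ²‖η-ξ‖²/2}`). -/
theorem slice_le {C₀ : ℝ} {g : V → ℂ} (hg : Dat C₀ g) {ϱ : ℝ} (hϱ : 0 < ϱ) (a : V) (t : ℝ) :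
    ∫⁻ x : V, ‖ext g (x, t)‖ₑ ^ (2 : ℝ) * ENNReal.ofReal (Real.exp (-(‖x - a‖ ^ 2 / ϱ ^ 2))) ≤
      ENNReal.ofReal (ϱ ^ (2 * Module.finrank ℝ V)) * ∫⁻ η : V, ‖Sop ϱ (a, t) g η‖ₑ ^ (2 : ℝ) := by
  set H : V → ℂ := fun ξ => ch (pr (a, t) (gam ξ)) * g ξ with hH
  have hchm : Measurable fun ξ : V => ch (pr (a, t) (gam ξ)) := by
    apply Continuous.measurable
    unfold pr gam
    exact bde_ch_cont.comp (by fun_prop)
  have hHm : Measurable H := hchm.mul hg.meas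
  have hHn : ∀ ξ, ‖H ξ‖ = ‖g ξ‖ := fun ξ => by rw [hH]; simp only [norm_mul, norm_ch, one_mul]
  have hHi : Integrable H :=
    hg.integrable.norm.mono' hHm.aestronglyMeasurable (Filter.Eventually.of_forall fun ξ => (hHn ξ).le)
  -- first operator
  set K₁ : V → V → ℂ := fun x ξ => ((Real.exp (-(‖x - a‖ ^ 2 / (2 * ϱ ^ 2))) : ℝ) : ℂ) * ch ⟪x - a, ξ⟫ with hK₁
  have hK₁m : Measurable (Function.uncurry K₁) := by
    apply Continuous.measurable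
    simp only [hK₁, Function.uncurry_def]
    exact (Complex.continuous_ofReal.comp (by fun_prop)).mul (bde_ch_cont.comp (by fun_prop))
  obtain ⟨i1, j1⟩ := mr_sq_expand volume K₁ hK₁m (fun x => Real.exp (-(‖x - a‖ ^ 2 / (2 * ϱ ^ 2))))
    (by
      have := mr_gauss_integrable (V := V) (c := (ϱ ^ 2)⁻¹) (by positivity) a
      refine this.congr (Filter.Eventually.of_forall fun x => ?_)
      simp only
      rw [← Real.exp_nat_mul]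
      congr 1
      push_cast
      field_simp) H hHm hHi
    (fun x ξ => by
      simp only [hK₁, norm_mul, norm_ch, mul_one, Complex.norm_real]
      rw [Real.norm_of_nonneg (Real.exp_pos _).le])
  -- second operator
  set K₂ : V → V → ℂ := fun η ξ => ((Real.exp (-(ϱ ^ 2 * ‖η - ξ‖ ^ 2 / 2)) : ℝ) : ℂ) with hK₂
  have hK₂m : Measurable (Function.uncurry K₂) := by
    apply Continuous.measurable
    simp only [hK₂, Function.uncurry_def]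
    exact Complex.continuous_ofReal.comp (by fun_prop)
  obtain ⟨i2, j2⟩ := mr_sq_expand volume K₂ hK₂m
    (fun η => Real.exp (ϱ ^ 2 * C₀ ^ 2 / 2) * Real.exp (-(ϱ ^ 2 / 4 * ‖η - 0‖ ^ 2)))
    (by
      have := (mr_gauss_integrable (V := V) (c := ϱ ^ 2 / 2) (by positivity) 0).const_mul (Real.exp (ϱ ^ 2 * C₀ ^ 2))
      refine this.congr (Filter.Eventually.of_forall fun x => ?_)
      simp only
      rw [mul_pow, ← Real.exp_nat_mul, ← Real.exp_nat_mul]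
      congr 2
      · push_cast; ring
      · push_cast; ring) H hHm hHi
    (fun η ξ => by
      by_cases h0 : g ξ = 0
      · have : H ξ = 0 := by rw [hH]; simp [h0]
        rw [this]; simp
      · have hξ := hg.supp ξ h0
        rw [norm_mul]
        refine mul_le_mul_of_nonneg_right ?_ (norm_nonneg _)
        simp only [hK₂, Complex.norm_real]
        rw [Real.norm_of_nonneg (Real.exp_pos _).le, ← Real.exp_add, sub_zero]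
        apply Real.exp_le_exp.2
        have h1 : ‖η‖ ^ 2 ≤ 2 * ‖η - ξ‖ ^ 2 + 2 * ‖ξ‖ ^ 2 := by
          have h2 : ‖η‖ ≤ ‖η - ξ‖ + ‖ξ‖ := by
            calc ‖η‖ = ‖(η - ξ) + ξ‖ := by rw [sub_add_cancel]
              _ ≤ _ := norm_add_le _ _
          nlinarith [norm_nonneg η, norm_nonneg (η - ξ), norm_nonneg ξ, sq_nonneg (‖η - ξ‖ - ‖ξ‖)]
        have h3 : ‖ξ‖ ^ 2 ≤ C₀ ^ 2 := pow_le_pow_left₀ (norm_nonneg _) hξ 2
        have h4 : 0 < ϱ ^ 2 := by positivity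
        nlinarith)
  -- comparison
  have hcmp : ∫ x, ‖∫ ξ, K₁ x ξ * H ξ‖ ^ 2 = ϱ ^ (2 * Module.finrank ℝ V) * ∫ η, ‖∫ ξ, K₂ η ξ * H ξ‖ ^ 2 := by
    apply Complex.ofReal_injective
    rw [Complex.ofReal_mul, j1, j2, ← integral_const_mul]
    refine integral_congr_ae (Filter.Eventually.of_forall fun p => ?_)
    simp only [hK₁, hK₂]
    rw [mr_gram_x hϱ, mr_gram_eta hϱ, mr_pow_id hϱ]
    push_cast
    ring
  have hL : ∀ x : V, ‖ext g (x, t)‖ₑ ^ (2 : ℝ) * ENNReal.ofReal (Real.exp (-(‖x - a‖ ^ 2 / ϱ ^ 2)))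
      = ENNReal.ofReal (‖∫ ξ, K₁ x ξ * H ξ‖ ^ 2) := by
    intro x
    have e1 : ∫ ξ, K₁ x ξ * H ξ = ((Real.exp (-(‖x - a‖ ^ 2 / (2 * ϱ ^ 2))) : ℝ) : ℂ) * ext g (x, t) := by
      unfold ext
      rw [← integral_const_mul]
      refine integral_congr_ae (Filter.Eventually.of_forall fun ξ => ?_)
      simp only [hK₁, hH]
      have : ch (pr (x, t) (gam ξ)) = ch ⟪x - a, ξ⟫ * ch (pr (a, t) (gam ξ)) := by
        rw [← ch_add]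
        congr 1
        simp only [pr, gam, inner_sub_left]
        ring
      rw [this]
      ring
    rw [e1, norm_mul, mul_pow, Complex.norm_real, Real.norm_of_nonneg (Real.exp_pos _).le,
      ENNReal.ofReal_mul (by positivity), ENNReal.ofReal_pow (norm_nonneg _), ofReal_norm, ENNReal.rpow_two,
      mul_comm]
    congr 2
    rw [← Real.exp_nat_mul]
    congr 1
    push_cast
    field_simp
  have hR : ∀ η : V, ‖Sop ϱ (a, t) g η‖ₑ ^ (2 : ℝ) = ENNReal.ofReal (‖∫ ξ, K₂ η ξ * H ξ‖ ^ 2) := by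
    intro η
    rw [ENNReal.ofReal_pow (norm_nonneg _), ofReal_norm, ENNReal.rpow_two]
    rfl
  simp_rw [hL, hR]
  rw [← ofReal_integral_eq_lintegral_ofReal i1 (Filter.Eventually.of_forall fun x => by positivity),
    ← ofReal_integral_eq_lintegral_ofReal i2 (Filter.Eventually.of_forall fun x => by positivity),
    ← ENNReal.ofReal_mul (by positivity), hcmp]

/-- Cauchy-Schwarz in `ℝ≥0∞`, squared. -/
theorem mr_cs {α : Type*} [MeasurableSpace α] (μ : Measure α) {f g : α → ℝ≥0∞} (hf : AEMeasurable f μ) (hg : AEMeasurable g μ) :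
    (∫⁻ a, f a * g a ∂μ) ^ (2 : ℝ) ≤ (∫⁻ a, f a ^ (2 : ℝ) ∂μ) * ∫⁻ a, g a ^ (2 : ℝ) ∂μ := by
  have hpq : (2 : ℝ).HolderConjugate 2 := by rw [Real.holderConjugate_iff]; norm_num
  have h := ENNReal.lintegral_mul_le_Lp_mul_Lq μ hpq hf hg
  calc (∫⁻ a, f a * g a ∂μ) ^ (2 : ℝ)
      ≤ ((∫⁻ a, f a ^ (2 : ℝ) ∂μ) ^ (1 / (2 : ℝ)) * (∫⁻ a, g a ^ (2 : ℝ) ∂μ) ^ (1 / (2 : ℝ))) ^ (2 : ℝ) :=
        ENNReal.rpow_le_rpow h (by norm_num)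
    _ = _ := by
        rw [ENNReal.mul_rpow_of_nonneg _ _ (by norm_num), ← ENNReal.rpow_mul, ← ENNReal.rpow_mul]
        norm_num

/-- `∫⁻` of a shifted Gaussian. -/
theorem mr_gauss_lintegral {c : ℝ} (hc : 0 < c) (a : V) :
    ∫⁻ x : V, ENNReal.ofReal (Real.exp (-(c * ‖x - a‖ ^ 2))) = ENNReal.ofReal ((Real.pi / c) ^ ((Module.finrank ℝ V : ℝ) / 2)) := by
  rw [← ofReal_integral_eq_lintegral_ofReal (mr_gauss_integrable hc a)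
    (Filter.Eventually.of_forall fun x => (Real.exp_pos _).le), mr_gauss_integral hc]

theorem mr_gauss_lintegral' {c : ℝ} (hc : 0 < c) (a : V) :
    ∫⁻ x : V, ENNReal.ofReal (Real.exp (-(c * ‖a - x‖ ^ 2))) = ENNReal.ofReal ((Real.pi / c) ^ ((Module.finrank ℝ V : ℝ) / 2)) := by
  simp_rw [norm_sub_rev a]
  exact mr_gauss_lintegral hc a

/-- **LEAF L-MR-STAIL: frequencies `η` far from the support of `g`.**
PLAN.  `‖η‖ > C₀ + 1`, `‖ξ‖ ≤ C₀` ⟹ `‖η - ξ‖ ≥ 1` ⟹ `e^{-ϱ²‖η-ξ‖²/2} ≤ e^{-ϱ²/4} e^{-ϱ²‖η-ξ‖²/4}`.   Cauchy-Schwarz: `‖Sop η‖² ≤ e^{-ϱ²/2} (∫ |g ξ|² e^{-ϱ²‖η-ξ‖²/4} dξ) (4π/ϱ²)^(k/2)`;  Tonelli in `η`: another `(4π/ϱ²)^(k/2)`. -/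
theorem sop_tail {C₀ : ℝ} {g : V → ℂ} (hg : Dat C₀ g) {ϱ : ℝ} (hϱ : 0 < ϱ) (b : V × ℝ) :
    ENNReal.ofReal (ϱ ^ (2 * Module.finrank ℝ V)) * ∫⁻ η in (closedBall (0 : V) (C₀ + 1))ᶜ, ‖Sop ϱ b g η‖ₑ ^ (2 : ℝ) ≤
      ENNReal.ofReal ((4 * Real.pi) ^ Module.finrank ℝ V * Real.exp (-(ϱ ^ 2 / 2))) * l2 g := by
  set k := Module.finrank ℝ V with hk
  set G : ℝ := (Real.pi / (ϱ ^ 2 / 4)) ^ ((k : ℝ) / 2) with hG
  have hG0 : 0 ≤ G := by positivity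
  set v : V → V → ℝ≥0∞ := fun η ξ => ENNReal.ofReal (Real.exp (-(ϱ ^ 2 / 8 * ‖η - ξ‖ ^ 2))) with hv
  have hvm : Measurable (Function.uncurry v) := by
    apply Measurable.ennreal_ofReal
    apply Continuous.measurable
    fun_prop
  have hvm1 : ∀ η, Measurable (v η) := fun η => hvm.of_uncurry_left
  have hv2 : ∀ η ξ, v η ξ ^ (2 : ℝ) = ENNReal.ofReal (Real.exp (-(ϱ ^ 2 / 4 * ‖η - ξ‖ ^ 2))) := fun η ξ => by
    simp only [hv]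
    rw [ENNReal.rpow_two, ← ENNReal.ofReal_pow (Real.exp_pos _).le, ← Real.exp_nat_mul]
    congr 2
    push_cast
    ring
  have hgm : Measurable fun ξ => ‖g ξ‖ₑ := hg.meas.enorm
  -- pointwise bound
  have hpt : ∀ η ∈ (closedBall (0 : V) (C₀ + 1))ᶜ, ‖Sop ϱ b g η‖ₑ ^ (2 : ℝ) ≤
      ENNReal.ofReal (Real.exp (-(ϱ ^ 2 / 2)) * G) * ∫⁻ ξ, v η ξ ^ (2 : ℝ) * ‖g ξ‖ₑ ^ (2 : ℝ) := by
    intro η hη
    have hη' : C₀ + 1 < ‖η‖ := by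
      simpa [mem_closedBall, dist_zero_right] using hη
    have h1 : ‖Sop ϱ b g η‖ₑ ≤ ENNReal.ofReal (Real.exp (-(ϱ ^ 2 / 4))) * ∫⁻ ξ, v η ξ * (v η ξ * ‖g ξ‖ₑ) := by
      unfold Sop
      refine (enorm_integral_le_lintegral_enorm _).trans ?_
      have hm3 : Measurable fun ξ => v η ξ * (v η ξ * ‖g ξ‖ₑ) := (hvm1 η).mul ((hvm1 η).mul hgm)
      rw [← lintegral_const_mul _ hm3]
      refine lintegral_mono fun ξ => ?_
      by_cases h0 : g ξ = 0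
      · simp [h0]
      · have hξ := hg.supp ξ h0
        have hd : 1 ≤ ‖η - ξ‖ := by
          have := norm_sub_norm_le η ξ
          linarith
        have ech : ‖ch (pr b (gam ξ))‖ₑ = 1 := by
          rw [← ofReal_norm, norm_ch, ENNReal.ofReal_one]
        have key : ‖((Real.exp (-(ϱ ^ 2 * ‖η - ξ‖ ^ 2 / 2)) : ℝ) : ℂ)‖ₑ
            ≤ ENNReal.ofReal (Real.exp (-(ϱ ^ 2 / 4))) * (v η ξ * v η ξ) := by
          simp only [hv]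
          rw [← ofReal_norm, Complex.norm_real, Real.norm_of_nonneg (Real.exp_pos _).le,
            ← ENNReal.ofReal_mul (Real.exp_pos _).le, ← ENNReal.ofReal_mul (Real.exp_pos _).le, ← Real.exp_add, ← Real.exp_add]
          apply ENNReal.ofReal_le_ofReal
          apply Real.exp_le_exp.2
          have h2 : 1 ≤ ‖η - ξ‖ ^ 2 := one_le_pow₀ hd
          have h4 : 0 < ϱ ^ 2 := by positivity
          nlinarith
        calc ‖((Real.exp (-(ϱ ^ 2 * ‖η - ξ‖ ^ 2 / 2)) : ℝ) : ℂ) * (ch (pr b (gam ξ)) * g ξ)‖ₑ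
            = ‖((Real.exp (-(ϱ ^ 2 * ‖η - ξ‖ ^ 2 / 2)) : ℝ) : ℂ)‖ₑ * ‖g ξ‖ₑ := by
              rw [enorm_mul, enorm_mul, ech, one_mul]
          _ ≤ (ENNReal.ofReal (Real.exp (-(ϱ ^ 2 / 4))) * (v η ξ * v η ξ)) * ‖g ξ‖ₑ := mul_le_mul' key le_rfl
          _ = _ := by ring
    have h2 := mr_cs volume (hvm1 η).aemeasurable ((hvm1 η).mul hgm).aemeasurable
    have h3 : ∫⁻ ξ, v η ξ ^ (2 : ℝ) = ENNReal.ofReal G := by
      simp_rw [hv2]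
      exact mr_gauss_lintegral' (by positivity) η
    calc ‖Sop ϱ b g η‖ₑ ^ (2 : ℝ)
        ≤ (ENNReal.ofReal (Real.exp (-(ϱ ^ 2 / 4))) * ∫⁻ ξ, v η ξ * (v η ξ * ‖g ξ‖ₑ)) ^ (2 : ℝ) :=
          ENNReal.rpow_le_rpow h1 (by norm_num)
      _ = ENNReal.ofReal (Real.exp (-(ϱ ^ 2 / 2))) * (∫⁻ ξ, v η ξ * (v η ξ * ‖g ξ‖ₑ)) ^ (2 : ℝ) := by
          rw [ENNReal.mul_rpow_of_nonneg _ _ (by norm_num), ENNReal.rpow_two,
            ← ENNReal.ofReal_pow (Real.exp_pos _).le, ← Real.exp_nat_mul]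
          congr 3
          push_cast
          ring
      _ ≤ ENNReal.ofReal (Real.exp (-(ϱ ^ 2 / 2))) * (ENNReal.ofReal G * ∫⁻ ξ, (v η ξ * ‖g ξ‖ₑ) ^ (2 : ℝ)) := by
          rw [← h3]
          exact mul_le_mul' le_rfl h2
      _ = _ := by
          rw [ENNReal.ofReal_mul (Real.exp_pos _).le, mul_assoc]
          congr 2
          refine lintegral_congr fun ξ => ?_
          rw [ENNReal.mul_rpow_of_nonneg _ _ (by norm_num)]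
  have hTon : ∫⁻ η, ∫⁻ ξ, v η ξ ^ (2 : ℝ) * ‖g ξ‖ₑ ^ (2 : ℝ) = ENNReal.ofReal G * l2 g := by
    rw [lintegral_lintegral_swap]
    · unfold l2
      rw [← lintegral_const_mul _ (hgm.pow_const _)]
      refine lintegral_congr fun ξ => ?_
      rw [lintegral_mul_const _ ((hvm.of_uncurry_right (y := ξ)).pow_const _)]
      congr 1
      simp_rw [hv2]
      exact mr_gauss_lintegral (by positivity) ξ
    · exact ((hvm.pow_const _).mul ((hgm.comp measurable_snd).pow_const _)).aemeasurable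
  calc ENNReal.ofReal (ϱ ^ (2 * k)) * ∫⁻ η in (closedBall (0 : V) (C₀ + 1))ᶜ, ‖Sop ϱ b g η‖ₑ ^ (2 : ℝ)
      ≤ ENNReal.ofReal (ϱ ^ (2 * k)) * ∫⁻ η in (closedBall (0 : V) (C₀ + 1))ᶜ,
          ENNReal.ofReal (Real.exp (-(ϱ ^ 2 / 2)) * G) * ∫⁻ ξ, v η ξ ^ (2 : ℝ) * ‖g ξ‖ₑ ^ (2 : ℝ) := by
        refine mul_le_mul' le_rfl ?_
        exact setLIntegral_mono' isClosed_closedBall.measurableSet.compl hpt
    _ ≤ ENNReal.ofReal (ϱ ^ (2 * k)) * ∫⁻ η,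
          ENNReal.ofReal (Real.exp (-(ϱ ^ 2 / 2)) * G) * ∫⁻ ξ, v η ξ ^ (2 : ℝ) * ‖g ξ‖ₑ ^ (2 : ℝ) := by
        refine mul_le_mul' le_rfl ?_
        exact setLIntegral_le_lintegral _ _
    _ = ENNReal.ofReal (ϱ ^ (2 * k)) * (ENNReal.ofReal (Real.exp (-(ϱ ^ 2 / 2)) * G) * (ENNReal.ofReal G * l2 g)) := by
        rw [lintegral_const_mul, hTon]
        exact ((hvm.pow_const _).mul ((hgm.comp measurable_snd).pow_const _)).lintegral_prod_right'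
    _ = _ := by
        rw [← mul_assoc, ← mul_assoc, ← ENNReal.ofReal_mul (by positivity), ← ENNReal.ofReal_mul (by positivity)]
        congr 2
        have e : G * G = (4 * Real.pi) ^ k / ϱ ^ (2 * k) := by
          rw [hG, ← Real.rpow_add (by positivity)]
          have : (k : ℝ) / 2 + (k : ℝ) / 2 = (k : ℝ) := by ring
          rw [this, Real.rpow_natCast, pow_mul, ← div_pow]
          congr 1
          field_simp
        have h5 : ϱ ^ (2 * k) ≠ 0 := by positivity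
        calc ϱ ^ (2 * k) * (Real.exp (-(ϱ ^ 2 / 2)) * G) * G = ϱ ^ (2 * k) * Real.exp (-(ϱ ^ 2 / 2)) * (G * G) := by ring
          _ = _ := by rw [e]; field_simp

variable (V) in
/-- the Gaussian reference measure. -/
noncomputable def mr_nu : Measure V := volume.withDensity fun ξ : V => ENNReal.ofReal (Real.exp (-(‖ξ‖ ^ 2 / 2)))

theorem mr_nu_dens_meas : Measurable fun ξ : V => ENNReal.ofReal (Real.exp (-(‖ξ‖ ^ 2 / 2))) := by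
  have hc : Continuous fun ξ : V => Real.exp (-(‖ξ‖ ^ 2 / 2)) := by fun_prop
  exact hc.measurable.ennreal_ofReal

instance mr_nu_finite : IsFiniteMeasure (mr_nu V) := by
  unfold mr_nu
  apply isFiniteMeasure_withDensity_ofReal
  have h := mr_gauss_integrable (V := V) (c := 1 / 2) (by norm_num) 0
  have h2 : Integrable fun ξ : V => Real.exp (-(‖ξ‖ ^ 2 / 2)) := by
    refine h.congr (Filter.Eventually.of_forall fun ξ => ?_)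
    simp only [sub_zero]
    congr 1
    ring
  exact h2.2

theorem mr_nu_integral (f : V → ℂ) :
    ∫ ξ, f ξ ∂(mr_nu V) = ∫ ξ, ((Real.exp (-(‖ξ‖ ^ 2 / 2)) : ℝ) : ℂ) * f ξ := by
  unfold mr_nu
  rw [integral_withDensity_eq_integral_toReal_smul mr_nu_dens_meas
    (Filter.Eventually.of_forall fun ξ => ENNReal.ofReal_lt_top)]
  refine integral_congr_ae (Filter.Eventually.of_forall fun ξ => ?_)
  simp only
  rw [ENNReal.toReal_ofReal (Real.exp_pos _).le, Complex.real_smul]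

theorem mr_nu_lintegral {f : V → ℝ≥0∞} (hf : Measurable f) :
    ∫⁻ ξ, f ξ ∂(mr_nu V) = ∫⁻ ξ, ENNReal.ofReal (Real.exp (-(‖ξ‖ ^ 2 / 2))) * f ξ := by
  unfold mr_nu
  rw [lintegral_withDensity_eq_lintegral_mul _ mr_nu_dens_meas hf]
  rfl

/-- the kernel for the Schur test. -/
noncomputable def mr_kk (ϱ C₁ : ℝ) (b : V × ℝ) (η ξ : V) : ℂ :=
  if ‖η‖ ≤ C₁ then ((Real.exp (-(ϱ ^ 2 * ‖η - ξ‖ ^ 2 / 2)) * Real.exp (‖ξ‖ ^ 2 / 4) : ℝ) : ℂ) * ch (pr b (gam ξ)) else 0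

theorem mr_kk_meas (ϱ C₁ : ℝ) : Measurable fun p : ((V × ℝ) × V) × V => mr_kk ϱ C₁ p.1.1 p.1.2 p.2 := by
  unfold mr_kk
  refine Measurable.ite ?_ ?_ measurable_const
  · exact measurableSet_le (by fun_prop) measurable_const
  · apply Continuous.measurable
    refine (Complex.continuous_ofReal.comp (by fun_prop)).mul (bde_ch_cont.comp ?_)
    unfold pr gam
    fun_prop

theorem mr_kk_bdd {ϱ : ℝ} (hϱ : 1 ≤ ϱ) (C₁ : ℝ) (b : V × ℝ) (η ξ : V) :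
    ‖mr_kk ϱ C₁ b η ξ‖ ≤ Real.exp (C₁ ^ 2 / 2) := by
  unfold mr_kk
  split_ifs with h
  · rw [norm_mul, norm_ch, mul_one, Complex.norm_real, Real.norm_of_nonneg (by positivity), ← Real.exp_add]
    apply Real.exp_le_exp.2
    have h1 : ‖ξ‖ ^ 2 ≤ 2 * ‖η - ξ‖ ^ 2 + 2 * ‖η‖ ^ 2 := by
      have h2 : ‖ξ‖ ≤ ‖η - ξ‖ + ‖η‖ := by
        calc ‖ξ‖ = ‖η - (η - ξ)‖ := by rw [sub_sub_cancel]
          _ ≤ ‖η‖ + ‖η - ξ‖ := norm_sub_le _ _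
          _ = _ := add_comm _ _
      nlinarith [norm_nonneg η, norm_nonneg (η - ξ), norm_nonneg ξ, sq_nonneg (‖η - ξ‖ - ‖η‖)]
    have h3 : ‖η‖ ^ 2 ≤ C₁ ^ 2 := pow_le_pow_left₀ (norm_nonneg _) h 2
    have h4 : 1 ≤ ϱ ^ 2 := one_le_pow₀ hϱ
    have h5 : ‖η - ξ‖ ^ 2 ≤ ϱ ^ 2 * ‖η - ξ‖ ^ 2 := le_mul_of_one_le_left (by positivity) h4
    linarith
  · rw [norm_zero]; exact (Real.exp_pos _).le

theorem mr_kk_gram (ϱ : ℝ) {C₁ : ℝ} (b b' : V × ℝ) {η η' : V} (hη : ‖η‖ ≤ C₁) (hη' : ‖η'‖ ≤ C₁) :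
    ∫ ξ, mr_kk ϱ C₁ b η ξ * conj (mr_kk ϱ C₁ b' η' ξ) ∂(mr_nu V) = gram ϱ b b' η η' := by
  rw [mr_nu_integral]
  unfold gram mr_kk
  refine integral_congr_ae (Filter.Eventually.of_forall fun ξ => ?_)
  simp only [if_pos hη, if_pos hη', map_mul, Complex.conj_ofReal]
  have e : Real.exp (-(‖ξ‖ ^ 2 / 2)) * (Real.exp (‖ξ‖ ^ 2 / 4) * Real.exp (‖ξ‖ ^ 2 / 4)) = 1 := by
    rw [← Real.exp_add, ← Real.exp_add, ← Real.exp_zero]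
    congr 1
    ring
  have e' : ((Real.exp (-(‖ξ‖ ^ 2 / 2)) : ℝ) : ℂ) * (((Real.exp (‖ξ‖ ^ 2 / 4) : ℝ) : ℂ) * ((Real.exp (‖ξ‖ ^ 2 / 4) : ℝ) : ℂ)) = 1 := by
    rw [← Complex.ofReal_mul, ← Complex.ofReal_mul, e, Complex.ofReal_one]
  simp only [Complex.ofReal_mul]
  linear_combination (((Real.exp (-(ϱ ^ 2 * ‖η - ξ‖ ^ 2 / 2)) : ℝ) : ℂ) * ((Real.exp (-(ϱ ^ 2 * ‖η' - ξ‖ ^ 2 / 2)) : ℝ) : ℂ) * (ch (pr b (gam ξ)) * conj (ch (pr b' (gam ξ))))) * e'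

theorem mr_kk_sop (ϱ : ℝ) {C₁ : ℝ} (b : V × ℝ) {η : V} (hη : ‖η‖ ≤ C₁) (g : V → ℂ) :
    ∫ ξ, mr_kk ϱ C₁ b η ξ * (((Real.exp (‖ξ‖ ^ 2 / 4) : ℝ) : ℂ) * g ξ) ∂(mr_nu V) = Sop ϱ b g η := by
  rw [mr_nu_integral]
  unfold Sop mr_kk
  refine integral_congr_ae (Filter.Eventually.of_forall fun ξ => ?_)
  simp only [if_pos hη]
  have e : Real.exp (-(‖ξ‖ ^ 2 / 2)) * (Real.exp (‖ξ‖ ^ 2 / 4) * Real.exp (‖ξ‖ ^ 2 / 4)) = 1 := by
    rw [← Real.exp_add, ← Real.exp_add, ← Real.exp_zero]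
    congr 1
    ring
  have e' : ((Real.exp (-(‖ξ‖ ^ 2 / 2)) : ℝ) : ℂ) * (((Real.exp (‖ξ‖ ^ 2 / 4) : ℝ) : ℂ) * ((Real.exp (‖ξ‖ ^ 2 / 4) : ℝ) : ℂ)) = 1 := by
    rw [← Complex.ofReal_mul, ← Complex.ofReal_mul, e, Complex.ofReal_one]
  simp only [Complex.ofReal_mul]
  linear_combination (((Real.exp (-(ϱ ^ 2 * ‖η - ξ‖ ^ 2 / 2)) : ℝ) : ℂ) * (ch (pr b (gam ξ)) * g ξ)) * e'

theorem mr_l2_tilde {g : V → ℂ} (hg : Measurable g) :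
    ∫⁻ ξ, ‖((Real.exp (‖ξ‖ ^ 2 / 4) : ℝ) : ℂ) * g ξ‖ₑ ^ (2 : ℝ) ∂(mr_nu V) = l2 g := by
  have hm : Measurable fun ξ : V => ‖((Real.exp (‖ξ‖ ^ 2 / 4) : ℝ) : ℂ) * g ξ‖ₑ ^ (2 : ℝ) := by
    have hc : Continuous fun ξ : V => ((Real.exp (‖ξ‖ ^ 2 / 4) : ℝ) : ℂ) :=
      Complex.continuous_ofReal.comp (by fun_prop)
    exact ((hc.measurable.mul hg).enorm).pow_const _
  rw [mr_nu_lintegral hm]
  unfold l2
  refine lintegral_congr fun ξ => ?_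
  rw [enorm_mul, ENNReal.mul_rpow_of_nonneg _ _ (by norm_num), ← mul_assoc]
  have : ENNReal.ofReal (Real.exp (-(‖ξ‖ ^ 2 / 2))) * ‖((Real.exp (‖ξ‖ ^ 2 / 4) : ℝ) : ℂ)‖ₑ ^ (2 : ℝ) = 1 := by
    rw [← ofReal_norm, Complex.norm_real, Real.norm_of_nonneg (Real.exp_pos _).le, ENNReal.rpow_two,
      ← ENNReal.ofReal_pow (Real.exp_pos _).le, ← ENNReal.ofReal_mul (Real.exp_pos _).le, ← Real.exp_nat_mul,
      ← Real.exp_add, ← ENNReal.ofReal_one, ← Real.exp_zero]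
    congr 2
    push_cast
    ring
  rw [this, one_mul]

theorem mr_lint_count_prod {X : Type*} [MeasurableSpace X] (W : Finset (V × ℝ)) (μ : Measure X)
    [SFinite μ] {F : ↥W × X → ℝ≥0∞} (hF : Measurable F) :
    ∫⁻ z, F z ∂((Measure.count : Measure ↥W).prod μ) = ∑ a : ↥W, ∫⁻ x, F (a, x) ∂μ := by
  rw [lintegral_prod _ hF.aemeasurable, lintegral_count, tsum_fintype]

/-- integral of a Gaussian in `η'` over the box. -/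
theorem mr_box_gauss {ϱ : ℝ} (hϱ : 0 < ϱ) (C₁ : ℝ) (η : V) {c : ℝ} (hc : 0 ≤ c) :
    ∫⁻ p in Icc (-ϱ) ϱ ×ˢ closedBall (0 : V) C₁, ENNReal.ofReal (c * Real.exp (-(ϱ ^ 2 * ‖η - p.2‖ ^ 2 / 4))) ≤
      ENNReal.ofReal (2 * ϱ * (Real.pi / (ϱ ^ 2 / 4)) ^ ((Module.finrank ℝ V : ℝ) / 2) * c) := by
  have hm : Measurable fun η' : V => ENNReal.ofReal (c * Real.exp (-(ϱ ^ 2 * ‖η - η'‖ ^ 2 / 4))) := by
    have hcn : Continuous fun η' : V => c * Real.exp (-(ϱ ^ 2 * ‖η - η'‖ ^ 2 / 4)) := by fun_prop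
    exact hcn.measurable.ennreal_ofReal
  have hm2 : Measurable fun p : ℝ × V => ENNReal.ofReal (c * Real.exp (-(ϱ ^ 2 * ‖η - p.2‖ ^ 2 / 4))) :=
    hm.comp measurable_snd
  rw [Measure.volume_eq_prod, ← Measure.prod_restrict, lintegral_prod _ hm2.aemeasurable]
  simp only [lintegral_const, Measure.restrict_apply_univ, Real.volume_Icc]
  have h1 : ∫⁻ η' in closedBall (0 : V) C₁, ENNReal.ofReal (c * Real.exp (-(ϱ ^ 2 * ‖η - η'‖ ^ 2 / 4)))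
      ≤ ENNReal.ofReal c * ENNReal.ofReal ((Real.pi / (ϱ ^ 2 / 4)) ^ ((Module.finrank ℝ V : ℝ) / 2)) := by
    refine (setLIntegral_le_lintegral _ _).trans ?_
    rw [← mr_gauss_lintegral' (V := V) (c := ϱ ^ 2 / 4) (by positivity) η, ← lintegral_const_mul' _ _ ENNReal.ofReal_ne_top]
    refine le_of_eq (lintegral_congr fun η' => ?_)
    rw [ENNReal.ofReal_mul hc]
    congr 3
    ring
  refine (mul_le_mul' h1 le_rfl).trans (le_of_eq ?_)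
  rw [← ENNReal.ofReal_mul hc, ← ENNReal.ofReal_mul (by positivity)]
  congr 1
  ring

theorem mr_gram_row {C₁ : ℝ} {Coff : ℝ} (hCoff : 0 ≤ Coff)
    (hoff : ∀ (ϱ T : ℝ) (b b' : V × ℝ) (η η' : V), 0 < ϱ → 1 / 2 ≤ ϱ ^ 2 → 0 < T → T ≤ ‖b - b'‖ → ‖η‖ ≤ C₁ → ‖η'‖ ≤ C₁ →
      ‖gram ϱ b b' η η'‖ ≤ Coff * T ^ (-((Module.finrank ℝ V : ℝ) / 2)) * Real.exp (-(ϱ ^ 2 * ‖η - η'‖ ^ 2 / 4)))
    {ϱ S : ℝ} (hϱ : 1 ≤ ϱ) (hS : 4 * ϱ ≤ S) (W : Finset (V × ℝ))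
    (hsep : ∀ a ∈ W, ∀ a' ∈ W, a ≠ a' → S ≤ dist a a') {a : V × ℝ} (ha : a ∈ W) {τ : ℝ} (hτ : τ ∈ Icc (-ϱ) ϱ)
    {η : V} (hη : ‖η‖ ≤ C₁) :
    ∑ a' ∈ W, ∫⁻ p in Icc (-ϱ) ϱ ×ˢ closedBall (0 : V) C₁, ‖gram ϱ (a.1, a.2 + τ) (a'.1, a'.2 + p.1) η p.2‖ₑ ≤
      ENNReal.ofReal (2 * ϱ * (Real.pi / (ϱ ^ 2 / 4)) ^ ((Module.finrank ℝ V : ℝ) / 2) * (Real.pi / ϱ ^ 2) ^ ((Module.finrank ℝ V : ℝ) / 2) +
        W.card * (2 * ϱ * (Real.pi / (ϱ ^ 2 / 4)) ^ ((Module.finrank ℝ V : ℝ) / 2) * (Coff * (S / 2) ^ (-((Module.finrank ℝ V : ℝ) / 2))))) := by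
  classical
  have hϱ0 : 0 < ϱ := by linarith
  have hS0 : 0 < S := by linarith
  have hΩm : MeasurableSet (Icc (-ϱ) ϱ ×ˢ closedBall (0 : V) C₁) := measurableSet_Icc.prod measurableSet_closedBall
  have hterm : ∀ a' ∈ W, ∫⁻ p in Icc (-ϱ) ϱ ×ˢ closedBall (0 : V) C₁, ‖gram ϱ (a.1, a.2 + τ) (a'.1, a'.2 + p.1) η p.2‖ₑ ≤
      (if a' = a then ENNReal.ofReal (2 * ϱ * (Real.pi / (ϱ ^ 2 / 4)) ^ ((Module.finrank ℝ V : ℝ) / 2) * (Real.pi / ϱ ^ 2) ^ ((Module.finrank ℝ V : ℝ) / 2)) else 0) +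
        ENNReal.ofReal (2 * ϱ * (Real.pi / (ϱ ^ 2 / 4)) ^ ((Module.finrank ℝ V : ℝ) / 2) * (Coff * (S / 2) ^ (-((Module.finrank ℝ V : ℝ) / 2)))) := by
    intro a' ha'
    by_cases haa : a' = a
    · rw [if_pos haa]
      refine le_add_right ?_
      refine le_trans ?_ (mr_box_gauss hϱ0 C₁ η (c := (Real.pi / ϱ ^ 2) ^ ((Module.finrank ℝ V : ℝ) / 2)) (by positivity))
      refine lintegral_mono fun p => ?_
      rw [← ofReal_norm]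
      exact ENNReal.ofReal_le_ofReal (gram_diag hϱ0 _ _ _ _)
    · rw [if_neg haa, zero_add]
      refine le_trans ?_ (mr_box_gauss hϱ0 C₁ η (c := Coff * (S / 2) ^ (-((Module.finrank ℝ V : ℝ) / 2))) (by positivity))
      refine setLIntegral_mono' hΩm fun p hp => ?_
      rw [← ofReal_norm]
      refine ENNReal.ofReal_le_ofReal ?_
      have hp1 : p.1 ∈ Icc (-ϱ) ϱ := hp.1
      have hp2 : ‖p.2‖ ≤ C₁ := by simpa [mem_closedBall, dist_zero_right] using hp.2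
      refine hoff ϱ (S / 2) _ _ η p.2 hϱ0 ?_ (by positivity) ?_ hη hp2
      · have : 1 ≤ ϱ ^ 2 := one_le_pow₀ hϱ
        linarith
      · have h1 := hsep a ha a' ha' (Ne.symm haa)
        rw [dist_eq_norm] at h1
        have e : a - a' = ((a.1, a.2 + τ) - (a'.1, a'.2 + p.1)) - ((0 : V), τ - p.1) := by
          ext
          · simp
          · simp; ring
        have h2 : ‖((0 : V), τ - p.1)‖ ≤ 2 * ϱ := by
          rw [Prod.norm_def]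
          simp only [norm_zero, Real.norm_eq_abs]
          refine max_le (by positivity) ?_
          rw [abs_le]
          constructor <;> linarith [hτ.1, hτ.2, hp1.1, hp1.2]
        have h3 : ‖a - a'‖ ≤ ‖(a.1, a.2 + τ) - (a'.1, a'.2 + p.1)‖ + ‖((0 : V), τ - p.1)‖ := by
          rw [e]; exact norm_sub_le _ _
        linarith
  refine (Finset.sum_le_sum hterm).trans ?_
  rw [Finset.sum_add_distrib, Finset.sum_ite_eq' W a, if_pos ha, Finset.sum_const, nsmul_eq_mul,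
    ENNReal.ofReal_add (by positivity) (by positivity),
    ENNReal.ofReal_mul (p := (W.card : ℝ)) (by positivity), ENNReal.ofReal_natCast]

theorem mr_sop_meas (ϱ : ℝ) {g : V → ℂ} (hg : Measurable g) :
    Measurable fun q : (V × ℝ) × V => Sop ϱ q.1 g q.2 := by
  unfold Sop
  have h1 : Measurable (Function.uncurry fun (q : (V × ℝ) × V) (ξ : V) =>
      ((Real.exp (-(ϱ ^ 2 * ‖q.2 - ξ‖ ^ 2 / 2)) : ℝ) : ℂ) * (ch (pr q.1 (gam ξ)) * g ξ)) := by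
    have c1 : Continuous fun p : ((V × ℝ) × V) × V => ((Real.exp (-(ϱ ^ 2 * ‖p.1.2 - p.2‖ ^ 2 / 2)) : ℝ) : ℂ) :=
      Complex.continuous_ofReal.comp (by fun_prop)
    have c2 : Continuous fun p : ((V × ℝ) × V) × V => ch (pr p.1.1 (gam p.2)) := by
      refine bde_ch_cont.comp ?_
      unfold pr gam
      fun_prop
    exact c1.measurable.mul (c2.measurable.mul (hg.comp measurable_snd))
  exact (h1.stronglyMeasurable.integral_prod_right).measurable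

/-- **LEAF L-MR-SSCHUR: almost orthogonality of `Sop` over a sparse set of centres.**
PLAN = `R254.er_tt_schur` (pattern: `R254/Ker/H3.lean`) with   `Z = ↥W × (ℝ × V)`,  `ζ = count.prod ((volume.restrict (Icc (-ϱ) ϱ)).prod (volume.restrict (closedBall 0 C₁)))`, `C₁ = C₀ + 1`,   `Y = V`,  `ν = volume.withDensity (fun ξ => ofReal (e^{-‖ξ‖²/2}))` (finite),
`k (a,τ,η) ξ = 1[‖η‖ ≤ C₁] e^{-ϱ²‖η-ξ‖²/2 + ‖ξ‖²/4} ch (pr (a.1, a.2 + τ) (gam ξ))`  (bounded by `e^{C₁²/2}` since `ϱ² ≥ 1`: `‖ξ‖² ≤ 2‖η‖² + 2‖η-ξ‖²`),   datum `g̃ ξ = e^{‖ξ‖²/4} g ξ` (bounded),  `∫ k g̃ dν = Sop ϱ (a.1, a.2+τ) g η`,  `∫ |g̃|² dν = l2 g`,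
`∫ k z conj (k z') dν = gram ϱ b b' η η'`  (`integral_withDensity_eq_integral_smul` / `lintegral_withDensity_eq_lintegral_mul`).
Schur row of `z = (a,τ,η)`:  `a' = a`: `gram_diag`, `∫_{τ'} ∫_{η'} ≤ 2ϱ (π/ϱ²)^(k/2) (4π/ϱ²)^(k/2)`;   `a' ≠ a`: `‖b - b'‖ ≥ S - 2ϱ ≥ S/2`, `gram_off C₁` with `T = S/2`: `≤ C (S/2)^(-k/2) 2ϱ (4π/ϱ²)^(k/2)`.
`A = 2 ϱ ϱ^(-2k) ((2π)^k + #W C' ϱ^k S^(-k/2))`. -/
theorem sop_sparse (C₀ : ℝ) (hC₀ : 0 ≤ C₀) : ∃ C : ℝ, 0 ≤ C ∧ ∀ (ϱ S : ℝ) (W : Finset (V × ℝ)) (g : V → ℂ), 1 ≤ ϱ → 4 * ϱ ≤ S →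
    (∀ a ∈ W, ∀ a' ∈ W, a ≠ a' → S ≤ dist a a') → Dat C₀ g →
    ∑ a ∈ W, ENNReal.ofReal ϱ⁻¹ * ∫⁻ τ in Icc (-ϱ) ϱ, ENNReal.ofReal (ϱ ^ (2 * Module.finrank ℝ V)) * ∫⁻ η in closedBall (0 : V) (C₀ + 1), ‖Sop ϱ (a.1, a.2 + τ) g η‖ₑ ^ (2 : ℝ) ≤
      ENNReal.ofReal (C * (1 + W.card * (ϱ ^ Module.finrank ℝ V * S ^ (-((Module.finrank ℝ V : ℝ) / 2))))) * l2 g := by
  obtain ⟨Coff, hCoff, hoff⟩ := gram_off (V := V) (C₀ + 1) (by linarith)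
  obtain ⟨k, hk⟩ : ∃ k : ℕ, k = Module.finrank ℝ V := ⟨_, rfl⟩
  obtain ⟨h, hh⟩ : ∃ h : ℝ, h = (Module.finrank ℝ V : ℝ) / 2 := ⟨_, rfl⟩
  refine ⟨2 * (4 * Real.pi) ^ h * Real.pi ^ h + 2 * (4 * Real.pi) ^ h * (Coff * 2 ^ h), by positivity,
    fun ϱ S W g hϱ hS hsep hg => ?_⟩
  have hϱ0 : 0 < ϱ := by linarith
  have hS0 : 0 < S := by linarith
  obtain ⟨C₁, hC₁⟩ : ∃ C₁ : ℝ, C₁ = C₀ + 1 := ⟨_, rfl⟩
  rw [← hC₁] at hoff ⊢
  obtain ⟨Ω₀, hΩ₀⟩ : ∃ Ω₀ : Set (ℝ × V), Ω₀ = Icc (-ϱ) ϱ ×ˢ closedBall (0 : V) C₁ := ⟨_, rfl⟩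
  have hΩm : MeasurableSet Ω₀ := by
    rw [hΩ₀]; exact measurableSet_Icc.prod measurableSet_closedBall
  have : IsFiniteMeasure (volume.restrict Ω₀) := by
    refine ⟨?_⟩
    rw [Measure.restrict_apply_univ, hΩ₀, Measure.volume_eq_prod, Measure.prod_prod]
    exact ENNReal.mul_lt_top (by rw [Real.volume_Icc]; exact ENNReal.ofReal_lt_top) measure_closedBall_lt_top
  obtain ⟨A, hA⟩ : ∃ A : ℝ, A = 2 * ϱ * (Real.pi / (ϱ ^ 2 / 4)) ^ ((Module.finrank ℝ V : ℝ) / 2) * (Real.pi / ϱ ^ 2) ^ ((Module.finrank ℝ V : ℝ) / 2) +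
        W.card * (2 * ϱ * (Real.pi / (ϱ ^ 2 / 4)) ^ ((Module.finrank ℝ V : ℝ) / 2) * (Coff * (S / 2) ^ (-((Module.finrank ℝ V : ℝ) / 2)))) := ⟨_, rfl⟩
  have hA0 : 0 ≤ A := by rw [hA]; positivity
  -- the kernel
  have hφ : Measurable fun p : (↥W × (ℝ × V)) × V =>
      (((((p.1.1 : V × ℝ).1, (p.1.1 : V × ℝ).2 + p.1.2.1), p.1.2.2), p.2) : ((V × ℝ) × V) × V) := by
    fun_prop
  have hkm : Measurable (Function.uncurry fun (z : ↥W × (ℝ × V)) (ξ : V) =>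
      mr_kk ϱ C₁ ((z.1 : V × ℝ).1, (z.1 : V × ℝ).2 + z.2.1) z.2.2 ξ) := (mr_kk_meas ϱ C₁).comp hφ
  have hmemΩ : ∀ᵐ z ∂((Measure.count : Measure ↥W).prod (volume.restrict Ω₀)), z.2 ∈ Ω₀ :=
    Measure.quasiMeasurePreserving_snd.ae (ae_restrict_mem hΩm)
  have hgt : Measurable fun ξ : V => ((Real.exp (‖ξ‖ ^ 2 / 4) : ℝ) : ℂ) * g ξ := by
    have hc : Continuous fun ξ : V => ((Real.exp (‖ξ‖ ^ 2 / 4) : ℝ) : ℂ) :=
      Complex.continuous_ofReal.comp (by fun_prop)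
    exact hc.measurable.mul hg.meas
  obtain ⟨B, hB⟩ := hg.bdd
  have hgb : ∃ B' : ℝ, ∀ ξ : V, ‖((Real.exp (‖ξ‖ ^ 2 / 4) : ℝ) : ℂ) * g ξ‖ ≤ B' := by
    refine ⟨Real.exp (C₀ ^ 2 / 4) * B, fun ξ => ?_⟩
    by_cases h0 : g ξ = 0
    · rw [h0, mul_zero, norm_zero]
      have : 0 ≤ B := (norm_nonneg _).trans (hB ξ)
      positivity
    · rw [norm_mul, Complex.norm_real, Real.norm_of_nonneg (Real.exp_pos _).le]
      refine mul_le_mul ?_ (hB ξ) (norm_nonneg _) (Real.exp_pos _).le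
      apply Real.exp_le_exp.2
      have := pow_le_pow_left₀ (norm_nonneg _) (hg.supp ξ h0) 2
      linarith
  have key := R254.er_tt_schur ((Measure.count : Measure ↥W).prod (volume.restrict Ω₀)) (mr_nu V)
    (fun (z : ↥W × (ℝ × V)) (ξ : V) => mr_kk ϱ C₁ ((z.1 : V × ℝ).1, (z.1 : V × ℝ).2 + z.2.1) z.2.2 ξ)
    hkm (Real.exp (C₁ ^ 2 / 2)) (fun z ξ => mr_kk_bdd hϱ C₁ _ _ _) A hA0
    (by
      filter_upwards [hmemΩ] with z hz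
      rw [hΩ₀] at hz
      have hz1 : z.2.1 ∈ Icc (-ϱ) ϱ := hz.1
      have hz2 : ‖z.2.2‖ ≤ C₁ := by simpa [mem_closedBall, dist_zero_right] using hz.2
      have hFm : Measurable fun z' : ↥W × (ℝ × V) =>
          ‖∫ ξ, mr_kk ϱ C₁ ((z.1 : V × ℝ).1, (z.1 : V × ℝ).2 + z.2.1) z.2.2 ξ *
            conj (mr_kk ϱ C₁ ((z'.1 : V × ℝ).1, (z'.1 : V × ℝ).2 + z'.2.1) z'.2.2 ξ) ∂(mr_nu V)‖ₑ := by
        have h1 : Measurable (Function.uncurry fun (z' : ↥W × (ℝ × V)) (ξ : V) =>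
            mr_kk ϱ C₁ ((z.1 : V × ℝ).1, (z.1 : V × ℝ).2 + z.2.1) z.2.2 ξ *
            conj (mr_kk ϱ C₁ ((z'.1 : V × ℝ).1, (z'.1 : V × ℝ).2 + z'.2.1) z'.2.2 ξ)) := by
          have h2 : Measurable fun p : (↥W × (ℝ × V)) × V =>
              mr_kk ϱ C₁ ((z.1 : V × ℝ).1, (z.1 : V × ℝ).2 + z.2.1) z.2.2 p.2 := by
            have hφ2 : Measurable fun p : (↥W × (ℝ × V)) × V =>
              (((((z.1 : V × ℝ).1, (z.1 : V × ℝ).2 + z.2.1), z.2.2), p.2) : ((V × ℝ) × V) × V) := by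
              fun_prop
            exact (mr_kk_meas ϱ C₁).comp hφ2
          exact h2.mul (Complex.continuous_conj.measurable.comp hkm)
        exact (h1.stronglyMeasurable.integral_prod_right).measurable.enorm
      rw [mr_lint_count_prod W _ hFm,
        Finset.sum_coe_sort W (fun a' => ∫⁻ p in Ω₀,
          ‖∫ ξ, mr_kk ϱ C₁ ((z.1 : V × ℝ).1, (z.1 : V × ℝ).2 + z.2.1) z.2.2 ξ *
            conj (mr_kk ϱ C₁ (a'.1, a'.2 + p.1) p.2 ξ) ∂(mr_nu V)‖ₑ), hA]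
      refine le_trans (le_of_eq ?_) (mr_gram_row hCoff hoff hϱ hS W hsep z.1.2 hz1 hz2)
      refine Finset.sum_congr rfl fun a' _ => ?_
      rw [← hΩ₀]
      refine setLIntegral_congr_fun hΩm fun p hp => ?_
      rw [hΩ₀] at hp
      have hp2 : ‖p.2‖ ≤ C₁ := by simpa [mem_closedBall, dist_zero_right] using hp.2
      rw [mr_kk_gram ϱ _ _ hz2 hp2])
    (fun ξ => ((Real.exp (‖ξ‖ ^ 2 / 4) : ℝ) : ℂ) * g ξ) hgt hgb
  rw [mr_l2_tilde hg.meas] at key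
  have hTm : Measurable fun z : ↥W × (ℝ × V) =>
      ‖∫ ξ, mr_kk ϱ C₁ ((z.1 : V × ℝ).1, (z.1 : V × ℝ).2 + z.2.1) z.2.2 ξ * (((Real.exp (‖ξ‖ ^ 2 / 4) : ℝ) : ℂ) * g ξ) ∂(mr_nu V)‖ₑ ^ (2 : ℝ) := by
    have h1 : Measurable (Function.uncurry fun (z : ↥W × (ℝ × V)) (ξ : V) =>
        mr_kk ϱ C₁ ((z.1 : V × ℝ).1, (z.1 : V × ℝ).2 + z.2.1) z.2.2 ξ * (((Real.exp (‖ξ‖ ^ 2 / 4) : ℝ) : ℂ) * g ξ)) :=
      hkm.mul (hgt.comp measurable_snd)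
    exact ((h1.stronglyMeasurable.integral_prod_right).measurable.enorm).pow_const _
  rw [mr_lint_count_prod W _ hTm, Finset.sum_coe_sort W (fun a => ∫⁻ p in Ω₀,
    ‖∫ ξ, mr_kk ϱ C₁ (a.1, a.2 + p.1) p.2 ξ * (((Real.exp (‖ξ‖ ^ 2 / 4) : ℝ) : ℂ) * g ξ) ∂(mr_nu V)‖ₑ ^ (2 : ℝ))] at key
  have e3 : ∀ a : V × ℝ, ∫⁻ p in Ω₀,
      ‖∫ ξ, mr_kk ϱ C₁ (a.1, a.2 + p.1) p.2 ξ * (((Real.exp (‖ξ‖ ^ 2 / 4) : ℝ) : ℂ) * g ξ) ∂(mr_nu V)‖ₑ ^ (2 : ℝ)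
      = ∫⁻ τ in Icc (-ϱ) ϱ, ∫⁻ η in closedBall (0 : V) C₁, ‖Sop ϱ (a.1, a.2 + τ) g η‖ₑ ^ (2 : ℝ) := by
    intro a
    have e4 : ∫⁻ p in Ω₀,
      ‖∫ ξ, mr_kk ϱ C₁ (a.1, a.2 + p.1) p.2 ξ * (((Real.exp (‖ξ‖ ^ 2 / 4) : ℝ) : ℂ) * g ξ) ∂(mr_nu V)‖ₑ ^ (2 : ℝ)
      = ∫⁻ p in Ω₀, ‖Sop ϱ (a.1, a.2 + p.1) g p.2‖ₑ ^ (2 : ℝ) := by
      refine setLIntegral_congr_fun hΩm fun p hp => ?_
      rw [hΩ₀] at hp
      have hp2 : ‖p.2‖ ≤ C₁ := by simpa [mem_closedBall, dist_zero_right] using hp.2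
      rw [mr_kk_sop ϱ _ hp2]
    rw [e4, hΩ₀, Measure.volume_eq_prod, ← Measure.prod_restrict, lintegral_prod]
    have hφ3 : Measurable fun p : ℝ × V => (((a.1, a.2 + p.1), p.2) : (V × ℝ) × V) := by fun_prop
    exact ((((mr_sop_meas ϱ hg.meas).comp hφ3).enorm).pow_const _).aemeasurable
  simp only [e3] at key
  have e5 : ∑ a ∈ W, ENNReal.ofReal ϱ⁻¹ * ∫⁻ τ in Icc (-ϱ) ϱ, ENNReal.ofReal (ϱ ^ (2 * Module.finrank ℝ V)) * ∫⁻ η in closedBall (0 : V) C₁, ‖Sop ϱ (a.1, a.2 + τ) g η‖ₑ ^ (2 : ℝ)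
      = ENNReal.ofReal (ϱ⁻¹ * ϱ ^ (2 * Module.finrank ℝ V)) * ∑ a ∈ W, ∫⁻ τ in Icc (-ϱ) ϱ, ∫⁻ η in closedBall (0 : V) C₁, ‖Sop ϱ (a.1, a.2 + τ) g η‖ₑ ^ (2 : ℝ) := by
    rw [Finset.mul_sum]
    refine Finset.sum_congr rfl fun a _ => ?_
    rw [lintegral_const_mul' _ _ ENNReal.ofReal_ne_top, ENNReal.ofReal_mul (by positivity), mul_assoc]
  rw [e5]
  refine (mul_le_mul' le_rfl key).trans ?_
  rw [← mul_assoc, ← ENNReal.ofReal_mul (by positivity)]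
  refine mul_le_mul' (ENNReal.ofReal_le_ofReal ?_) le_rfl
  -- arithmetic
  rw [hA, ← hh, ← hk]
  obtain ⟨P, hP⟩ : ∃ P : ℝ, P = ϱ ^ k := ⟨_, rfl⟩
  have hP0 : 0 < P := by rw [hP]; positivity
  have hPh : (ϱ ^ 2) ^ h = P := by
    rw [hP, hh, ← hk, ← Real.rpow_natCast ϱ 2, ← Real.rpow_mul hϱ0.le, ← Real.rpow_natCast ϱ k]
    congr 1
    push_cast
    ring
  have e6 : ϱ ^ (2 * k) = P * P := by rw [hP, ← pow_add]; congr 1; ring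
  have e7 : (Real.pi / (ϱ ^ 2 / 4)) ^ h = (4 * Real.pi) ^ h / P := by
    have : Real.pi / (ϱ ^ 2 / 4) = (4 * Real.pi) / ϱ ^ 2 := by field_simp
    rw [this, Real.div_rpow (by positivity) (by positivity), hPh]
  have e8 : (Real.pi / ϱ ^ 2) ^ h = Real.pi ^ h / P := by
    rw [Real.div_rpow (by positivity) (by positivity), hPh]
  have e9 : (S / 2) ^ (-h) = S ^ (-h) * 2 ^ h := by
    rw [Real.div_rpow hS0.le (by norm_num), Real.rpow_neg (by norm_num : (0:ℝ) ≤ 2), div_inv_eq_mul]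
  rw [e6, e7, e8, e9, ← hP]
  obtain ⟨σ, hσ⟩ : ∃ σ : ℝ, σ = S ^ (-h) := ⟨_, rfl⟩
  have hσ0 : 0 ≤ σ := by rw [hσ]; positivity
  rw [← hσ]
  obtain ⟨n, hn⟩ : ∃ n : ℝ, n = (W.card : ℝ) := ⟨_, rfl⟩
  have hn0 : 0 ≤ n := by rw [hn]; positivity
  rw [← hn]
  obtain ⟨u, hu⟩ : ∃ u : ℝ, u = (4 * Real.pi) ^ h := ⟨_, rfl⟩
  have hu0 : 0 ≤ u := by rw [hu]; positivity
  obtain ⟨v, hv⟩ : ∃ v : ℝ, v = Real.pi ^ h := ⟨_, rfl⟩
  have hv0 : 0 ≤ v := by rw [hv]; positivity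
  obtain ⟨w, hw⟩ : ∃ w : ℝ, w = (2 : ℝ) ^ h := ⟨_, rfl⟩
  have hw0 : 0 ≤ w := by rw [hw]; positivity
  rw [← hu, ← hv, ← hw]
  have e10 : ϱ⁻¹ * (P * P) * (2 * ϱ * (u / P) * (v / P) + n * (2 * ϱ * (u / P) * (Coff * (σ * w))))
      = 2 * u * v + 2 * u * (Coff * w) * (n * (P * σ)) := by
    field_simp
  rw [e10]
  have t1 : 0 ≤ 2 * u * v * (n * (P * σ)) := by positivity
  have t2 : 0 ≤ 2 * u * (Coff * w) := by positivity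
  nlinarith [t1, t2]

/-- **LEAF L-MR-GMS: almost orthogonality of the Gaussian local masses.**   `gm` unfolded, `slice_le`, `∫⁻ η = ∫⁻_{ball} + ∫⁻_{ballᶜ}` (`lintegral_add_compl`), `sop_sparse`, `sop_tail` (`ϱ⁻¹ · 2ϱ = 2`; `Real.volume_Icc`). -/
theorem gm_sparse (C₀ : ℝ) (hC₀ : 0 ≤ C₀) : ∃ C : ℝ, 0 ≤ C ∧ ∀ (ϱ S : ℝ) (W : Finset (V × ℝ)) (g : V → ℂ), 1 ≤ ϱ → 4 * ϱ ≤ S →
    (∀ a ∈ W, ∀ a' ∈ W, a ≠ a' → S ≤ dist a a') → Dat C₀ g →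
    ∑ a ∈ W, gm ϱ g a ≤
      ENNReal.ofReal (C * (1 + W.card * (ϱ ^ Module.finrank ℝ V * S ^ (-((Module.finrank ℝ V : ℝ) / 2)) + Real.exp (-(ϱ ^ 2 / 2))))) * l2 g := by
  obtain ⟨C, hC0, hC⟩ := sop_sparse (V := V) C₀ hC₀
  have hπ := Real.pi_pos
  refine ⟨C + 2 * (4 * Real.pi) ^ Module.finrank ℝ V, by positivity, fun ϱ S W g hϱ hS hW hg => ?_⟩
  have hϱ0 : 0 < ϱ := by linarith
  have hS0 : 0 < S := by linarith
  set c : ℝ≥0∞ := ENNReal.ofReal ((4 * Real.pi) ^ Module.finrank ℝ V * Real.exp (-(ϱ ^ 2 / 2))) * l2 g with hc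
  have h1 : ∀ a ∈ W, gm ϱ g a ≤ ENNReal.ofReal ϱ⁻¹ * (∫⁻ τ in Icc (-ϱ) ϱ, ENNReal.ofReal (ϱ ^ (2 * Module.finrank ℝ V)) *
      ∫⁻ η in closedBall (0 : V) (C₀ + 1), ‖Sop ϱ (a.1, a.2 + τ) g η‖ₑ ^ (2 : ℝ)) + 2 * c := by
    intro a _
    unfold gm
    have h2 : ∫⁻ τ in Icc (-ϱ) ϱ, ∫⁻ x : V, ‖ext g (x, a.2 + τ)‖ₑ ^ (2 : ℝ) * ENNReal.ofReal (Real.exp (-(‖x - a.1‖ ^ 2 / ϱ ^ 2)))
        ≤ ∫⁻ τ in Icc (-ϱ) ϱ, (ENNReal.ofReal (ϱ ^ (2 * Module.finrank ℝ V)) *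
          ∫⁻ η in closedBall (0 : V) (C₀ + 1), ‖Sop ϱ (a.1, a.2 + τ) g η‖ₑ ^ (2 : ℝ)) + c := by
      refine lintegral_mono fun τ => ?_
      refine (slice_le hg hϱ0 a.1 (a.2 + τ)).trans ?_
      rw [← lintegral_add_compl _ (measurableSet_closedBall (x := (0 : V)) (ε := C₀ + 1)), mul_add]
      exact add_le_add le_rfl (sop_tail hg hϱ0 _)
    refine (mul_le_mul_right h2 _).trans (le_of_eq ?_)
    rw [lintegral_add_right _ measurable_const, mul_add, setLIntegral_const, Real.volume_Icc]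
    congr 1
    rw [mul_comm c, ← mul_assoc, ← ENNReal.ofReal_mul (by positivity)]
    congr 1
    have : ϱ⁻¹ * (ϱ - -ϱ) = 2 := by field_simp; ring
    rw [this]
    simp
  refine (Finset.sum_le_sum h1).trans ?_
  rw [Finset.sum_add_distrib, Finset.sum_const, nsmul_eq_mul]
  refine (add_le_add (hC ϱ S W g hϱ hS hW hg) le_rfl).trans ?_
  set A : ℝ := ϱ ^ Module.finrank ℝ V * S ^ (-((Module.finrank ℝ V : ℝ) / 2)) with hA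
  set P : ℝ := (4 * Real.pi) ^ Module.finrank ℝ V with hP
  set e : ℝ := Real.exp (-(ϱ ^ 2 / 2)) with he
  have hA0 : 0 ≤ A := by positivity
  have hP0 : 0 ≤ P := by positivity
  have he0 : 0 ≤ e := (Real.exp_pos _).le
  have hn0 : (0 : ℝ) ≤ W.card := Nat.cast_nonneg _
  have e1 : (W.card : ℝ≥0∞) * (2 * c) = ENNReal.ofReal (W.card * (2 * (P * e))) * l2 g := by
    rw [hc, ENNReal.ofReal_mul hn0, ENNReal.ofReal_mul (by norm_num : (0 : ℝ) ≤ 2), ENNReal.ofReal_natCast]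
    simp only [ENNReal.ofReal_ofNat]
    ring
  rw [e1, ← add_mul, ← ENNReal.ofReal_add (by positivity) (by positivity)]
  refine mul_le_mul_left (ENNReal.ofReal_le_ofReal ?_) _
  have t1 : 0 ≤ C * (W.card * e) := by positivity
  have t2 : 0 ≤ P * (W.card * A) := by positivity
  nlinarith

/-- **LEAF L-MR-GM1.**   `gm_sparse` with `W = {a}`, `S = 4 ϱ²` (`ϱ^k (4ϱ²)^(-k/2) ≤ 1`). -/
theorem gm_le (C₀ : ℝ) (hC₀ : 0 ≤ C₀) : ∃ C : ℝ, 0 ≤ C ∧ ∀ (ϱ : ℝ) (g : V → ℂ) (a : V × ℝ), 1 ≤ ϱ → Dat C₀ g → gm ϱ g a ≤ ENNReal.ofReal C * l2 g := by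
  obtain ⟨C, hC0, hC⟩ := gm_sparse (V := V) C₀ hC₀
  refine ⟨C * 3, by positivity, fun ϱ g a hϱ hg => ?_⟩
  have hϱ0 : 0 < ϱ := by linarith
  have h1 := hC ϱ (4 * ϱ ^ 2) {a} g hϱ (by nlinarith) (by
    intro x hx y hy hne
    rw [Finset.mem_singleton] at hx hy
    exact absurd (hx.trans hy.symm) hne) hg
  rw [Finset.sum_singleton, Finset.card_singleton] at h1
  refine h1.trans (mul_le_mul_left (ENNReal.ofReal_le_ofReal (mul_le_mul_of_nonneg_left ?_ hC0)) _)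
  have h2 : ϱ ^ Module.finrank ℝ V * (4 * ϱ ^ 2) ^ (-((Module.finrank ℝ V : ℝ) / 2)) ≤ 1 := by
    have h3 : (4 * ϱ ^ 2) ^ (-((Module.finrank ℝ V : ℝ) / 2)) ≤ (ϱ ^ 2) ^ (-((Module.finrank ℝ V : ℝ) / 2)) :=
      Real.rpow_le_rpow_of_nonpos (by positivity) (by nlinarith) (by
        have : (0 : ℝ) ≤ (Module.finrank ℝ V : ℝ) / 2 := by positivity
        linarith)
    have h4 : (ϱ ^ 2) ^ (-((Module.finrank ℝ V : ℝ) / 2)) = (ϱ ^ Module.finrank ℝ V)⁻¹ := by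
      rw [← Real.rpow_natCast ϱ 2, ← Real.rpow_mul hϱ0.le, ← Real.rpow_natCast ϱ (Module.finrank ℝ V), ← Real.rpow_neg hϱ0.le]
      congr 1
      push_cast
      ring
    calc ϱ ^ Module.finrank ℝ V * (4 * ϱ ^ 2) ^ (-((Module.finrank ℝ V : ℝ) / 2))
        ≤ ϱ ^ Module.finrank ℝ V * (ϱ ^ Module.finrank ℝ V)⁻¹ := by
          rw [← h4]
          exact mul_le_mul_of_nonneg_left h3 (by positivity)
      _ = 1 := mul_inv_cancel₀ (by positivity)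
  have h5 : Real.exp (-(ϱ ^ 2 / 2)) ≤ 1 := by
    rw [Real.exp_le_one_iff, neg_nonpos]
    positivity
  push_cast
  linarith

end Claimed.Agent.MR
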