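import Claimed.Agent.Lib.MR.Fam

/-!
# Box MR, file 3: the `L²` ball inflation with POLYNOMIAL dependence on the transversality, and its iteration            (architect helper13)            CONTRACT
All proofs are CLONES of proved theorems of `Lib/BD/{Infl,Lev}.lean` with `t = 2`, `κ = 1`, `MRob C ν` replaced by `MRobQ C Q`, `BD.bd_mk` replaced by `MK.mk_graph_fin`.   `p = pk V = 2 d / k`, so `p / (2 d) = 1 / k`.
Every `sorry` is a leaf `L-MR-*`.  Statements are frozen; auxiliary lemmas directly above your theorem (prefix `mr_`); edit only your block.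
-/

set_option autoImplicit false
open MeasureTheory Set Metric
open scoped ENNReal NNReal
open Claimed.Agent.BD

namespace Claimed.Agent.MR

variable {V : Type} [NormedAddCommGroup V] [InnerProductSpace ℝ V] [FiniteDimensional ℝ V] [MeasurableSpace V] [BorelSpace V]

/-- **LEAF L-MR-PK.**  `field_simp`; `dd V = k + 1`. -/
theorem pk_div (hk : 1 ≤ Module.finrank ℝ V) : pk V / (2 * (dd V : ℝ)) = 1 / (Module.finrank ℝ V : ℝ) ∧ pk V / (dd V : ℝ) = 2 / (Module.finrank ℝ V : ℝ) ∧ 2 ≤ pk V := by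
  have hkR : (0 : ℝ) < (Module.finrank ℝ V : ℝ) := by exact_mod_cast hk
  have hd : (dd V : ℝ) = (Module.finrank ℝ V : ℝ) + 1 := by
    unfold dd
    push_cast
    ring
  have hd0 : (0 : ℝ) < dd V := by rw [hd]; linarith
  unfold pk
  refine ⟨?_, ?_, ?_⟩
  · field_simp
  · field_simp
  · rw [le_div_iff₀ hkR, hd]
    linarith

open scoped Classical in
/-- **LEAF L-MR-GRP.**  clone of `BD.MRob.group` (`BD.Rob.group`; the centres of the clusters are centres of the family: `Grp.rep`). -/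
theorem MRobQ.group {C Cg Q ρ σ : ℝ} {ι ι' : Type} {s : Fin (dd V) → Finset ι} {v : Fin (dd V) → ι → V} {H : Fin (dd V) → ι → V × ℝ → ℂ}
    (h : MRobQ C Q ρ s v H) {π : Fin (dd V) → ι → ι'} {u : Fin (dd V) → ι' → V} (hg : ∀ i, Grp Cg σ (s i) (v i) (π i) (u i)) (hρ : 0 < ρ) (hσ : ρ ≤ σ) (hC : 0 ≤ C) :
    MRobQ (max (C + 1) Cg) Q σ (fun i => (s i).image (π i)) u (fun i => gsum (s i) (π i) (H i)) := by
  refine ⟨fun i => (h.rob i).group (hg i) hρ hσ hC, fun j hj => ?_⟩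
  have hex : ∀ i, ∃ θ' ∈ s i, u i (j i) = v i θ' := by
    intro i
    obtain ⟨θ, hθ, e⟩ := Finset.mem_image.1 (hj i)
    obtain ⟨θ', hθ', e'⟩ := (hg i).rep θ hθ
    exact ⟨θ', hθ', by rw [← e, e']⟩
  choose θ' h1 h2 using hex
  have := h.trans θ' h1
  simp_rw [h2]
  exact this

/-- **LEAF L-MR-INFL-A: local `L²` ball inflation, constant `A Q^M`.**
PLAN.  Clone of the proof of `BD.infl_weighted` with `t = 2`, `lam = 1`: `BD.tube_dom C E 2` for every cap, index type `Σ _ : ι, V`, then `MK.mk_graph_fin V hk C hC` (constants `C₁`, `M`) with `h = σ⁻¹` instead of `BD.bd_mk`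
(`BD.tube v a h = {z | ‖z.1 + (2 * z.2) • v - a‖ ≤ h}` by `rfl`; `Fin (dd V) = Fin (finrank + 1)` by `rfl`; restrict the integral: `setLIntegral_le_lintegral`);   `h^d (σ^(-k))^(d/k) = R^d`. -/
theorem infl2_local (hk : 1 ≤ Module.finrank ℝ V) (C E : ℝ) (hC : 0 ≤ C) (hE : 0 < E) :
    ∃ A : ℝ, ∃ M : ℕ, ∀ (Q σ : ℝ) (ι : Type) (s : Fin (dd V) → Finset ι) (v : Fin (dd V) → ι → V) (H : Fin (dd V) → ι → V × ℝ → ℂ) (z : V × ℝ),
      1 ≤ Q → 0 < σ → σ ≤ 1 → MRobQ C Q σ s v H →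
      ENNReal.ofReal ((σ⁻¹ ^ 2) ^ (-(dd V : ℝ))) * ∫⁻ z' in closedBall z (σ⁻¹ ^ 2),
          ∏ i, (∑ j ∈ s i, avp 2 (E + 2 * dd V + 1) σ⁻¹ (H i j) z') ^ (1 / (Module.finrank ℝ V : ℝ)) ≤
        ENNReal.ofReal (A * Q ^ M) * ∏ i, (∑ j ∈ s i, avp 2 E (σ⁻¹ ^ 2) (H i j) z) ^ (1 / (Module.finrank ℝ V : ℝ)) := by
  have hkR : (0 : ℝ) < (Module.finrank ℝ V : ℝ) := by exact_mod_cast hk
  have hκ : (0 : ℝ) ≤ 1 / (Module.finrank ℝ V : ℝ) := by positivity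
  obtain ⟨A₁, hA₁⟩ := tube_dom (V := V) C E 2 hC hE (by norm_num)
  obtain ⟨A₂, M, hA₂0, hA₂⟩ := MK.mk_graph_fin.{0, 0} V hk C hC
  refine ⟨A₂ * ((max A₁ 0) ^ (1 / (Module.finrank ℝ V : ℝ))) ^ (dd V), M, fun Q σ ι s v H z hQ hσ hσ1 hM => ?_⟩
  have hr : 0 < σ⁻¹ := by positivity
  have hR : (0 : ℝ) < σ⁻¹ ^ 2 := by positivity
  have hex : ∀ i j, j ∈ s i → ∃ (𝒜 : Finset V) (c : V → ℝ≥0∞),
      (∀ z' ∈ closedBall z (σ⁻¹ ^ 2), avp 2 (E + 2 * dd V + 1) σ⁻¹ (H i j) z' ≤ ∑ a ∈ 𝒜, c a * (tube (v i j) a σ⁻¹).indicator 1 z') ∧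
      ∑ a ∈ 𝒜, c a ≤ ENNReal.ofReal (A₁ * σ ^ (-(Module.finrank ℝ V : ℝ))) * avp 2 E (σ⁻¹ ^ 2) (H i j) z :=
    fun i j hj => hA₁ (v i j) σ (H i j) z ((hM.rob i).bdd j hj) hσ hσ1 ((hM.rob i).fs j hj)
  choose! 𝒜 c h1 h2 using hex
  have hmk : ∫⁻ z' : V × ℝ, ∏ i : Fin (dd V), (∑ x ∈ (s i).sigma (𝒜 i), c i x.1 x.2 * (tube (v i x.1) x.2 σ⁻¹).indicator 1 z') ^ (1 / (Module.finrank ℝ V : ℝ))
      ≤ ENNReal.ofReal (A₂ * Q ^ M * σ⁻¹ ^ (dd V)) * ∏ i : Fin (dd V), (∑ x ∈ (s i).sigma (𝒜 i), c i x.1 x.2) ^ (1 / (Module.finrank ℝ V : ℝ)) :=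
    hA₂ σ⁻¹ Q hr hQ (Σ _ : ι, V) (fun i => (s i).sigma (𝒜 i)) (fun i x => v i x.1) (fun _ x => x.2)
      (fun i x => c i x.1 x.2)
      (fun i x hx => (hM.rob i).bdd x.1 (Finset.mem_sigma.1 hx).1)
      (fun x hx => hM.trans (fun i => (x i).1) fun i => (Finset.mem_sigma.1 (hx i)).1)
  simp only [Finset.sum_sigma] at hmk
  have hK : ENNReal.ofReal (A₁ * σ ^ (-(Module.finrank ℝ V : ℝ))) ^ (1 / (Module.finrank ℝ V : ℝ))
      ≤ ENNReal.ofReal ((max A₁ 0) ^ (1 / (Module.finrank ℝ V : ℝ)) * σ⁻¹) := by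
    calc ENNReal.ofReal (A₁ * σ ^ (-(Module.finrank ℝ V : ℝ))) ^ (1 / (Module.finrank ℝ V : ℝ))
        ≤ ENNReal.ofReal (max A₁ 0 * σ ^ (-(Module.finrank ℝ V : ℝ))) ^ (1 / (Module.finrank ℝ V : ℝ)) := by
          refine ENNReal.rpow_le_rpow (ENNReal.ofReal_le_ofReal ?_) hκ
          gcongr
          exact le_max_left _ _
      _ = _ := by
          rw [ENNReal.ofReal_rpow_of_nonneg (by positivity) hκ, Real.mul_rpow (by positivity) (by positivity), ← Real.rpow_mul hσ.le]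
          congr 2
          rw [← Real.rpow_neg_one]
          congr 1
          field_simp
  calc ENNReal.ofReal ((σ⁻¹ ^ 2) ^ (-(dd V : ℝ))) * ∫⁻ z' in closedBall z (σ⁻¹ ^ 2),
          ∏ i, (∑ j ∈ s i, avp 2 (E + 2 * dd V + 1) σ⁻¹ (H i j) z') ^ (1 / (Module.finrank ℝ V : ℝ))
      ≤ ENNReal.ofReal ((σ⁻¹ ^ 2) ^ (-(dd V : ℝ))) * ∫⁻ z' in closedBall z (σ⁻¹ ^ 2),
          ∏ i, (∑ j ∈ s i, ∑ a ∈ 𝒜 i j, c i j a * (tube (v i j) a σ⁻¹).indicator 1 z') ^ (1 / (Module.finrank ℝ V : ℝ)) := by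
        refine mul_le_mul' le_rfl (setLIntegral_mono' measurableSet_closedBall fun z' hz' => ?_)
        exact Finset.prod_le_prod' fun i _ => ENNReal.rpow_le_rpow (Finset.sum_le_sum fun j hj => h1 i j hj z' hz') hκ
    _ ≤ ENNReal.ofReal ((σ⁻¹ ^ 2) ^ (-(dd V : ℝ))) * (ENNReal.ofReal (A₂ * Q ^ M * σ⁻¹ ^ (dd V)) *
          ∏ i, (∑ j ∈ s i, ∑ a ∈ 𝒜 i j, c i j a) ^ (1 / (Module.finrank ℝ V : ℝ))) :=
        mul_le_mul' le_rfl ((setLIntegral_le_lintegral _ _).trans hmk)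
    _ ≤ ENNReal.ofReal ((σ⁻¹ ^ 2) ^ (-(dd V : ℝ))) * (ENNReal.ofReal (A₂ * Q ^ M * σ⁻¹ ^ (dd V)) *
          ∏ i, (ENNReal.ofReal ((max A₁ 0) ^ (1 / (Module.finrank ℝ V : ℝ)) * σ⁻¹) *
            (∑ j ∈ s i, avp 2 E (σ⁻¹ ^ 2) (H i j) z) ^ (1 / (Module.finrank ℝ V : ℝ)))) := by
        refine mul_le_mul' le_rfl (mul_le_mul' le_rfl (Finset.prod_le_prod' fun i _ => ?_))
        calc (∑ j ∈ s i, ∑ a ∈ 𝒜 i j, c i j a) ^ (1 / (Module.finrank ℝ V : ℝ))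
            ≤ (ENNReal.ofReal (A₁ * σ ^ (-(Module.finrank ℝ V : ℝ))) * ∑ j ∈ s i, avp 2 E (σ⁻¹ ^ 2) (H i j) z) ^ (1 / (Module.finrank ℝ V : ℝ)) := by
              refine ENNReal.rpow_le_rpow ?_ hκ
              rw [Finset.mul_sum]
              exact Finset.sum_le_sum fun j hj => h2 i j hj
          _ = ENNReal.ofReal (A₁ * σ ^ (-(Module.finrank ℝ V : ℝ))) ^ (1 / (Module.finrank ℝ V : ℝ)) *
                (∑ j ∈ s i, avp 2 E (σ⁻¹ ^ 2) (H i j) z) ^ (1 / (Module.finrank ℝ V : ℝ)) := ENNReal.mul_rpow_of_nonneg _ _ hκ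
          _ ≤ _ := mul_le_mul' hK le_rfl
    _ = _ := by
        rw [Finset.prod_mul_distrib, Finset.prod_const, Finset.card_univ, Fintype.card_fin, ← mul_assoc, ← mul_assoc]
        congr 1
        have hQM : 0 ≤ Q ^ M := by positivity
        rw [← ENNReal.ofReal_pow (by positivity), ← ENNReal.ofReal_mul (by positivity), ← ENNReal.ofReal_mul (by positivity)]
        congr 1
        have e1 : (σ⁻¹ ^ 2) ^ (-(dd V : ℝ)) = (σ ^ (dd V)) ^ 2 := by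
          rw [Real.rpow_neg hR.le, Real.rpow_natCast, inv_pow, inv_pow, inv_inv, ← pow_mul, ← pow_mul, mul_comm]
        rw [e1, mul_pow, inv_pow]
        have hs : σ ^ (dd V) ≠ 0 := (pow_pos hσ _).ne'
        field_simp

theorem MRobQ.cont {C Q ρ : ℝ} {ι : Type} {s : Fin (dd V) → Finset ι} {v : Fin (dd V) → ι → V}
    {H : Fin (dd V) → ι → V × ℝ → ℂ} (h : MRobQ C Q ρ s v H) (i : Fin (dd V)) {j : ι} (hj : j ∈ s i) : Continuous (H i j) :=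
  ((h.rob i).fs j hj).continuous

/-- **LEAF L-MR-INFL-B: `L²` ball inflation.**
PLAN.  Clone of the proof of `BD.infl` from `BD.infl_local`: integrate `infl2_local` over the centre `z` (Tonelli: `∫ dz ∫_{|z' - z| ≤ R} G(z') dz' = |B_R| ∫ G`; `BD.exists_volume_closedBall`, `BD.bdlv_ball_avg`);
unfold `mA`; `avp .. ^ (2 / 2 : ℝ) = avp ..` (`div_self`, `ENNReal.rpow_one`), `pk_div`. -/
theorem infl2 (hk : 1 ≤ Module.finrank ℝ V) (C E : ℝ) (hC : 0 ≤ C) (hE : 0 < E) :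
    ∃ A : ℝ, ∃ M : ℕ, ∀ (Q σ : ℝ) (ι : Type) (s : Fin (dd V) → Finset ι) (v : Fin (dd V) → ι → V) (H : Fin (dd V) → ι → V × ℝ → ℂ),
      1 ≤ Q → 0 < σ → σ ≤ 1 → MRobQ C Q σ s v H →
      mA (pk V) 2 (E + 2 * dd V + 1) σ⁻¹ s H ≤ ENNReal.ofReal (A * Q ^ M) * mA (pk V) 2 E (σ⁻¹ ^ 2) s H := by
  obtain ⟨A, M, hA⟩ := infl2_local hk C E hC hE
  obtain ⟨c, hc, hvol⟩ := exists_volume_closedBall (V := V)
  refine ⟨c⁻¹ * A, M, fun Q σ ι s v H hQ hσ hσ1 hM => ?_⟩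
  have hR : (0 : ℝ) < σ⁻¹ ^ 2 := by positivity
  have hG : Measurable fun z' : V × ℝ =>
      ∏ i, (∑ j ∈ s i, avp 2 (E + 2 * dd V + 1) σ⁻¹ (H i j) z') ^ (1 / (Module.finrank ℝ V : ℝ)) :=
    Finset.measurable_prod _ fun i _ => (Finset.measurable_sum _ fun j hj =>
      (measurable_avp _ _ _ (hM.cont i hj))).pow_const _
  have h1 := lintegral_mono (μ := (volume : Measure (V × ℝ))) fun z => hA Q σ ι s v H z hQ hσ hσ1 hM
  rw [lintegral_const_mul' _ _ ENNReal.ofReal_ne_top, lintegral_const_mul' _ _ ENNReal.ofReal_ne_top,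
    lintegral_ball_centre hG] at h1
  simp only [hvol _ _ hR] at h1
  rw [lintegral_mul_const _ hG, mul_comm (∫⁻ z', _) _, ← mul_assoc, ← ENNReal.ofReal_mul (by positivity)] at h1
  have e1 : (σ⁻¹ ^ 2) ^ (-(dd V : ℝ)) * (c * (σ⁻¹ ^ 2) ^ (dd V : ℝ)) = c := by
    rw [Real.rpow_neg hR.le]
    field_simp
  rw [e1] at h1
  have e2 : (2 / 2 : ℝ) = 1 := by norm_num
  unfold mA
  simp only [(pk_div hk).1, e2, ENNReal.rpow_one]
  calc ∫⁻ z, ∏ i, (∑ j ∈ s i, avp 2 (E + 2 * dd V + 1) σ⁻¹ (H i j) z) ^ (1 / (Module.finrank ℝ V : ℝ))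
      = ENNReal.ofReal c⁻¹ * (ENNReal.ofReal c *
          ∫⁻ z, ∏ i, (∑ j ∈ s i, avp 2 (E + 2 * dd V + 1) σ⁻¹ (H i j) z) ^ (1 / (Module.finrank ℝ V : ℝ))) := by
        rw [← mul_assoc, ← ENNReal.ofReal_mul (by positivity), inv_mul_cancel₀ hc.ne', ENNReal.ofReal_one, one_mul]
    _ ≤ ENNReal.ofReal c⁻¹ * (ENNReal.ofReal (A * Q ^ M) *
          ∫⁻ z, ∏ i, (∑ j ∈ s i, avp 2 E (σ⁻¹ ^ 2) (H i j) z) ^ (1 / (Module.finrank ℝ V : ℝ))) := by gcongr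
    _ = _ := by
        rw [← mul_assoc, ← ENNReal.ofReal_mul (by positivity), mul_assoc]

theorem mr_const3 {A1 A2 X0 q1 q0 : ℝ} (hq1 : 0 ≤ q1) (hq0 : 0 ≤ q0) :
    ENNReal.ofReal (A1 * q1) * (ENNReal.ofReal A2 * ENNReal.ofReal (X0 * q0)) ≤ ENNReal.ofReal (max A1 0 * max A2 0 * max X0 0 * (q1 * q0)) := by
  have m1 : (0 : ℝ) ≤ max A1 0 := le_max_right _ _
  have m2 : (0 : ℝ) ≤ max A2 0 := le_max_right _ _
  have m3 : (0 : ℝ) ≤ max X0 0 := le_max_right _ _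
  calc ENNReal.ofReal (A1 * q1) * (ENNReal.ofReal A2 * ENNReal.ofReal (X0 * q0))
      ≤ ENNReal.ofReal (max A1 0 * q1) * (ENNReal.ofReal (max A2 0) * ENNReal.ofReal (max X0 0 * q0)) := by
        refine mul_le_mul' (ENNReal.ofReal_le_ofReal (mul_le_mul_of_nonneg_right (le_max_left _ _) hq1))
          (mul_le_mul' (ENNReal.ofReal_le_ofReal (le_max_left _ _)) (ENNReal.ofReal_le_ofReal (mul_le_mul_of_nonneg_right (le_max_left _ _) hq0)))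
    _ = _ := by
        rw [← ENNReal.ofReal_mul m2, ← ENNReal.ofReal_mul (by positivity)]
        congr 1
        ring

open scoped Classical in
/-- **LEAF L-MR-LEV: the levels.**   `σ_l = ρ^(2^-l)`.
PLAN.  Clone of `BD.lev_main` (induction on `l`, generalizing `Cg`), without Hölder and without `mD`.
`l = 0`: `BD.mA_orth (pk V) C _` with `σ = ρ`, `q = π` (the family `s, v, H` is `Rob C ρ`), then `infl2` at `σ = ρ`.
`l → l+1` (`σ' = σ_(l+1)`, `σ'² = σ_l`):  `MRobQ.group` at `σ'`, `infl2` with the constant `max (C+1) Cg` at `σ'`:  `mA 2 (E_l + 2d+1) σ'⁻¹ G' ≤ A Q^M mA 2 E_l σ_l⁻¹ G'`;   `BD.Grp.refine` (pairs), `BD.gsum_gsum` / `BD.lev_main_aux_regroup`,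
`BD.mA_orth` at `σ = σ_l` for the refined family `G''` (`BD.Rob.group`):  `mA 2 E_l σ_l⁻¹ G' ≤ A' mA 2 E_l σ_l⁻¹ G''`;   induction hypothesis for `G''` (constant `21^k Cg`).   `Q^M Q^M' = Q^(M+M')`. -/
theorem ml_lev (hk : 1 ≤ Module.finrank ℝ V) (l : ℕ) (C Cg E : ℝ) (hC : 1 ≤ C) (hCg : 0 ≤ Cg) (hE : 0 < E) :
    ∃ X : ℝ, ∃ M : ℕ, ∀ (Q ρ : ℝ) (ι ι' : Type) (s : Fin (dd V) → Finset ι) (v : Fin (dd V) → ι → V) (H : Fin (dd V) → ι → V × ℝ → ℂ)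
      (π : Fin (dd V) → ι → ι') (u : Fin (dd V) → ι' → V), 1 ≤ Q → 0 < ρ → ρ ≤ 1 → MRobQ C Q ρ s v H →
      (∀ i, Grp Cg (ρ ^ ((1 / 2 : ℝ) ^ l)) (s i) (v i) (π i) (u i)) →
      mA (pk V) 2 (E + (l + 1) * (2 * dd V + 1)) (ρ ^ ((1 / 2 : ℝ) ^ l))⁻¹ (fun i => (s i).image (π i)) (fun i => gsum (s i) (π i) (H i)) ≤
        ENNReal.ofReal (X * Q ^ M) * mA (pk V) 2 E (ρ⁻¹ ^ 2) s H := by
  have hp0 : 0 < pk V := by
    have := (pk_div (V := V) hk).2.2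
    linarith
  have hC0 : 0 ≤ C := by linarith
  have hd0 : (0 : ℝ) ≤ dd V := Nat.cast_nonneg _
  induction l generalizing Cg with
  | zero =>
    obtain ⟨A2, hA2⟩ := mA_orth (V := V) (pk V) C (E + 2 * dd V + 1) hp0 hC0 (by positivity)
    obtain ⟨A1, M, hA1⟩ := infl2 (V := V) hk C E hC0 hE
    refine ⟨max A1 0 * max A2 0 * max 1 0, M, ?_⟩
    intro Q ρ ι ι' s v H π u hQ hρ hρ1 hM hg
    have e0 : ρ ^ ((1 / 2 : ℝ) ^ 0) = ρ := by rw [pow_zero, Real.rpow_one]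
    have e1 : E + (((0 : ℕ) : ℝ) + 1) * (2 * dd V + 1) = E + 2 * dd V + 1 := by
      push_cast
      ring
    rw [e0, e1]
    have s1 := hA2 ρ ι ι' s v H π hρ hM.rob
    have s2 := hA1 Q ρ ι s v H hQ hρ hρ1 hM
    have hQM : 0 ≤ Q ^ M := by positivity
    have hc := mr_const3 (A1 := A1) (A2 := A2) (X0 := 1) (q1 := Q ^ M) (q0 := 1) hQM zero_le_one
    rw [mul_one, mul_one, ENNReal.ofReal_one, mul_one] at hc
    calc _ ≤ ENNReal.ofReal A2 * (ENNReal.ofReal (A1 * Q ^ M) * mA (pk V) 2 E (ρ⁻¹ ^ 2) s H) := s1.trans (mul_le_mul' le_rfl s2)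
      _ = (ENNReal.ofReal (A1 * Q ^ M) * ENNReal.ofReal A2) * mA (pk V) 2 E (ρ⁻¹ ^ 2) s H := by ring
      _ ≤ _ := mul_le_mul' hc le_rfl
  | succ l ih =>
    obtain ⟨E0, hE0⟩ : ∃ E0 : ℝ, E0 = E + ((l : ℝ) + 1) * (2 * dd V + 1) := ⟨_, rfl⟩
    have hEE : E + (((l + 1 : ℕ) : ℝ) + 1) * (2 * dd V + 1) = E0 + 2 * dd V + 1 := by
      rw [hE0]
      push_cast
      ring
    have hE00 : 0 < E0 := by
      rw [hE0]
      positivity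
    obtain ⟨C1, hC1⟩ : ∃ C1 : ℝ, C1 = max (C + 1) Cg := ⟨_, rfl⟩
    obtain ⟨Cg2, hCg2⟩ : ∃ Cg2 : ℝ, Cg2 = (21 : ℝ) ^ Module.finrank ℝ V * Cg := ⟨_, rfl⟩
    obtain ⟨C2, hC2⟩ : ∃ C2 : ℝ, C2 = max (C + 1) Cg2 := ⟨_, rfl⟩
    have hC10 : 0 ≤ C1 := by rw [hC1]; exact le_trans (by linarith) (le_max_left _ _)
    have hC20 : 0 ≤ C2 := by rw [hC2]; exact le_trans (by linarith) (le_max_left _ _)
    have hCg20 : 0 ≤ Cg2 := by rw [hCg2]; positivity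
    obtain ⟨A1, M1, hA1⟩ := infl2 (V := V) hk C1 E0 hC10 hE00
    obtain ⟨A2, hA2⟩ := mA_orth (V := V) (pk V) C2 E0 hp0 hC20 hE00.le
    obtain ⟨X0, M0, hX0⟩ := ih Cg2 hCg20
    refine ⟨max A1 0 * max A2 0 * max X0 0, M1 + M0, ?_⟩
    intro Q ρ ι ι' s v H π u hQ hρ hρ1 hM hg
    obtain ⟨σ', hσ'⟩ : ∃ σ' : ℝ, σ' = ρ ^ ((1 / 2 : ℝ) ^ (l + 1)) := ⟨_, rfl⟩
    obtain ⟨σ, hσ⟩ : ∃ σ : ℝ, σ = ρ ^ ((1 / 2 : ℝ) ^ l) := ⟨_, rfl⟩
    rw [← hσ'] at hg ⊢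
    rw [hEE]
    have hσ'0 : 0 < σ' := by rw [hσ']; exact Real.rpow_pos_of_pos hρ _
    have hσ0 : 0 < σ := by rw [hσ]; exact Real.rpow_pos_of_pos hρ _
    have hσσ : σ' ^ 2 = σ := by
      rw [hσ', hσ, ← Real.rpow_natCast, ← Real.rpow_mul hρ.le]
      congr 1
      rw [pow_succ]
      push_cast
      ring
    have hb1 : ((1 / 2 : ℝ) ^ (l + 1)) ≤ 1 := pow_le_one₀ (by norm_num) (by norm_num)
    have hσ'1 : σ' ≤ 1 := by rw [hσ']; exact Real.rpow_le_one hρ.le hρ1 (by positivity)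
    have hρσ' : ρ ≤ σ' := by
      rw [hσ']
      calc ρ = ρ ^ (1 : ℝ) := (Real.rpow_one _).symm
        _ ≤ _ := Real.rpow_le_rpow_of_exponent_ge hρ hρ1 hb1
    have hσσ' : σ ≤ σ' := by rw [← hσσ]; nlinarith
    have hρσ : ρ ≤ σ := by
      rw [hσ]
      calc ρ = ρ ^ (1 : ℝ) := (Real.rpow_one _).symm
        _ ≤ _ := Real.rpow_le_rpow_of_exponent_ge hρ hρ1 (pow_le_one₀ (by norm_num) (by norm_num))
    have hinv : σ'⁻¹ ^ 2 = σ⁻¹ := by rw [inv_pow, hσσ]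
    have href := fun i => (hg i).refine hσ0 hσσ' hCg
    choose π0 hπ0 using href
    rw [← hCg2] at hπ0
    have hM1 := hM.group hg hρ hρσ' hC0
    rw [← hC1] at hM1
    have hR2 := fun i => (hM.rob i).group (hπ0 i) hρ hρσ hC0
    rw [← hC2] at hR2
    have s1 := hA1 Q σ' ι' _ _ _ hQ hσ'0 hσ'1 hM1
    rw [hinv] at s1
    have s3 := hA2 σ (ι' × ι) ι' _ _ _ (fun _ => Prod.fst) hσ0 hR2
    rw [lev_main_aux_regroup] at s3
    have s5 := hX0 Q ρ ι (ι' × ι) s v H (fun i θ => (π i θ, π0 i θ)) (fun i J => v i J.2) hQ hρ hρ1 hM (by rw [← hσ]; exact hπ0)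
    rw [← hσ, ← hE0] at s5
    have hQ1 : 0 ≤ Q ^ M1 := by positivity
    have hQ0 : 0 ≤ Q ^ M0 := by positivity
    have hc := mr_const3 (A1 := A1) (A2 := A2) (X0 := X0) hQ1 hQ0
    rw [← pow_add] at hc
    calc _ ≤ ENNReal.ofReal (A1 * Q ^ M1) * (ENNReal.ofReal A2 * (ENNReal.ofReal (X0 * Q ^ M0) * mA (pk V) 2 E (ρ⁻¹ ^ 2) s H)) :=
          s1.trans (mul_le_mul' le_rfl (s3.trans (mul_le_mul' le_rfl s5)))
      _ = (ENNReal.ofReal (A1 * Q ^ M1) * (ENNReal.ofReal A2 * ENNReal.ofReal (X0 * Q ^ M0))) * mA (pk V) 2 E (ρ⁻¹ ^ 2) s H := by ring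
      _ ≤ _ := mul_le_mul' hc le_rfl

/-- **LEAF L-MR-GLOB: multilinear restriction in the averaged form, loss `ρ^(-ε)`.**
PLAN.  `l` with `(k+1) (1/2)^l ≤ ε` (`exists_pow_lt_of_lt_one`);  `σ = ρ^(2^-l) ∈ [ρ, 1]`;  `π` from `BD.exists_grp` at scale `σ` (`Cg = 3^k`).   `E₁ = E + (l+1)(2d+1) > d`, `p = pk V`.
(1) `F_i = ∑_j H i j ∈ FS (closedBall 0 C')` (`BD.FS.sum`, `BD.cap_subset_ball`, `‖v‖ ≤ C`, `ρ ≤ 1`), `BD.loc_const_ball C' (E₁ p / 2) p` with `r = 1`, `w₀ = 0`: `‖F_i z‖^p ≤ A avp p (E₁ p/2) 1 F_i z`;  take the power `1/d` and the product (`pk_div`: `p/d = 2/k`).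
(2) `BD.lev_start p 2 C 3^k E₁` with `R₀ = 1`: `∫ ∏ avp p (E₁ p/2) 1 F_i ^ (1/d) ≤ X σ^(-k p/2) mA p 2 E₁ σ⁻¹ (grouped)`,  `σ^(-k p / 2) = ρ^(-(k+1) 2^-l) ≤ ρ^(-ε)`.     (3) `ml_lev`. -/
theorem ml_glob (hk : 1 ≤ Module.finrank ℝ V) (C E ε : ℝ) (hC : 1 ≤ C) (hE : 0 < E) (hε : 0 < ε) :
    ∃ X : ℝ, ∃ M : ℕ, ∀ (Q ρ : ℝ) (ι : Type) (s : Fin (dd V) → Finset ι) (v : Fin (dd V) → ι → V) (H : Fin (dd V) → ι → V × ℝ → ℂ),
      1 ≤ Q → 0 < ρ → ρ ≤ 1 → MRobQ C Q ρ s v H →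
      ∫⁻ z, ∏ i, ‖∑ j ∈ s i, H i j z‖ₑ ^ (2 / (Module.finrank ℝ V : ℝ)) ≤ ENNReal.ofReal (X * Q ^ M * ρ ^ (-ε)) * mA (pk V) 2 E (ρ⁻¹ ^ 2) s H := by
  have hkR : (0 : ℝ) < (Module.finrank ℝ V : ℝ) := by exact_mod_cast hk
  obtain ⟨-, hpk2, hpk3⟩ := pk_div (V := V) hk
  have hd : (0 : ℝ) < dd V := by
    unfold dd
    positivity
  have hC0 : 0 ≤ C := by linarith
  obtain ⟨l, hl⟩ := exists_pow_lt_of_lt_one (div_pos hε hd) (by norm_num : (1 / 2 : ℝ) < 1)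
  obtain ⟨E₁, hE₁⟩ : ∃ E₁ : ℝ, E₁ = E + ((l : ℝ) + 1) * (2 * dd V + 1) := ⟨_, rfl⟩
  have hE₁d : (dd V : ℝ) < E₁ := by
    have h1 : ((l : ℝ) + 1) * (2 * dd V + 1) = (l : ℝ) * (2 * dd V + 1) + (2 * dd V + 1) := by ring
    have h2 : 0 ≤ (l : ℝ) * (2 * dd V + 1) := by positivity
    rw [hE₁, h1]
    linarith
  have hE₁p : (dd V : ℝ) < E₁ * pk V / 2 := by
    have : E₁ ≤ E₁ * pk V / 2 := by nlinarith
    linarith
  obtain ⟨A, hA⟩ := loc_const_ball (V := V) (2 * C + 4 * C ^ 2) (E₁ * pk V / 2) (pk V) (by linarith) hE₁p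
  obtain ⟨X1, hX1⟩ := lev_start (V := V) (pk V) 2 C ((3 : ℝ) ^ Module.finrank ℝ V) E₁ (by norm_num) hpk3 hC0 (by positivity) hE₁d
  obtain ⟨X2, M, hX2⟩ := ml_lev (V := V) hk l C ((3 : ℝ) ^ Module.finrank ℝ V) E hC (by positivity) hE
  refine ⟨max X1 0 * max A 0 * max X2 0, M, fun Q ρ ι s v H hQ hρ hρ1 hM => ?_⟩
  obtain ⟨σ, hσ⟩ : ∃ σ : ℝ, σ = ρ ^ ((1 / 2 : ℝ) ^ l) := ⟨_, rfl⟩
  have hσ0 : 0 < σ := by rw [hσ]; exact Real.rpow_pos_of_pos hρ _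
  have hσ1 : σ ≤ 1 := by rw [hσ]; exact Real.rpow_le_one hρ.le hρ1 (by positivity)
  have hρσ : ρ ≤ σ := by
    rw [hσ]
    calc ρ = ρ ^ (1 : ℝ) := (Real.rpow_one _).symm
      _ ≤ _ := Real.rpow_le_rpow_of_exponent_ge hρ hρ1 (pow_le_one₀ (by norm_num) (by norm_num))
  have hgrp := fun i => exists_grp (s i) (v i) hσ0
  choose π hπ using hgrp
  have hFS : ∀ i, FS (closedBall 0 ((2 * C + 4 * C ^ 2) / 1)) (fun y => ∑ j ∈ s i, H i j y) := by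
    intro i
    refine FS.sum (s i) fun j hj => ((hM.rob i).fs j hj).mono ?_
    refine (cap_subset_ball (v i j) (by positivity) (by positivity)).trans (closedBall_subset_closedBall' ?_)
    have hv : ‖v i j‖ ≤ C := (hM.rob i).bdd j hj
    have hv0 := norm_nonneg (v i j)
    have ha : C * ρ ≤ C := by nlinarith
    have ha0 : 0 ≤ C * ρ := by positivity
    have hb : C * ρ ^ 2 ≤ C := by
      have : ρ ^ 2 ≤ 1 := pow_le_one₀ hρ.le hρ1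
      nlinarith
    have h1 : C * ρ * (2 * ‖v i j‖ + C * ρ) ≤ C * (2 * C + C) := by gcongr
    have h2 : dist ((v i j, ‖v i j‖ ^ 2) : V × ℝ) 0 ≤ C ^ 2 := by
      rw [dist_zero_right, Prod.norm_def, max_le_iff]
      constructor
      · show ‖v i j‖ ≤ C ^ 2
        nlinarith
      · show ‖‖v i j‖ ^ 2‖ ≤ C ^ 2
        rw [Real.norm_eq_abs, abs_of_nonneg (by positivity)]
        gcongr
    rw [div_one]
    nlinarith
  have hκ : (0 : ℝ) ≤ 1 / (dd V : ℝ) := by positivity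
  have hpt : ∀ z, ∏ i, ‖∑ j ∈ s i, H i j z‖ₑ ^ (2 / (Module.finrank ℝ V : ℝ))
      ≤ ENNReal.ofReal A * ∏ i, avp (pk V) (E₁ * pk V / 2) 1 (fun y => ∑ j ∈ s i, H i j y) z ^ (1 / (dd V : ℝ)) := by
    intro z
    have h1 : ∀ i, ‖∑ j ∈ s i, H i j z‖ₑ ^ (2 / (Module.finrank ℝ V : ℝ))
        ≤ ENNReal.ofReal A ^ (1 / (dd V : ℝ)) * avp (pk V) (E₁ * pk V / 2) 1 (fun y => ∑ j ∈ s i, H i j y) z ^ (1 / (dd V : ℝ)) := by
      intro i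
      have h2 := hA 1 0 _ one_pos (hFS i) z
      calc ‖∑ j ∈ s i, H i j z‖ₑ ^ (2 / (Module.finrank ℝ V : ℝ)) = (‖∑ j ∈ s i, H i j z‖ₑ ^ pk V) ^ (1 / (dd V : ℝ)) := by
            rw [← ENNReal.rpow_mul, ← hpk2]
            congr 1
            ring
        _ ≤ (ENNReal.ofReal A * avp (pk V) (E₁ * pk V / 2) 1 (fun y => ∑ j ∈ s i, H i j y) z) ^ (1 / (dd V : ℝ)) :=
            ENNReal.rpow_le_rpow h2 hκ
        _ = _ := ENNReal.mul_rpow_of_nonneg _ _ hκ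
    calc _ ≤ ∏ i, (ENNReal.ofReal A ^ (1 / (dd V : ℝ)) * avp (pk V) (E₁ * pk V / 2) 1 (fun y => ∑ j ∈ s i, H i j y) z ^ (1 / (dd V : ℝ))) :=
          Finset.prod_le_prod' fun i _ => h1 i
      _ = _ := by
          rw [Finset.prod_mul_distrib, Finset.prod_const, Finset.card_univ, Fintype.card_fin, ← ENNReal.rpow_natCast, ← ENNReal.rpow_mul,
            one_div, inv_mul_cancel₀ hd.ne', ENNReal.rpow_one]
  have s2 := hX1 ρ σ 1 ι ι s v H π v hρ hρσ hσ1 one_pos ((one_le_inv₀ hσ0).2 hσ1) hM.rob hπ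
  have s3 := hX2 Q ρ ι ι s v H π v hQ hρ hρ1 hM (by rw [← hσ]; exact hπ)
  rw [← hσ, ← hE₁] at s3
  have hq1 : 0 ≤ σ ^ (-(Module.finrank ℝ V : ℝ) * pk V / 2) := (Real.rpow_pos_of_pos hσ0 _).le
  have hq0 : 0 ≤ Q ^ M := by positivity
  have hq1' : σ ^ (-(Module.finrank ℝ V : ℝ) * pk V / 2) ≤ ρ ^ (-ε) := by
    rw [hσ, ← Real.rpow_mul hρ.le]
    refine Real.rpow_le_rpow_of_exponent_ge hρ hρ1 ?_
    have e : -(Module.finrank ℝ V : ℝ) * pk V / 2 = -(dd V : ℝ) := by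
      unfold pk
      field_simp
    rw [e]
    rw [lt_div_iff₀ hd] at hl
    linarith
  have hc := mr_const3 (A1 := X1) (A2 := A) (X0 := X2) hq1 hq0
  calc ∫⁻ z, ∏ i, ‖∑ j ∈ s i, H i j z‖ₑ ^ (2 / (Module.finrank ℝ V : ℝ))
      ≤ ∫⁻ z, ENNReal.ofReal A * ∏ i, avp (pk V) (E₁ * pk V / 2) 1 (fun y => ∑ j ∈ s i, H i j y) z ^ (1 / (dd V : ℝ)) := lintegral_mono hpt
    _ = ENNReal.ofReal A * ∫⁻ z, ∏ i, avp (pk V) (E₁ * pk V / 2) 1 (fun y => ∑ j ∈ s i, H i j y) z ^ (1 / (dd V : ℝ)) :=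
        lintegral_const_mul' _ _ ENNReal.ofReal_ne_top
    _ ≤ ENNReal.ofReal A * (ENNReal.ofReal (X1 * σ ^ (-(Module.finrank ℝ V : ℝ) * pk V / 2)) * (ENNReal.ofReal (X2 * Q ^ M) * mA (pk V) 2 E (ρ⁻¹ ^ 2) s H)) :=
        mul_le_mul' le_rfl (s2.trans (mul_le_mul' le_rfl s3))
    _ = (ENNReal.ofReal (X1 * σ ^ (-(Module.finrank ℝ V : ℝ) * pk V / 2)) * (ENNReal.ofReal A * ENNReal.ofReal (X2 * Q ^ M))) * mA (pk V) 2 E (ρ⁻¹ ^ 2) s H := by ring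
    _ ≤ _ := by
        refine mul_le_mul' (hc.trans (ENNReal.ofReal_le_ofReal ?_)) le_rfl
        have m : 0 ≤ max X1 0 * max A 0 * max X2 0 := by positivity
        calc max X1 0 * max A 0 * max X2 0 * (σ ^ (-(Module.finrank ℝ V : ℝ) * pk V / 2) * Q ^ M)
            ≤ max X1 0 * max A 0 * max X2 0 * (ρ ^ (-ε) * Q ^ M) := by gcongr
          _ = _ := by ring

end Claimed.Agent.MR
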