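import Claimed.Agent.Lib.MR.Sparse
import Claimed.Agent.Lib.MR.Count

/-!
# Box MR, file 8: level sets of the geometric mean `gs r g = ∏_i (sx r g_i)^(1/d)`, strong bound for normalised data            (architect helper13)            CONTRACT
Pattern: `R254/Level/{Level,Strong}.lean` (proved).   Every `sorry` is a leaf `L-MR-*`.  Statements are frozen; auxiliary lemmas directly above your theorem (prefix `mr_`); edit only your block.
-/

set_option autoImplicit false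
open MeasureTheory Set Metric
open scoped ENNReal NNReal
open Claimed.Agent.BD

namespace Claimed.Agent.MR

variable {V : Type} [NormedAddCommGroup V] [InnerProductSpace ℝ V] [FiniteDimensional ℝ V] [MeasurableSpace V] [BorelSpace V]

variable (V) in
/-- the uniform bound of `|ext g|` for `l2 g ≤ 1` -/
noncomputable def bsup (C₀ : ℝ) : ℝ := Real.sqrt (volume (closedBall (0 : V) C₀)).toReal + 1

/-- **LEAF L-MR-BSUP.**  `sx_le`, `Dat.l1_le`: `(∫⁻ ‖g‖ₑ)² ≤ vol · l2 g ≤ vol`  (`measure_closedBall_lt_top`, `ENNReal.ofReal_toReal`, `Real.sqrt`: compare squares, `ENNReal.rpow_le_rpow_iff`). -/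
theorem sx_le_bsup {C₀ : ℝ} {g : V → ℂ} (hg : Dat C₀ g) (h1 : l2 g ≤ 1) (r : ℝ) (z : V × ℝ) : sx r g z ≤ ENNReal.ofReal (bsup V C₀) := by
  have hv : volume (closedBall (0 : V) C₀) ≠ ⊤ := measure_closedBall_lt_top.ne
  have h2 : (∫⁻ ξ, ‖g ξ‖ₑ) ^ (2 : ℝ) ≤ volume (closedBall (0 : V) C₀) :=
    hg.l1_le.trans (by
      calc volume (closedBall (0 : V) C₀) * l2 g ≤ volume (closedBall (0 : V) C₀) * 1 := by gcongr
        _ = _ := mul_one _)
  have h3 : (∫⁻ ξ, ‖g ξ‖ₑ) ≤ ENNReal.ofReal (Real.sqrt (volume (closedBall (0 : V) C₀)).toReal) := by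
    rw [← ENNReal.rpow_le_rpow_iff (z := 2) (by norm_num), ENNReal.ofReal_rpow_of_nonneg (Real.sqrt_nonneg _) (by norm_num)]
    rw [Real.rpow_two, Real.sq_sqrt ENNReal.toReal_nonneg, ENNReal.ofReal_toReal hv]
    exact h2
  exact (sx_le r g z).trans (h3.trans (ENNReal.ofReal_le_ofReal (by unfold bsup; linarith)))

/-- **LEAF L-MR-BSUP.**  `(∏_i a_i^(1/d))^p = ∏_i a_i^(p/d)` (`ENNReal.prod_rpow_of_nonneg`-type: `Finset.prod_rpow`/induction with `ENNReal.mul_rpow_of_nonneg`; `← ENNReal.rpow_mul`). -/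
theorem gs_rpow (r : ℝ) (g : Fin (dd V) → V → ℂ) (z : V × ℝ) {p : ℝ} (hp : 0 ≤ p) : gs r g z ^ p = ∏ i, sx r (g i) z ^ (p / (dd V : ℝ)) := by
  unfold gs
  rw [← ENNReal.prod_rpow_of_nonneg hp]
  refine Finset.prod_congr rfl fun i _ => ?_
  rw [← ENNReal.rpow_mul]
  congr 1
  ring

/-- **LEAF L-MR-BSUP.**  `∏_i B^(1/d) = B`. -/
theorem gs_le_bsup {C₀ : ℝ} {g : Fin (dd V) → V → ℂ} (hg : ∀ i, Dat C₀ (g i)) (h1 : ∀ i, l2 (g i) ≤ 1) (r : ℝ) (z : V × ℝ) : gs r g z ≤ ENNReal.ofReal (bsup V C₀) := by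
  have hd : (dd V : ℝ) ≠ 0 := by
    have : 0 < dd V := by unfold dd; omega
    exact_mod_cast this.ne'
  unfold gs
  calc ∏ i, sx r (g i) z ^ (1 / (dd V : ℝ)) ≤ ∏ _i : Fin (dd V), ENNReal.ofReal (bsup V C₀) ^ (1 / (dd V : ℝ)) :=
        Finset.prod_le_prod' fun i _ => ENNReal.rpow_le_rpow (sx_le_bsup (hg i) (h1 i) r z) (by positivity)
    _ = ENNReal.ofReal (bsup V C₀) := by
        rw [Finset.prod_const, Finset.card_univ, Fintype.card_fin, ← ENNReal.rpow_natCast, ← ENNReal.rpow_mul,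
          one_div_mul_cancel hd, ENNReal.rpow_one]

theorem mr_one_le_bsup (C₀ : ℝ) : 1 ≤ bsup V C₀ := by
  unfold bsup
  linarith [Real.sqrt_nonneg (volume (closedBall (0 : V) C₀)).toReal]

/-- one factor of a high geometric mean is high. -/
theorem mr_factor_high {C₀ : ℝ} {g : Fin (dd V) → V → ℂ} (hg : ∀ i, Dat C₀ (g i)) (h1 : ∀ i, l2 (g i) ≤ 1) (r : ℝ) (z : V × ℝ)
    {μ : ℝ} (hμ : 0 < μ) (hz : ENNReal.ofReal μ < gs r g z) (i₀ : Fin (dd V)) :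
    ENNReal.ofReal (μ ^ (dd V) / bsup V C₀ ^ (dd V - 1)) < sx r (g i₀) z := by
  by_contra hcon
  rw [not_lt] at hcon
  obtain ⟨B, hB⟩ : ∃ B : ℝ, B = bsup V C₀ := ⟨_, rfl⟩
  have hB1 : 1 ≤ B := by rw [hB]; exact mr_one_le_bsup C₀
  have hB0 : 0 < B := by linarith
  rw [← hB] at hcon
  have hd1 : 1 ≤ dd V := by unfold dd; omega
  have hdR : (0 : ℝ) < dd V := by exact_mod_cast hd1
  apply absurd hz
  rw [not_lt]
  unfold gs
  rw [← Finset.mul_prod_erase Finset.univ _ (Finset.mem_univ i₀)]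
  have h2 : ∏ i ∈ Finset.univ.erase i₀, sx r (g i) z ^ (1 / (dd V : ℝ)) ≤ (ENNReal.ofReal B ^ (1 / (dd V : ℝ))) ^ (dd V - 1) := by
    have : (Finset.univ.erase i₀).card = dd V - 1 := by
      rw [Finset.card_erase_of_mem (Finset.mem_univ _), Finset.card_univ, Fintype.card_fin]
    rw [← this, ← Finset.prod_const]
    refine Finset.prod_le_prod' fun i _ => ENNReal.rpow_le_rpow ?_ (by positivity)
    rw [hB]
    exact sx_le_bsup (hg i) (h1 i) r z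
  have h3 : sx r (g i₀) z ^ (1 / (dd V : ℝ)) ≤ ENNReal.ofReal (μ ^ (dd V) / B ^ (dd V - 1)) ^ (1 / (dd V : ℝ)) :=
    ENNReal.rpow_le_rpow hcon (by positivity)
  refine (mul_le_mul' h3 h2).trans (le_of_eq ?_)
  rw [ENNReal.ofReal_rpow_of_pos (by positivity), ENNReal.ofReal_rpow_of_pos hB0, ← ENNReal.ofReal_pow (by positivity),
    ← ENNReal.ofReal_mul (by positivity)]
  congr 1
  rw [Real.div_rpow (by positivity) (by positivity), ← Real.rpow_natCast μ (dd V), ← Real.rpow_mul hμ.le,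
    ← Real.rpow_natCast B (dd V - 1), ← Real.rpow_mul hB0.le, ← Real.rpow_natCast (B ^ (1 / (dd V : ℝ))) (dd V - 1), ← Real.rpow_mul hB0.le]
  have e1 : (dd V : ℝ) * (1 / (dd V : ℝ)) = 1 := by field_simp
  rw [e1, Real.rpow_one, mul_comm (1 / (dd V : ℝ)) ((dd V - 1 : ℕ) : ℝ)]
  have : 0 < B ^ (((dd V - 1 : ℕ) : ℝ) * (1 / (dd V : ℝ))) := by positivity
  field_simp

/-- **LEAF L-MR-LCNT: a priori count of the level set.**
PLAN.  `B = bsup V C₀ ≥ 1`, `i₀ = ⟨0, _⟩`.   `μ < gs r g z ≤ (sx r g_{i₀} z)^(1/d) B^((d-1)/d)` (`Fin.prod_univ_succ` or `Finset.mul_prod_erase`; `sx_le_bsup`), so `lam := μ^d B^(-(d-1)) < sx r g_{i₀} z`, `lam ≤ 1`;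
`lt_iSup_iff` (twice): a point `y_z = z + w`, `‖w‖ ≤ r`, with `lam ≤ ‖ext g_{i₀} y_z‖`.   `z ↦ y_z` is injective on `Z` and the image is `1`-separated (`dist y_z y_z' ≥ dist z z' - 2r ≥ 1`).   `count_high` for the image (`Finset.card_image_of_injOn`):
`#Z ≤ C lam^(-A) = C B^((d-1)A) μ^(-dA)`. -/
theorem level_count (hk : 1 ≤ Module.finrank ℝ V) (C₀ r : ℝ) (hC₀ : 0 ≤ C₀) (hr : 0 ≤ r) : ∃ C A : ℝ, 1 ≤ C ∧ 0 < A ∧ ∀ (g : Fin (dd V) → V → ℂ) (μ : ℝ) (Z : Finset (V × ℝ)),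
    (∀ i, Dat C₀ (g i)) → (∀ i, l2 (g i) ≤ 1) → 0 < μ → μ ≤ 1 → (∀ a ∈ Z, ∀ b ∈ Z, a ≠ b → 2 * r + 1 ≤ dist a b) → (∀ z ∈ Z, ENNReal.ofReal μ < gs r g z) →
    (Z.card : ℝ) ≤ C * μ ^ (-A) := by
  classical
  obtain ⟨C₁, A₁, hC₁, hA₁, hcount⟩ := count_high (V := V) hk C₀ hC₀
  obtain ⟨B, hB⟩ : ∃ B : ℝ, B = bsup V C₀ := ⟨_, rfl⟩
  have hB1 : 1 ≤ B := by rw [hB]; exact mr_one_le_bsup C₀
  have hB0 : 0 < B := by linarith
  have hd1 : 1 ≤ dd V := by unfold dd; omega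
  have hdR : (0 : ℝ) < dd V := by exact_mod_cast hd1
  refine ⟨C₁ * (B ^ (dd V - 1)) ^ A₁, (dd V : ℝ) * A₁, ?_, by positivity, fun g μ Z hg hl2 hμ hμ1 hsep hZ => ?_⟩
  · have : 1 ≤ (B ^ (dd V - 1)) ^ A₁ := Real.one_le_rpow (one_le_pow₀ hB1) hA₁.le
    nlinarith
  obtain ⟨lam, hlam⟩ : ∃ lam : ℝ, lam = μ ^ (dd V) / B ^ (dd V - 1) := ⟨_, rfl⟩
  have hlam0 : 0 < lam := by rw [hlam]; positivity
  have hlam1 : lam ≤ 1 := by
    rw [hlam, div_le_one (by positivity)]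
    exact (pow_le_one₀ hμ.le hμ1).trans (one_le_pow₀ hB1)
  have hex : ∀ z ∈ Z, ∃ w : V × ℝ, ‖w‖ ≤ r ∧ lam ≤ ‖ext (g ⟨0, hd1⟩) (z + w)‖ := by
    intro z hz
    have h1 := mr_factor_high hg hl2 r z hμ (hZ z hz) ⟨0, hd1⟩
    rw [← hB, ← hlam] at h1
    unfold sx at h1
    obtain ⟨w, hw⟩ := lt_iSup_iff.1 h1
    obtain ⟨hw1, hw2⟩ := lt_iSup_iff.1 hw
    refine ⟨w, by simpa [mem_closedBall, dist_zero_right] using hw1, ?_⟩
    rw [← ofReal_norm, ENNReal.ofReal_lt_ofReal_iff_of_nonneg hlam0.le] at hw2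
    exact hw2.le
  choose! w hw1 hw2 using hex
  have hdist : ∀ a ∈ Z, ∀ b ∈ Z, a ≠ b → 1 ≤ dist (a + w a) (b + w b) := by
    intro a ha b hb hab
    have h1 := hsep a ha b hb hab
    have h2 : dist a b ≤ dist a (a + w a) + dist (a + w a) (b + w b) + dist (b + w b) b := dist_triangle4 _ _ _ _
    have h3 : dist a (a + w a) ≤ r := by
      rw [dist_eq_norm]
      have : a - (a + w a) = -w a := by abel
      rw [this, norm_neg]; exact hw1 a ha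
    have h4 : dist (b + w b) b ≤ r := by
      rw [dist_eq_norm]
      have : b + w b - b = w b := by abel
      rw [this]; exact hw1 b hb
    linarith
  have hinj : Set.InjOn (fun z => z + w z) (↑Z : Set (V × ℝ)) := by
    intro a ha b hb hab
    by_contra hne
    have := hdist a ha b hb hne
    simp only at hab
    rw [hab, dist_self] at this
    linarith
  have h5 := hcount (g ⟨0, hd1⟩) lam (Z.image fun z => z + w z) (hg _) (hl2 _) hlam0 hlam1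
    (by
      intro a ha b hb hab
      obtain ⟨a', ha', rfl⟩ := Finset.mem_image.1 ha
      obtain ⟨b', hb', rfl⟩ := Finset.mem_image.1 hb
      exact hdist a' ha' b' hb' fun h => hab (by rw [h]))
    (by
      intro y hy
      obtain ⟨a', ha', rfl⟩ := Finset.mem_image.1 hy
      exact hw2 a' ha')
  rw [Finset.card_image_of_injOn hinj] at h5
  refine h5.trans (le_of_eq ?_)
  rw [hlam, Real.div_rpow (by positivity) (by positivity), Real.rpow_neg (by positivity) A₁, Real.rpow_neg (by positivity) A₁,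
    ← Real.rpow_natCast μ (dd V), ← Real.rpow_mul hμ.le, Real.rpow_neg hμ.le]
  have h6 : 0 < μ ^ ((dd V : ℝ) * A₁) := by positivity
  have h7 : 0 < (B ^ (dd V - 1)) ^ A₁ := by positivity
  field_simp

/-- maximal `δ`-separated subsets (clone of `R254.er_exists_max_sep`) -/
theorem exists_max_sep {X : Type*} [MetricSpace X] (U : Set X) {δ : ℝ} (hδ : 0 < δ) (N : ℕ)
    (h : ∀ Z : Finset X, (↑Z : Set X) ⊆ U → (∀ a ∈ Z, ∀ b ∈ Z, a ≠ b → δ ≤ dist a b) → Z.card ≤ N) :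
    ∃ Z : Finset X, (↑Z : Set X) ⊆ U ∧ (∀ a ∈ Z, ∀ b ∈ Z, a ≠ b → δ ≤ dist a b) ∧ ∀ x ∈ U, ∃ z ∈ Z, dist x z < δ := by
  classical
  set s : Set ℕ := {n | ∃ Z : Finset X, (↑Z : Set X) ⊆ U ∧ (∀ a ∈ Z, ∀ b ∈ Z, a ≠ b → δ ≤ dist a b) ∧ Z.card = n} with hs
  have hne : s.Nonempty := ⟨0, ∅, by simp, by simp, rfl⟩
  have hbd : BddAbove s := ⟨N, by rintro n ⟨Z, h1, h2, rfl⟩; exact h Z h1 h2⟩
  obtain ⟨Z, hZU, hZs, hZc⟩ := Nat.sSup_mem hne hbd
  refine ⟨Z, hZU, hZs, fun x hx => ?_⟩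
  by_contra hcon
  push Not at hcon
  have hxZ : x ∉ Z := fun hxZ => by
    have := hcon x hxZ
    rw [dist_self] at this
    linarith
  have hmem : (insert x Z).card ∈ s := by
    refine ⟨insert x Z, ?_, ?_, rfl⟩
    · intro y hy
      rw [Finset.coe_insert] at hy
      rcases hy with rfl | hy
      · exact hx
      · exact hZU hy
    · intro a ha b hb hab
      rw [Finset.mem_insert] at ha hb
      rcases ha with rfl | ha <;> rcases hb with rfl | hb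
      · exact absurd rfl hab
      · exact hcon b hb
      · rw [dist_comm]; exact hcon a ha
      · exact hZs a ha b hb hab
  have := le_csSup hbd hmem
  rw [Finset.card_insert_of_notMem hxZ, ← hZc] at this
  omega

/-- **LEAF L-MR-LCOV: covering lemma + sparse estimate ⇒ level set bound in terms of the a priori count `Mb`.**
PLAN.  `X, M₀` from `sparse hk C₀ ε r`.   `Z` from `exists_max_sep` (`U` = level set, `δ = 2r+1`, `N = ⌊Mb⌋₊`).   `cover_bound` with `u = gs r g` (`gs_measurable`, `Dat.integrable`), `q = pk V`, `M = Mb`, `Rad = rad Mb`, `D = ⌈Mb^(1/n)⌉₊` (`≤ Mb^(1/n) + 1`: `Nat.ceil_lt_add_one`),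
`Bd = ofReal (X Q^M₀ (3 rad Mb (n-1))^ε)`.   `Rad 0 = 1000 Mb² ≥ Mb ≥ 2r+1`;  `rad_spec k hk Mb` gives `hmono`, and the hypothesis of `sparse` with `R = 3 rad Mb j`, `S = rad Mb (j+1) - rad Mb j` (`#W ≤ Mb`).
`gs^(pk V) = ∏ sx^(2/k)` (`gs_rpow`, `pk_div`);  `∏ l2^(1/k) ≤ 1`;  `rad Mb j ≤ rad Mb (n-1)` (`monotone_nat_of_le_succ`). -/
theorem level_cover (hk : 1 ≤ Module.finrank ℝ V) (C₀ ε r : ℝ) (hC₀ : 0 ≤ C₀) (hε : 0 < ε) (hr : 0 ≤ r) :
    ∃ X : ℝ, ∃ M₀ : ℕ, 0 ≤ X ∧ ∀ (n : ℕ) (Q μ Mb : ℝ) (U : Fin (dd V) → Set V) (g : Fin (dd V) → V → ℂ), 1 ≤ n → 1 ≤ Q → 0 < μ → 1 ≤ Mb → 2 * r + 1 ≤ Mb →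
      Tr Q U → (∀ i, U i ⊆ closedBall 0 C₀) → (∀ i, Dat C₀ (g i)) → (∀ i ξ, ξ ∉ U i → g i ξ = 0) → (∀ i, l2 (g i) ≤ 1) →
      (∀ Z : Finset (V × ℝ), (∀ z ∈ Z, ENNReal.ofReal μ < gs r g z) → (∀ a ∈ Z, ∀ b ∈ Z, a ≠ b → 2 * r + 1 ≤ dist a b) → (Z.card : ℝ) ≤ Mb) →
      volume {z | ENNReal.ofReal μ < gs r g z} ≤ ENNReal.ofReal (n * (Mb ^ ((1 : ℝ) / n) + 1) * μ ^ (-pk V) * (X * Q ^ M₀ * (3 * rad Mb (n - 1)) ^ ε)) := by
  obtain ⟨X, M₀, hX, hsp⟩ := sparse (V := V) hk C₀ ε r hC₀ hε hr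
  refine ⟨X, M₀, hX, fun n Q μ Mb U g hn hQ hμ hMb hrM hTr hU hg hgU hl2 hcnt => ?_⟩
  obtain ⟨-, hpk2, hpk3⟩ := pk_div (V := V) hk
  have hpk0 : 0 < pk V := by linarith
  have hkR : (0 : ℝ) < (Module.finrank ℝ V : ℝ) := by exact_mod_cast hk
  obtain ⟨Z, hZU, hZs, hZc⟩ := exists_max_sep {z | ENNReal.ofReal μ < gs r g z} (δ := 2 * r + 1) (by linarith) ⌊Mb⌋₊
    (fun Z hZ hs => Nat.le_floor (hcnt Z (fun z hz => hZ hz) hs))
  have hrad := rad_spec (Module.finrank ℝ V) hk Mb hMb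
  have hrad0 : rad Mb 0 = 1000 * Mb ^ 2 := by unfold rad; simp
  have hmono : Monotone (rad Mb) := monotone_nat_of_le_succ fun j => (hrad j).2.1
  have hM0 : 0 ≤ Mb ^ ((1 : ℝ) / n) := by positivity
  have key := cover_bound (gs r g) (gs_measurable r fun i => (hg i).integrable) (pk V) hpk0 μ hμ Z (rad Mb)
    (fun x hx => by
      obtain ⟨z, hz, hd⟩ := hZc x hx
      refine ⟨z, hz, ?_⟩
      rw [hrad0]
      nlinarith)
    Mb (hcnt Z (fun z hz => hZU hz) hZs) hMb n hn (by rw [hrad0]; positivity) (fun j => (hrad j).2.1)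
    ⌈Mb ^ ((1 : ℝ) / n)⌉₊ (Nat.le_ceil _) (ENNReal.ofReal (X * Q ^ M₀ * (3 * rad Mb (n - 1)) ^ ε))
    (fun j hj W hW hsep => by
      obtain ⟨h1, h2, h3, h4⟩ := hrad j
      have h5 := hsp Q (3 * rad Mb j) (rad Mb (j + 1) - rad Mb j) W U g hQ (by linarith) h3 hsep
        (by
          refine le_trans (mul_le_mul_of_nonneg_right hW ?_) h4
          have : 0 ≤ 3 * rad Mb j / (rad Mb (j + 1) - rad Mb j) := by
            apply div_nonneg (by linarith) h3.le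
          have h6 : 0 ≤ (3 * rad Mb j) ^ Module.finrank ℝ V * (rad Mb (j + 1) - rad Mb j) ^ (-((Module.finrank ℝ V : ℝ) / 2)) := by
            apply mul_nonneg (pow_nonneg (by linarith) _) (Real.rpow_nonneg h3.le _)
          have h7 := (Real.exp_pos (-((3 * rad Mb j) ^ 2 / 2))).le
          linarith)
        hTr hU hg hgU
      have e1 : ∀ z, gs r g z ^ pk V = ∏ i, sx r (g i) z ^ (2 / (Module.finrank ℝ V : ℝ)) := fun z => by
        rw [gs_rpow r g z hpk0.le, hpk2]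
      simp only [e1]
      refine h5.trans ?_
      have h8 : ∏ i, l2 (g i) ^ (1 / (Module.finrank ℝ V : ℝ)) ≤ 1 :=
        Finset.prod_le_one' fun i _ => ENNReal.rpow_le_one (hl2 i) (by positivity)
      calc ENNReal.ofReal (X * Q ^ M₀ * (3 * rad Mb j) ^ ε) * ∏ i, l2 (g i) ^ (1 / (Module.finrank ℝ V : ℝ))
          ≤ ENNReal.ofReal (X * Q ^ M₀ * (3 * rad Mb j) ^ ε) * 1 := mul_le_mul' le_rfl h8
        _ ≤ _ := by
          rw [mul_one]
          apply ENNReal.ofReal_le_ofReal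
          refine mul_le_mul_of_nonneg_left ?_ (by positivity)
          refine Real.rpow_le_rpow (by linarith) ?_ hε.le
          have : rad Mb j ≤ rad Mb (n - 1) := hmono (by omega)
          linarith)
  refine key.trans ?_
  have hr1 : 0 ≤ rad Mb (n - 1) := by linarith [(hrad (n - 1)).1]
  rw [← ENNReal.ofReal_mul (by positivity), ← ENNReal.ofReal_natCast, ← ENNReal.ofReal_mul (by positivity)]
  apply ENNReal.ofReal_le_ofReal
  have hD : ((⌈Mb ^ ((1 : ℝ) / n)⌉₊ : ℕ) : ℝ) ≤ Mb ^ ((1 : ℝ) / n) + 1 := (Nat.ceil_lt_add_one hM0).le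
  push_cast
  have h9 : 0 ≤ μ ^ (-pk V) * (X * Q ^ M₀ * (3 * rad Mb (n - 1)) ^ ε) := by positivity
  calc (n : ℝ) * (⌈Mb ^ ((1 : ℝ) / n)⌉₊ : ℝ) * (μ ^ (-pk V) * (X * Q ^ M₀ * (3 * rad Mb (n - 1)) ^ ε))
      ≤ (n : ℝ) * (Mb ^ ((1 : ℝ) / n) + 1) * (μ ^ (-pk V) * (X * Q ^ M₀ * (3 * rad Mb (n - 1)) ^ ε)) := by
        gcongr
    _ = _ := by ring

/-- real-number core of `level`. -/
theorem mr_level_num {A η C₃ μ : ℝ} (hA : 0 < A) (hη : 0 < η) (hC₃ : 1 ≤ C₃) (hμ : 0 < μ) (hμ1 : μ ≤ 1) {n : ℕ} (hn : 1 ≤ n)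
    (hnA : 2 * A / η ≤ n) :
    ((C₃ * μ ^ (-A)) ^ ((1 : ℝ) / n) + 1) * (3 * rad (C₃ * μ ^ (-A)) (n - 1)) ^ (η / (4 * A * 3 ^ (n - 1)))
      ≤ 2 * 3 ^ (η / (4 * A * 3 ^ (n - 1))) * 1000 ^ (η / (4 * A)) * C₃ ^ (η / A) * μ ^ (-η) := by
  obtain ⟨Mb, hMb⟩ : ∃ Mb : ℝ, Mb = C₃ * μ ^ (-A) := ⟨_, rfl⟩
  rw [← hMb]
  have hμA : 1 ≤ μ ^ (-A) := Real.one_le_rpow_of_pos_of_le_one_of_nonpos hμ hμ1 (by linarith)
  have hMb1 : 1 ≤ Mb := by rw [hMb]; nlinarith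
  have hMb0 : 0 < Mb := by linarith
  obtain ⟨T, hT⟩ : ∃ T : ℝ, T = (3 : ℝ) ^ (n - 1) := ⟨_, rfl⟩
  have hT0 : 0 < T := by rw [hT]; positivity
  rw [← hT]
  obtain ⟨ε, hε⟩ : ∃ ε : ℝ, ε = η / (4 * A * T) := ⟨_, rfl⟩
  have hε0 : 0 < ε := by rw [hε]; positivity
  rw [← hε]
  have hnR : (0 : ℝ) < n := by exact_mod_cast hn
  have h1 : Mb ^ ((1 : ℝ) / n) + 1 ≤ 2 * Mb ^ ((1 : ℝ) / n) := by
    have : 1 ≤ Mb ^ ((1 : ℝ) / n) := Real.one_le_rpow hMb1 (by positivity)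
    linarith
  have h2 : (3 * rad Mb (n - 1)) ^ ε = 3 ^ ε * 1000 ^ (η / (4 * A)) * Mb ^ (η / (2 * A)) := by
    unfold rad
    rw [Real.mul_rpow (by norm_num) (by positivity), ← Real.rpow_natCast (1000 * Mb ^ 2), ← Real.rpow_mul (by positivity)]
    have e1 : (((3 ^ (n - 1) : ℕ) : ℝ)) * ε = η / (4 * A) := by
      push_cast
      rw [← hT, hε]
      field_simp
    rw [e1, Real.mul_rpow (by norm_num) (by positivity), ← Real.rpow_natCast Mb 2, ← Real.rpow_mul hMb0.le]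
    have e2 : ((2 : ℕ) : ℝ) * (η / (4 * A)) = η / (2 * A) := by
      push_cast
      field_simp
      ring
    rw [e2]
    ring
  have h3 : Mb ^ ((1 : ℝ) / n) * Mb ^ (η / (2 * A)) ≤ C₃ ^ (η / A) * μ ^ (-η) := by
    rw [← Real.rpow_add hMb0]
    have h4 : (1 : ℝ) / n ≤ η / (2 * A) := by
      rw [div_le_div_iff₀ hnR (by positivity)]
      rw [div_le_iff₀ hη] at hnA
      linarith
    have h5 : (1 : ℝ) / n + η / (2 * A) ≤ η / A := by
      have : η / A = η / (2 * A) + η / (2 * A) := by field_simp; ring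
      linarith
    refine (Real.rpow_le_rpow_of_exponent_le hMb1 h5).trans (le_of_eq ?_)
    rw [hMb, Real.mul_rpow (by linarith) (by positivity), ← Real.rpow_mul hμ.le]
    congr 2
    field_simp
  rw [h2]
  have h6 : 0 ≤ (3 : ℝ) ^ ε * 1000 ^ (η / (4 * A)) := by positivity
  calc (Mb ^ ((1 : ℝ) / n) + 1) * (3 ^ ε * 1000 ^ (η / (4 * A)) * Mb ^ (η / (2 * A)))
      ≤ (2 * Mb ^ ((1 : ℝ) / n)) * (3 ^ ε * 1000 ^ (η / (4 * A)) * Mb ^ (η / (2 * A))) := by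
        gcongr
    _ = 2 * (3 ^ ε * 1000 ^ (η / (4 * A))) * (Mb ^ ((1 : ℝ) / n) * Mb ^ (η / (2 * A))) := by ring
    _ ≤ 2 * (3 ^ ε * 1000 ^ (η / (4 * A))) * (C₃ ^ (η / A) * μ ^ (-η)) := by
        gcongr
    _ = _ := by ring

/-- **LEAF L-MR-LEVEL: THE LEVEL SET BOUND.**
PLAN.  `C₁, A` from `level_count`, `C₃ = max C₁ (2r+1)`, `Mb = C₃ μ^(-A) ≥ C₃`.   `n ≥ 1` with `2A/η ≤ n` (`exists_nat_ge`), `ε = η/(4 A 3^(n-1))`, `X, M₀` from `level_cover .. ε`.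
`Mb^(1/n) + 1 ≤ 2 Mb^(1/n)`;  `(3 rad Mb (n-1))^ε = 3^ε 1000^(ε 3^(n-1)) Mb^(2 ε 3^(n-1))` (`rad`, `Real.mul_rpow`, `← Real.rpow_natCast`, `← Real.rpow_mul`);  `1/n + 2ε3^(n-1) ≤ η/A`, so `Mb^(..) ≤ Mb^(η/A) = C₃^(η/A) μ^(-η)`.
`C = 2 n X 3^ε 1000^(ε 3^(n-1)) C₃^(η/A)`. -/
theorem level (hk : 1 ≤ Module.finrank ℝ V) (C₀ r η : ℝ) (hC₀ : 0 ≤ C₀) (hr : 0 ≤ r) (hη : 0 < η) :
    ∃ C : ℝ, ∃ M₀ : ℕ, 0 ≤ C ∧ ∀ (Q μ : ℝ) (U : Fin (dd V) → Set V) (g : Fin (dd V) → V → ℂ), 1 ≤ Q → 0 < μ → μ ≤ 1 →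
      Tr Q U → (∀ i, U i ⊆ closedBall 0 C₀) → (∀ i, Dat C₀ (g i)) → (∀ i ξ, ξ ∉ U i → g i ξ = 0) → (∀ i, l2 (g i) ≤ 1) →
      volume {z | ENNReal.ofReal μ < gs r g z} ≤ ENNReal.ofReal (C * Q ^ M₀ * μ ^ (-(pk V + η))) := by
  obtain ⟨C₁, A, hC₁, hA, hcount⟩ := level_count (V := V) hk C₀ r hC₀ hr
  obtain ⟨C₃, hC₃⟩ : ∃ C₃ : ℝ, C₃ = max C₁ (2 * r + 1) := ⟨_, rfl⟩
  have hC₃1 : 1 ≤ C₃ := by rw [hC₃]; exact hC₁.trans (le_max_left _ _)
  obtain ⟨n₀, hn₀⟩ := exists_nat_ge (2 * A / η)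
  obtain ⟨n, hn⟩ : ∃ n : ℕ, n = n₀ + 1 := ⟨_, rfl⟩
  have hn1 : 1 ≤ n := by omega
  have hnA : 2 * A / η ≤ n := by
    rw [hn]; push_cast; linarith
  obtain ⟨X, M₀, hX, hcov⟩ := level_cover (V := V) hk C₀ (η / (4 * A * 3 ^ (n - 1))) r hC₀ (by positivity) hr
  refine ⟨n * X * (2 * 3 ^ (η / (4 * A * 3 ^ (n - 1))) * 1000 ^ (η / (4 * A)) * C₃ ^ (η / A)), M₀, by positivity,
    fun Q μ U g hQ hμ hμ1 hTr hU hg hgU hl2 => ?_⟩
  have hμA : 1 ≤ μ ^ (-A) := Real.one_le_rpow_of_pos_of_le_one_of_nonpos hμ hμ1 (by linarith)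
  have hMb : C₃ ≤ C₃ * μ ^ (-A) := le_mul_of_one_le_right (by linarith) hμA
  have h1 := hcov n Q μ (C₃ * μ ^ (-A)) U g hn1 hQ hμ (hC₃1.trans hMb)
    (le_trans (by rw [hC₃]; exact le_max_right _ _) hMb) hTr hU hg hgU hl2
    (fun Z hZ hs => (hcount g μ Z hg hl2 hμ hμ1 hs hZ).trans
      (mul_le_mul_of_nonneg_right (by rw [hC₃]; exact le_max_left _ _) (by positivity)))
  refine h1.trans (ENNReal.ofReal_le_ofReal ?_)
  have h2 := mr_level_num hA hη hC₃1 hμ hμ1 hn1 hnA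
  have e : μ ^ (-(pk V + η)) = μ ^ (-pk V) * μ ^ (-η) := by
    rw [← Real.rpow_add hμ]; congr 1; ring
  rw [e]
  have h3 : 0 ≤ (n : ℝ) * μ ^ (-pk V) * (X * Q ^ M₀) := by positivity
  calc (n : ℝ) * ((C₃ * μ ^ (-A)) ^ ((1 : ℝ) / n) + 1) * μ ^ (-pk V) * (X * Q ^ M₀ * (3 * rad (C₃ * μ ^ (-A)) (n - 1)) ^ (η / (4 * A * 3 ^ (n - 1))))
      = ((n : ℝ) * μ ^ (-pk V) * (X * Q ^ M₀)) * (((C₃ * μ ^ (-A)) ^ ((1 : ℝ) / n) + 1) * (3 * rad (C₃ * μ ^ (-A)) (n - 1)) ^ (η / (4 * A * 3 ^ (n - 1)))) := by ring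
    _ ≤ ((n : ℝ) * μ ^ (-pk V) * (X * Q ^ M₀)) * (2 * 3 ^ (η / (4 * A * 3 ^ (n - 1))) * 1000 ^ (η / (4 * A)) * C₃ ^ (η / A) * μ ^ (-η)) :=
        mul_le_mul_of_nonneg_left h2 h3
    _ = _ := by ring

/-- **LEAF L-MR-CAKE: layer cake** (hypothesis `1 ≤ p` added by helper173: false for `p < 1`, large `B`) (Mathlib only; clone of the computation in `R254.er_strong`, `R254/Level/Strong.lean`).
PLAN.  `f = fun x => (u x).toReal` (`u x = ofReal (f x)` since `u x ≤ ofReal B < ∞`), `lintegral_rpow_eq_lintegral_meas_lt_mul`;   `t ≤ 1`: `K t^(-a) t^(p-1)`, `∫_0^1 t^(p-a-1) = 1/(p-a)`;   `1 < t ≤ B`: `vol{t < f} ≤ vol{1 < f} ≤ K`, `t^(p-1) ≤ B^(p-1)`;   `t > B`: empty. -/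
theorem layer_cake {X : Type*} [MeasurableSpace X] (ν : Measure X) (u : X → ℝ≥0∞) (hu : Measurable u) {B K a p : ℝ} (hB : 1 ≤ B) (hK : 0 ≤ K) (ha : 0 < a) (hap : a < p) (hp1 : 1 ≤ p)
    (hub : ∀ x, u x ≤ ENNReal.ofReal B) (hlev : ∀ μ : ℝ, 0 < μ → μ ≤ 1 → ν {x | ENNReal.ofReal μ < u x} ≤ ENNReal.ofReal (K * μ ^ (-a))) :
    ∫⁻ x, u x ^ p ∂ν ≤ ENNReal.ofReal (K * (p / (p - a) + p * B ^ p)) := by
  obtain ⟨ε, hεd⟩ : ∃ ε : ℝ, ε = p - a := ⟨_, rfl⟩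
  have hε : 0 < ε := by rw [hεd]; linarith
  have hp : 0 < p := by linarith
  have hB0 : 0 < B := by linarith
  have hfin : ∀ x, u x ≠ ∞ := fun x => ne_top_of_le_ne_top ENNReal.ofReal_ne_top (hub x)
  have hint : IntegrableOn (fun t : ℝ => K * t ^ (ε - 1)) (Ioc 0 1) := by
    have h1 : IntervalIntegrable (fun t : ℝ => t ^ (ε - 1)) volume 0 1 :=
      intervalIntegral.intervalIntegrable_rpow' (by linarith)
    exact ((intervalIntegrable_iff_integrableOn_Ioc_of_le zero_le_one).1 h1).const_mul K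
  have hnn : 0 ≤ᵐ[volume.restrict (Ioc (0 : ℝ) 1)] fun t : ℝ => K * t ^ (ε - 1) := by
    filter_upwards [ae_restrict_mem measurableSet_Ioc] with t ht
    exact mul_nonneg hK (Real.rpow_nonneg ht.1.le _)
  have hIval : ∫ t in Ioc (0 : ℝ) 1, K * t ^ (ε - 1) = K / ε := by
    rw [integral_const_mul, ← intervalIntegral.integral_of_le zero_le_one, integral_rpow (Or.inl (by linarith))]
    rw [sub_add_cancel, Real.one_rpow, Real.zero_rpow hε.ne']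
    ring
  have hK0 : 0 ≤ K * B ^ (p - 1) * (B - 1) :=
    mul_nonneg (mul_nonneg hK (Real.rpow_nonneg hB0.le _)) (by linarith)
  have hf_meas : Measurable (fun x => (u x).toReal) := hu.ennreal_toReal
  have e1 : ∀ x, u x ^ p = ENNReal.ofReal ((u x).toReal ^ p) := fun x => by
    rw [← ENNReal.ofReal_rpow_of_nonneg ENNReal.toReal_nonneg hp.le, ENNReal.ofReal_toReal (hfin x)]
  have eset : ∀ t : ℝ, 0 ≤ t → {x | t < (u x).toReal} = {x | ENNReal.ofReal t < u x} := by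
    intro t ht
    ext x
    simp only [Set.mem_ofPred_eq]
    exact (ENNReal.ofReal_lt_iff_lt_toReal ht (hfin x)).symm
  have hfinal : p * (K / ε + K * B ^ (p - 1) * (B - 1)) ≤ K * (p / (p - a) + p * B ^ p) := by
    have h1 : B ^ (p - 1) * (B - 1) ≤ B ^ p := by
      have e : B ^ p = B ^ (p - 1) * B := by
        rw [← Real.rpow_add_one hB0.ne', sub_add_cancel]
      rw [e]
      exact mul_le_mul_of_nonneg_left (by linarith) (Real.rpow_nonneg hB0.le _)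
    have h2 : K * p * (B ^ (p - 1) * (B - 1)) ≤ K * p * B ^ p := mul_le_mul_of_nonneg_left h1 (by positivity)
    rw [← hεd]
    calc p * (K / ε + K * B ^ (p - 1) * (B - 1)) = K * (p / ε) + K * p * (B ^ (p - 1) * (B - 1)) := by ring
      _ ≤ K * (p / ε) + K * p * B ^ p := by linarith
      _ = _ := by ring
  refine le_trans ?_ (ENNReal.ofReal_le_ofReal hfinal)
  simp only [e1]
  rw [lintegral_rpow_eq_lintegral_meas_lt_mul ν (ae_of_all _ fun x => ENNReal.toReal_nonneg)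
    hf_meas.aemeasurable hp, ENNReal.ofReal_mul hp.le]
  refine mul_le_mul' le_rfl ?_
  have hmaj : ∀ t ∈ Ioi (0 : ℝ), ν {x | t < (u x).toReal} * ENNReal.ofReal (t ^ (p - 1)) ≤
      (Ioc (0 : ℝ) 1).indicator (fun t => ENNReal.ofReal (K * t ^ (ε - 1))) t +
        (Ioc 1 B).indicator (fun _ => ENNReal.ofReal (K * B ^ (p - 1))) t := by
    intro t ht
    have ht0 : 0 < t := ht
    rw [eset t ht0.le]
    by_cases ht1 : t ≤ 1
    · rw [indicator_of_mem (show t ∈ Ioc (0 : ℝ) 1 from ⟨ht0, ht1⟩)]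
      refine le_add_right ?_
      refine (mul_le_mul' (hlev t ht0 ht1) le_rfl).trans ?_
      rw [← ENNReal.ofReal_mul (mul_nonneg hK (Real.rpow_nonneg ht0.le _))]
      refine ENNReal.ofReal_le_ofReal (le_of_eq ?_)
      rw [mul_assoc, ← Real.rpow_add ht0]
      congr 2
      rw [hεd]
      ring
    · push Not at ht1
      by_cases htM : t ≤ B
      · rw [indicator_of_mem (show t ∈ Ioc (1 : ℝ) B from ⟨ht1, htM⟩)]
        refine le_add_left ?_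
        have h4 : ν {x | ENNReal.ofReal t < u x} ≤ ENNReal.ofReal K := by
          refine (measure_mono fun x hx => ?_).trans ((hlev 1 one_pos le_rfl).trans (le_of_eq (by simp)))
          exact lt_of_le_of_lt (ENNReal.ofReal_le_ofReal ht1.le) hx
        rw [ENNReal.ofReal_mul hK]
        exact mul_le_mul' h4 (ENNReal.ofReal_le_ofReal (Real.rpow_le_rpow ht0.le htM (by linarith)))
      · push Not at htM
        have h4 : {x | ENNReal.ofReal t < u x} = ∅ := by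
          ext x
          simp only [Set.mem_ofPred_eq, mem_empty_iff_false, iff_false, not_lt]
          exact (hub x).trans (ENNReal.ofReal_le_ofReal htM.le)
        rw [h4, measure_empty, zero_mul]
        exact zero_le
  have hm1 : Measurable ((Ioc (0 : ℝ) 1).indicator (fun t => ENNReal.ofReal (K * t ^ (ε - 1)))) :=
    Measurable.indicator (by fun_prop) measurableSet_Ioc
  calc ∫⁻ t in Ioi (0 : ℝ), ν {x | t < (u x).toReal} * ENNReal.ofReal (t ^ (p - 1))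
      ≤ ∫⁻ t in Ioi (0 : ℝ), ((Ioc (0 : ℝ) 1).indicator (fun t => ENNReal.ofReal (K * t ^ (ε - 1))) t +
        (Ioc 1 B).indicator (fun _ => ENNReal.ofReal (K * B ^ (p - 1))) t) :=
        setLIntegral_mono' measurableSet_Ioi hmaj
    _ ≤ ∫⁻ t, ((Ioc (0 : ℝ) 1).indicator (fun t => ENNReal.ofReal (K * t ^ (ε - 1))) t +
        (Ioc 1 B).indicator (fun _ => ENNReal.ofReal (K * B ^ (p - 1))) t) :=
        setLIntegral_le_lintegral _ _
    _ = ENNReal.ofReal (∫ t in Ioc (0 : ℝ) 1, K * t ^ (ε - 1)) +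
        ENNReal.ofReal (K * B ^ (p - 1)) * ENNReal.ofReal (B - 1) := by
        rw [lintegral_add_left hm1, lintegral_indicator measurableSet_Ioc,
          lintegral_indicator measurableSet_Ioc, setLIntegral_const, Real.volume_Ioc,
          ofReal_integral_eq_lintegral_ofReal hint hnn]
    _ = ENNReal.ofReal (K / ε + K * B ^ (p - 1) * (B - 1)) := by
        rw [hIval, ← ENNReal.ofReal_mul (mul_nonneg hK (Real.rpow_nonneg hB0.le _)),
          ← ENNReal.ofReal_add (by positivity) hK0]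

/-- **LEAF L-MR-STRONG: the strong bound for normalised data.**   `η = (p - pk V)/2`, `level`, `layer_cake` with `K = C Q^M₀`, `a = pk V + η`, `B = bsup V C₀` (`gs_le_bsup`), `gs_rpow`. -/
theorem strong (hk : 1 ≤ Module.finrank ℝ V) (C₀ r p : ℝ) (hC₀ : 0 ≤ C₀) (hr : 0 ≤ r) (hp : pk V < p) :
    ∃ C : ℝ, ∃ M₀ : ℕ, 0 ≤ C ∧ ∀ (Q : ℝ) (U : Fin (dd V) → Set V) (g : Fin (dd V) → V → ℂ), 1 ≤ Q →
      Tr Q U → (∀ i, U i ⊆ closedBall 0 C₀) → (∀ i, Dat C₀ (g i)) → (∀ i ξ, ξ ∉ U i → g i ξ = 0) → (∀ i, l2 (g i) ≤ 1) →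
      ∫⁻ z, ∏ i, sx r (g i) z ^ (p / (dd V : ℝ)) ≤ ENNReal.ofReal (C * Q ^ M₀) := by
  have hpk : 2 ≤ pk V := (pk_div hk).2.2
  obtain ⟨η, hηdef⟩ : ∃ η : ℝ, η = (p - pk V) / 2 := ⟨_, rfl⟩
  have hη : 0 < η := by rw [hηdef]; linarith
  obtain ⟨C, M₀, hC, hlev⟩ := level (V := V) hk C₀ r η hC₀ hr hη
  have hB : 1 ≤ bsup V C₀ := by unfold bsup; linarith [Real.sqrt_nonneg (volume (closedBall (0 : V) C₀)).toReal]
  have hap : pk V + η < p := by rw [hηdef]; linarith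
  have ha : 0 < pk V + η := by linarith
  have hp0 : 0 < p := by linarith
  have hc : 0 ≤ p / (p - (pk V + η)) + p * bsup V C₀ ^ p := by
    have h1 : 0 < p - (pk V + η) := by linarith
    have h2 : 0 ≤ bsup V C₀ ^ p := Real.rpow_nonneg (by linarith) _
    positivity
  refine ⟨C * (p / (p - (pk V + η)) + p * bsup V C₀ ^ p), M₀, mul_nonneg hC hc, ?_⟩
  intro Q U g hQ hTr hU hg hz h1
  have hK : 0 ≤ C * Q ^ M₀ := by positivity
  have h := layer_cake (volume : Measure (V × ℝ)) (gs r g) (gs_measurable r fun i => (hg i).integrable) hB hK ha hap (by linarith)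
    (gs_le_bsup hg h1 r) (fun μ hμ hμ1 => hlev Q μ U g hQ hμ hμ1 hTr hU hg hz h1)
  simp only [gs_rpow r g _ hp0.le] at h
  refine h.trans (le_of_eq ?_)
  congr 1
  ring

end Claimed.Agent.MR
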