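import Claimed.Agent.Lib.MR.Infl

/-!
# Box MR, file 4: `ml_loc` = multilinear restriction on a ball, `R^ε` loss, with LOCAL `L²` masses of the cells on the right            (architect helper13)            CONTRACT
Every `sorry` is a leaf `L-MR-*`.  Statements are frozen; auxiliary lemmas directly above your theorem (prefix `mr_`); edit only your block.
-/

set_option autoImplicit false
open MeasureTheory Set Metric
open scoped ENNReal NNReal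
open Claimed.Agent.BD

namespace Claimed.Agent.MR

variable {V : Type} [NormedAddCommGroup V] [InnerProductSpace ℝ V] [FiniteDimensional ℝ V] [MeasurableSpace V] [BorelSpace V]

/-- **LEAF L-MR-END-A: one localised piece.**   `|η((y-a)/R)|² ≤ C₁² (1 + |y-a|/R)^(-(E+E'))` and Peetre `wt E R (y - z) * wt E R (a - y) ≤ wt E R (a - z)` (`BD.wt_peetre`, `BD.wt_mul`, `norm_sub_rev`);  `R^(-d) = R^(-k) R⁻¹`. -/
theorem avp_piece_le {η : V × ℝ → ℂ} {C₁ E E' : ℝ} (hE : 0 ≤ E) (hE' : 0 ≤ E') (hC₁ : 0 ≤ C₁) (hη : ∀ y, ‖η y‖ ≤ C₁ * (1 + ‖y‖) ^ (-((E + E') / 2)))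
    {R : ℝ} (hR : 0 < R) (g : V → ℂ) (a z : V × ℝ) :
    avp 2 E R (fun y => ext g y * η (R⁻¹ • (y - a))) z ≤
      ENNReal.ofReal (C₁ ^ 2 * R ^ (-(Module.finrank ℝ V : ℝ))) * wt E R (a - z) * lm E' R g a := by
  have h2 : (0 : ℝ) ≤ 2 := by norm_num
  have hηe : ∀ y : V × ℝ, ‖η (R⁻¹ • (y - a))‖ₑ ^ (2 : ℝ) ≤ ENNReal.ofReal (C₁ ^ 2) * (wt E R (a - y) * wt E' R (y - a)) := by
    intro y
    have hu : ‖R⁻¹ • (y - a)‖ = ‖y - a‖ / R := by
      rw [norm_smul, Real.norm_eq_abs, abs_of_pos (inv_pos.2 hR), div_eq_inv_mul]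
    have h1 := hη (R⁻¹ • (y - a))
    rw [hu] at h1
    have hb : 0 < 1 + ‖y - a‖ / R := by positivity
    rw [← ofReal_norm, ENNReal.ofReal_rpow_of_nonneg (norm_nonneg _) h2]
    have e1 : wt E R (a - y) = wt E R (y - a) := by
      unfold wt
      rw [norm_sub_rev]
    rw [e1, wt_mul hR]
    unfold wt
    rw [← ENNReal.ofReal_mul (by positivity)]
    refine ENNReal.ofReal_le_ofReal ?_
    calc ‖η (R⁻¹ • (y - a))‖ ^ (2 : ℝ) ≤ (C₁ * (1 + ‖y - a‖ / R) ^ (-((E + E') / 2))) ^ (2 : ℝ) :=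
          Real.rpow_le_rpow (norm_nonneg _) h1 h2
      _ = C₁ ^ 2 * (1 + ‖y - a‖ / R) ^ (-(E + E')) := by
          rw [Real.mul_rpow hC₁ (by positivity), ← Real.rpow_mul hb.le, Real.rpow_two]
          congr 2
          ring
  have hwt : wt E R (a - z) ≠ ∞ := by
    unfold wt
    exact ENNReal.ofReal_ne_top
  unfold avp lm
  calc ENNReal.ofReal (R ^ (-(dd V : ℝ))) * ∫⁻ y, ‖ext g y * η (R⁻¹ • (y - a))‖ₑ ^ (2 : ℝ) * wt E R (y - z)
      ≤ ENNReal.ofReal (R ^ (-(dd V : ℝ))) * ∫⁻ y, (ENNReal.ofReal (C₁ ^ 2) * wt E R (a - z)) * (‖ext g y‖ₑ ^ (2 : ℝ) * wt E' R (y - a)) := by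
        refine mul_le_mul' le_rfl (lintegral_mono fun y => ?_)
        rw [enorm_mul, ENNReal.mul_rpow_of_nonneg _ _ h2]
        calc ‖ext g y‖ₑ ^ (2 : ℝ) * ‖η (R⁻¹ • (y - a))‖ₑ ^ (2 : ℝ) * wt E R (y - z)
            ≤ ‖ext g y‖ₑ ^ (2 : ℝ) * (ENNReal.ofReal (C₁ ^ 2) * (wt E R (a - y) * wt E' R (y - a))) * wt E R (y - z) :=
              mul_le_mul' (mul_le_mul' le_rfl (hηe y)) le_rfl
          _ = ENNReal.ofReal (C₁ ^ 2) * (wt E R (a - y) * wt E R (y - z)) * (‖ext g y‖ₑ ^ (2 : ℝ) * wt E' R (y - a)) := by ring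
          _ ≤ _ := by
              refine mul_le_mul' (mul_le_mul' le_rfl ?_) le_rfl
              have := wt_peetre hE hR (a - y) (y - z)
              rwa [sub_add_sub_cancel] at this
    _ = ENNReal.ofReal (R ^ (-(dd V : ℝ))) * ((ENNReal.ofReal (C₁ ^ 2) * wt E R (a - z)) * ∫⁻ y, ‖ext g y‖ₑ ^ (2 : ℝ) * wt E' R (y - a)) := by
        rw [lintegral_const_mul' _ _ (ENNReal.mul_ne_top ENNReal.ofReal_ne_top hwt)]
    _ = _ := by
        have e : R ^ (-(dd V : ℝ)) = R ^ (-(Module.finrank ℝ V : ℝ)) * R⁻¹ := by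
          rw [← Real.rpow_neg_one R, ← Real.rpow_add hR]
          congr 1
          unfold dd
          push_cast
          ring
        rw [e, ENNReal.ofReal_mul (by positivity), ENNReal.ofReal_mul (by positivity)]
        ring

/-- **LEAF L-MR-END-B: the last level.**   `avp_piece_le` for every piece; `mA` unfolded (`2/2 = 1`, `pk_div`);  `∏_i (K w(z) N_i)^(1/k) = K^(d/k) w(z)^(d/k) ∏ N_i^(1/k)`;  `wt E R y ^ (d/k) = wt (E d/k) R y` (`BD.bdlc_wt_rpow`),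
`∫ wt (E d / k) R (a - z) dz = c R^d` (`BD.exists_lintegral_wt`, `E d/k > d`; `lintegral_sub_left_eq_self`);   `(R^(-k))^(d/k) R^d = 1`. -/
theorem mA_end (hk : 1 ≤ Module.finrank ℝ V) {η : V × ℝ → ℂ} {C₁ E E' : ℝ} (hE : (Module.finrank ℝ V : ℝ) < E) (hE' : 0 ≤ E') (hC₁ : 0 ≤ C₁)
    (hη : ∀ y, ‖η y‖ ≤ C₁ * (1 + ‖y‖) ^ (-((E + E') / 2))) :
    ∃ X : ℝ, ∀ (R : ℝ) (ι : Type) (s : Fin (dd V) → Finset ι) (g : Fin (dd V) → ι → V → ℂ) (a : V × ℝ), 0 < R →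
      mA (pk V) 2 E R s (fun i j y => ext (g i j) y * η (R⁻¹ • (y - a))) ≤
        ENNReal.ofReal X * ∏ i, (∑ j ∈ s i, lm E' R (g i j) a) ^ (1 / (Module.finrank ℝ V : ℝ)) := by
  have hkR : (0 : ℝ) < (Module.finrank ℝ V : ℝ) := by exact_mod_cast hk
  have hd : (0 : ℝ) < dd V := by
    unfold dd
    positivity
  have hκ : (0 : ℝ) ≤ 1 / (Module.finrank ℝ V : ℝ) := by positivity
  have hq : (0 : ℝ) ≤ (dd V : ℝ) / (Module.finrank ℝ V : ℝ) := by positivity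
  have hE0 : 0 ≤ E := hkR.le.trans hE.le
  have hEq : (dd V : ℝ) < E * ((dd V : ℝ) / (Module.finrank ℝ V : ℝ)) := by
    rw [← mul_div_assoc, lt_div_iff₀ hkR]
    nlinarith
  obtain ⟨c, hc, hint⟩ := exists_lintegral_wt (V := V) hEq
  refine ⟨(C₁ ^ 2) ^ ((dd V : ℝ) / (Module.finrank ℝ V : ℝ)) * c, fun R ι s g a hR => ?_⟩
  have e2 : (2 / 2 : ℝ) = 1 := by norm_num
  unfold mA
  simp only [(pk_div hk).1, e2, ENNReal.rpow_one]
  have hpt : ∀ z, ∏ i, (∑ j ∈ s i, avp 2 E R (fun y => ext (g i j) y * η (R⁻¹ • (y - a))) z) ^ (1 / (Module.finrank ℝ V : ℝ))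
      ≤ (ENNReal.ofReal (C₁ ^ 2 * R ^ (-(Module.finrank ℝ V : ℝ))) ^ ((dd V : ℝ) / (Module.finrank ℝ V : ℝ))
          * ∏ i, (∑ j ∈ s i, lm E' R (g i j) a) ^ (1 / (Module.finrank ℝ V : ℝ))) * wt (E * ((dd V : ℝ) / (Module.finrank ℝ V : ℝ))) R (a - z) := by
    intro z
    have h1 : ∀ i, (∑ j ∈ s i, avp 2 E R (fun y => ext (g i j) y * η (R⁻¹ • (y - a))) z) ^ (1 / (Module.finrank ℝ V : ℝ))
        ≤ (ENNReal.ofReal (C₁ ^ 2 * R ^ (-(Module.finrank ℝ V : ℝ))) * wt E R (a - z)) ^ (1 / (Module.finrank ℝ V : ℝ))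
          * (∑ j ∈ s i, lm E' R (g i j) a) ^ (1 / (Module.finrank ℝ V : ℝ)) := by
      intro i
      rw [← ENNReal.mul_rpow_of_nonneg _ _ hκ, Finset.mul_sum]
      exact ENNReal.rpow_le_rpow (Finset.sum_le_sum fun j _ => avp_piece_le hE0 hE' hC₁ hη hR (g i j) a z) hκ
    calc _ ≤ ∏ i, ((ENNReal.ofReal (C₁ ^ 2 * R ^ (-(Module.finrank ℝ V : ℝ))) * wt E R (a - z)) ^ (1 / (Module.finrank ℝ V : ℝ))
          * (∑ j ∈ s i, lm E' R (g i j) a) ^ (1 / (Module.finrank ℝ V : ℝ))) := Finset.prod_le_prod' fun i _ => h1 i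
      _ = _ := by
          rw [Finset.prod_mul_distrib, Finset.prod_const, Finset.card_univ, Fintype.card_fin, ← ENNReal.rpow_natCast, ← ENNReal.rpow_mul,
            one_div_mul_eq_div, ENNReal.mul_rpow_of_nonneg _ _ hq, bdlc_wt_rpow E hR hq]
          ring
  calc _ ≤ ∫⁻ z, (ENNReal.ofReal (C₁ ^ 2 * R ^ (-(Module.finrank ℝ V : ℝ))) ^ ((dd V : ℝ) / (Module.finrank ℝ V : ℝ))
          * ∏ i, (∑ j ∈ s i, lm E' R (g i j) a) ^ (1 / (Module.finrank ℝ V : ℝ))) * wt (E * ((dd V : ℝ) / (Module.finrank ℝ V : ℝ))) R (a - z) :=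
        lintegral_mono hpt
    _ = (ENNReal.ofReal (C₁ ^ 2 * R ^ (-(Module.finrank ℝ V : ℝ))) ^ ((dd V : ℝ) / (Module.finrank ℝ V : ℝ))
          * ∏ i, (∑ j ∈ s i, lm E' R (g i j) a) ^ (1 / (Module.finrank ℝ V : ℝ))) * ENNReal.ofReal (c * R ^ (dd V : ℝ)) := by
        have hm : Measurable fun z : V × ℝ => wt (E * ((dd V : ℝ) / (Module.finrank ℝ V : ℝ))) R (a - z) :=
          (measurable_wt _ _).comp (measurable_const.sub measurable_id)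
        rw [lintegral_const_mul _ hm,
          lintegral_sub_left_eq_self (fun z => wt (E * ((dd V : ℝ) / (Module.finrank ℝ V : ℝ))) R z) a, hint R hR]
    _ = _ := by
        rw [mul_right_comm]
        congr 1
        rw [ENNReal.ofReal_rpow_of_nonneg (by positivity) hq, ← ENNReal.ofReal_mul (by positivity)]
        congr 1
        rw [Real.mul_rpow (by positivity) (by positivity), ← Real.rpow_mul hR.le]
        have e : -(Module.finrank ℝ V : ℝ) * ((dd V : ℝ) / (Module.finrank ℝ V : ℝ)) = -(dd V : ℝ) := by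
          field_simp
        rw [e, Real.rpow_neg hR.le]
        have : R ^ (dd V : ℝ) ≠ 0 := (Real.rpow_pos_of_pos hR _).ne'
        field_simp

/-- **LEAF L-MR-LOC: MULTILINEAR RESTRICTION ON A BALL** of radius `R = ρ⁻²`, loss `ρ^(-ε)`, polynomial in `Q`, for ANY cells at scale `ρ`.
PLAN.  `η` from `BD.exists_eta V`, `C₁` from its decay with exponent `(E + E')/2`, `E = k + 1`.   `C = 2 C₀ + 4 + 3^k`.   `H i v y = ext ((c i v).indicator (g i)) y * η (R⁻¹ • (y - a))`, index type `V`, centres `id`.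
`MRobQ C Q ρ s (fun _ => id) H`: `rob_cells`; `trans` from `hT` and `Cells.sub`.     `∑_v H i v y = ext (g i) y * η(..)` (`ext_sum`, `Cells.sum_indicator`, `Finset.sum_mul`).     On `closedBall a R`: `1 ≤ ‖η (R⁻¹ • (y - a))‖`, so
`∫_{closedBall a R} ∏ ‖ext (g i)‖^(2/k) ≤ ∫ ∏ ‖∑_v H i v‖^(2/k)` (`setLIntegral_le_lintegral` after `setLIntegral_mono`);   `ml_glob C E ε`;  `mA_end`. -/
theorem ml_loc (hk : 1 ≤ Module.finrank ℝ V) (C₀ E' ε : ℝ) (hC₀ : 0 ≤ C₀) (hE' : 0 ≤ E') (hε : 0 < ε) :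
    ∃ X : ℝ, ∃ M : ℕ, ∀ (Q ρ : ℝ) (U : Fin (dd V) → Set V) (g : Fin (dd V) → V → ℂ) (s : Fin (dd V) → Finset V) (c : Fin (dd V) → V → Set V) (a : V × ℝ),
      1 ≤ Q → 0 < ρ → ρ ≤ 1 → Tr Q U → (∀ i, U i ⊆ closedBall 0 C₀) → (∀ i, Dat C₀ (g i)) → (∀ i ξ, ξ ∉ U i → g i ξ = 0) → (∀ i, Cells ρ (U i) (s i) (c i)) →
      ∫⁻ z in closedBall a (ρ⁻¹ ^ 2), ∏ i, ‖ext (g i) z‖ₑ ^ (2 / (Module.finrank ℝ V : ℝ)) ≤
        ENNReal.ofReal (X * Q ^ M * ρ ^ (-ε)) * ∏ i, (∑ v ∈ s i, lm E' (ρ⁻¹ ^ 2) ((c i v).indicator (g i)) a) ^ (1 / (Module.finrank ℝ V : ℝ)) := by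
  have hkR : (0 : ℝ) < (Module.finrank ℝ V : ℝ) := by exact_mod_cast hk
  have hκ2 : (0 : ℝ) ≤ 2 / (Module.finrank ℝ V : ℝ) := by positivity
  obtain ⟨η, hη1, hη2, hη3, -⟩ := exists_eta (V := V)
  obtain ⟨C₁, hC₁⟩ := hη3 (((Module.finrank ℝ V : ℝ) + 1 + E') / 2)
  have hC₁0 : 0 ≤ C₁ := by
    have := (norm_nonneg _).trans (hC₁ 0)
    rwa [norm_zero, add_zero, Real.one_rpow, mul_one] at this
  have hC : (1 : ℝ) ≤ 2 * C₀ + 4 + 3 ^ Module.finrank ℝ V := by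
    have : (0 : ℝ) ≤ 3 ^ Module.finrank ℝ V := by positivity
    linarith
  obtain ⟨X1, M, hX1⟩ := ml_glob (V := V) hk (2 * C₀ + 4 + 3 ^ Module.finrank ℝ V) ((Module.finrank ℝ V : ℝ) + 1) ε hC (by positivity) hε
  obtain ⟨X2, hX2⟩ := mA_end (V := V) hk (E := (Module.finrank ℝ V : ℝ) + 1) (by linarith) hE' hC₁0 hC₁
  refine ⟨max X1 0 * max X2 0, M, fun Q ρ U g s c a hQ hρ hρ1 hT hU hg hg0 hcell => ?_⟩
  have hR : (0 : ℝ) < ρ⁻¹ ^ 2 := by positivity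
  have hM : MRobQ (2 * C₀ + 4 + 3 ^ Module.finrank ℝ V) Q ρ s (fun _ => id)
      (fun i v z => ext ((c i v).indicator (g i)) z * η ((ρ⁻¹ ^ 2)⁻¹ • (z - a))) :=
    ⟨fun i => rob_cells hC₀ hρ hρ1 (hU i) (hcell i) (hg i) hη1 a,
      fun j hj t => hT (fun i => j i) (fun i => (hcell i).sub _ (hj i)) t⟩
  have hsum : ∀ i z, ∑ v ∈ s i, ext ((c i v).indicator (g i)) z * η ((ρ⁻¹ ^ 2)⁻¹ • (z - a)) = ext (g i) z * η ((ρ⁻¹ ^ 2)⁻¹ • (z - a)) := by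
    intro i z
    rw [← Finset.sum_mul, ← ext_sum (s i) (fun v => (c i v).indicator (g i)) (fun v hv => ((hg i).indicator ((hcell i).meas v hv)).integrable)]
    congr 2
    funext ξ
    exact (hcell i).sum_indicator (hg0 i) ξ
  have s1 := hX1 Q ρ V s (fun _ => id) _ hQ hρ hρ1 hM
  have s2 := hX2 (ρ⁻¹ ^ 2) V s (fun i v => (c i v).indicator (g i)) a hR
  simp only [hsum] at s1
  have hq : 0 ≤ Q ^ M * ρ ^ (-ε) := by positivity
  calc ∫⁻ z in closedBall a (ρ⁻¹ ^ 2), ∏ i, ‖ext (g i) z‖ₑ ^ (2 / (Module.finrank ℝ V : ℝ))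
      ≤ ∫⁻ z in closedBall a (ρ⁻¹ ^ 2), ∏ i, ‖ext (g i) z * η ((ρ⁻¹ ^ 2)⁻¹ • (z - a))‖ₑ ^ (2 / (Module.finrank ℝ V : ℝ)) := by
        refine setLIntegral_mono' measurableSet_closedBall fun z hz => ?_
        refine Finset.prod_le_prod' fun i _ => ENNReal.rpow_le_rpow ?_ hκ2
        have h1 : ‖(ρ⁻¹ ^ 2)⁻¹ • (z - a)‖ ≤ 1 := by
          rw [norm_smul, Real.norm_eq_abs, abs_of_pos (inv_pos.2 hR), inv_mul_le_iff₀ hR, mul_one, ← dist_eq_norm]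
          exact mem_closedBall.1 hz
        have h2 := hη2 _ h1
        rw [enorm_mul]
        have h3 : (1 : ℝ≥0∞) ≤ ‖η ((ρ⁻¹ ^ 2)⁻¹ • (z - a))‖ₑ := by
          rw [← ofReal_norm, ← ENNReal.ofReal_one]
          exact ENNReal.ofReal_le_ofReal h2
        calc ‖ext (g i) z‖ₑ = ‖ext (g i) z‖ₑ * 1 := (mul_one _).symm
          _ ≤ _ := mul_le_mul' le_rfl h3
    _ ≤ ∫⁻ z, ∏ i, ‖ext (g i) z * η ((ρ⁻¹ ^ 2)⁻¹ • (z - a))‖ₑ ^ (2 / (Module.finrank ℝ V : ℝ)) := setLIntegral_le_lintegral _ _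
    _ ≤ ENNReal.ofReal (X1 * Q ^ M * ρ ^ (-ε)) * (ENNReal.ofReal X2 *
          ∏ i, (∑ v ∈ s i, lm E' (ρ⁻¹ ^ 2) ((c i v).indicator (g i)) a) ^ (1 / (Module.finrank ℝ V : ℝ))) := s1.trans (mul_le_mul' le_rfl s2)
    _ ≤ _ := by
        rw [← mul_assoc]
        refine mul_le_mul' ?_ le_rfl
        calc ENNReal.ofReal (X1 * Q ^ M * ρ ^ (-ε)) * ENNReal.ofReal X2
            ≤ ENNReal.ofReal (max X1 0 * (Q ^ M * ρ ^ (-ε))) * ENNReal.ofReal (max X2 0) := by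
              refine mul_le_mul' (ENNReal.ofReal_le_ofReal ?_) (ENNReal.ofReal_le_ofReal (le_max_left _ _))
              rw [mul_assoc]
              exact mul_le_mul_of_nonneg_right (le_max_left _ _) hq
          _ = _ := by
              rw [← ENNReal.ofReal_mul (by positivity)]
              congr 1
              ring

end Claimed.Agent.MR
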