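import Claimed.Agent.Lib.BD.Loc

/-!
# Box MR, bridge to packets, file 1: the locally constant property for ALL exponents `s > 0`, with offsets            (architect helper164)            CONTRACT
PAPER-FREE (language of `Lib/BD`).   `F` band limited in an affine image of a ball  ⟹  `|F(z + y)|^s (1 + |Λ y|)^(-E) ≤ A ∫ |F y'|^s a^k b (1 + |Λ(y' - z)|)^(-E) dy'`,  `Λ = Lam v a b`.
For `s ≥ 1` this is `BD.loc_const` + Peetre.   For `s < 1` (needed: the multilinear exponent is `p/d ≈ 2/k`) it is the classical bootstrap with the weighted maximal function; NO series, NO Bernstein.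
Every `sorry` is a leaf `L-MRT-*`.  Statements are frozen; auxiliary lemmas directly above your theorem (prefix `mrt_`); edit only your block.
-/

set_option autoImplicit false
open MeasureTheory Set Metric
open scoped ENNReal NNReal
open Claimed.Agent.BD

namespace Claimed.Agent.MR

variable {V : Type} [NormedAddCommGroup V] [InnerProductSpace ℝ V] [FiniteDimensional ℝ V] [MeasurableSpace V] [BorelSpace V]

/-- the weight `(1 + |Lam v a b y|)^(-E)` (`BD.tw` without its normalisation) -/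
noncomputable def lw (E : ℝ) (v : V) (a b : ℝ) (y : V × ℝ) : ℝ≥0∞ := ENNReal.ofReal ((1 + ‖Lam v a b y‖) ^ (-E))

/-- **LEAF L-MRT-LW.**  `unfold`, `ENNReal.ofReal_mul`. -/
theorem tw_eq_lw (E : ℝ) (v : V) {a b : ℝ} (ha : 0 < a) (hb : 0 < b) (y : V × ℝ) :
    tw E v a b y = ENNReal.ofReal (a ^ Module.finrank ℝ V * b) * lw E v a b y := by
  unfold tw lw
  rw [← ENNReal.ofReal_mul (by positivity)]

/-- **LEAF L-MRT-LW.**  Peetre: `Lam` is additive (`BD.bdlc_Lam_sub`), `1 + ‖x + x'‖ ≤ (1 + ‖x‖)(1 + ‖x'‖)`, `Real.mul_rpow`, `Real.rpow_le_rpow_of_nonpos` (as `BD.wt_peetre`). -/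
theorem lw_peetre {E : ℝ} (hE : 0 ≤ E) (v : V) (a b : ℝ) (y y' : V × ℝ) : lw E v a b y * lw E v a b y' ≤ lw E v a b (y + y') := by
  unfold lw
  rw [← ENNReal.ofReal_mul (by positivity), ← Real.mul_rpow (by positivity) (by positivity)]
  apply ENNReal.ofReal_le_ofReal
  apply Real.rpow_le_rpow_of_nonpos (by positivity) _ (by linarith)
  have e : Lam v a b (y + y') = Lam v a b y + Lam v a b y' := by
    have := bdlc_Lam_sub v a b (y + y') y'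
    rw [add_sub_cancel_right] at this
    rw [this, sub_add_cancel]
  rw [e]
  have := norm_add_le (Lam v a b y) (Lam v a b y')
  nlinarith [norm_nonneg (Lam v a b y), norm_nonneg (Lam v a b y')]

/-- **LEAF L-MRT-LW.** -/
theorem lw_neg (E : ℝ) (v : V) (a b : ℝ) (y : V × ℝ) : lw E v a b (-y) = lw E v a b y := by
  unfold lw
  have e : Lam v a b (-y) = -Lam v a b y := by
    have := bdlc_Lam_sub v a b 0 y
    have h0 : Lam v a b 0 = 0 := by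
      unfold Lam
      simp
    rw [zero_sub, h0, zero_sub] at this
    exact this
  rw [e, norm_neg]

/-- **LEAF L-MRT-LW.**  `ENNReal.ofReal_rpow_of_pos`, `Real.rpow_mul`. -/
theorem lw_rpow (M s : ℝ) (v : V) (a b : ℝ) (y : V × ℝ) : lw M v a b y ^ s = lw (M * s) v a b y := by
  unfold lw
  rw [ENNReal.ofReal_rpow_of_pos (by positivity), ← Real.rpow_mul (by positivity)]
  congr 2
  ring

/-- **LEAF L-MRT-LW.** -/
theorem lw_zero (E : ℝ) (v : V) (a b : ℝ) : lw E v a b 0 = 1 := by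
  unfold lw Lam
  simp

/-- **LEAF L-MRT-LW.** -/
theorem lw_pos (E : ℝ) (v : V) (a b : ℝ) (y : V × ℝ) : 0 < lw E v a b y ∧ lw E v a b y ≠ ∞ :=
  ⟨ENNReal.ofReal_pos.2 (by positivity), ENNReal.ofReal_ne_top⟩

theorem mrt_tw_lw {E : ℝ} (hE : 0 ≤ E) (v : V) {a b : ℝ} (ha : 0 < a) (hb : 0 < b) (z y y' : V × ℝ) :
    tw E v a b (z + y - y') * lw E v a b y ≤ tw E v a b (y' - z) := by
  rw [tw_eq_lw E v ha hb, tw_eq_lw E v ha hb, mul_assoc]
  refine mul_le_mul' le_rfl ?_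
  have e1 : z + y - y' = -(y' - z - y) := by abel
  rw [e1, lw_neg]
  have := lw_peetre hE v a b (y' - z - y) y
  rwa [sub_add_cancel] at this

theorem mrt_offset {E t : ℝ} (hE : 0 ≤ E) (v : V) {a b : ℝ} (ha : 0 < a) (hb : 0 < b) (F : V × ℝ → ℂ) (c : ℝ≥0∞)
    (h : ∀ x, ‖F x‖ₑ ^ t ≤ c * ∫⁻ y', ‖F y'‖ₑ ^ t * tw E v a b (x - y')) (z y : V × ℝ) :
    ‖F (z + y)‖ₑ ^ t * lw E v a b y ≤ c * ∫⁻ y', ‖F y'‖ₑ ^ t * tw E v a b (y' - z) := by
  calc ‖F (z + y)‖ₑ ^ t * lw E v a b y ≤ (c * ∫⁻ y', ‖F y'‖ₑ ^ t * tw E v a b (z + y - y')) * lw E v a b y :=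
        mul_le_mul' (h (z + y)) le_rfl
    _ = c * ∫⁻ y', ‖F y'‖ₑ ^ t * tw E v a b (z + y - y') * lw E v a b y := by
        rw [mul_assoc, lintegral_mul_const' _ _ (lw_pos E v a b y).2]
    _ ≤ c * ∫⁻ y', ‖F y'‖ₑ ^ t * tw E v a b (y' - z) := by
        refine mul_le_mul' le_rfl (lintegral_mono fun y' => ?_)
        rw [mul_assoc]
        exact mul_le_mul' le_rfl (mrt_tw_lw hE v ha hb z y y')

/-- **LEAF L-MRT-SMV1: `s ≥ 1`.**   `BD.loc_const C E s` at the point `z + y`; multiply by `lw E y`, pull it into the integral (`lintegral_const_mul'`/`lintegral_mul_const'`);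
`tw E (z + y - y') * lw E y ≤ tw E (y' - z)`: `tw_eq_lw`, `lw_neg` (`z + y - y' = -(y' - z - y)`), `lw_peetre` (`(y' - z - y) + y = y' - z`). -/
theorem smv_ge (C E s : ℝ) (hs : 1 ≤ s) (hE : (dd V : ℝ) < E) :
    ∃ A : ℝ, ∀ (v : V) (a b : ℝ) (w₀ : V × ℝ) (F : V × ℝ → ℂ), 0 < a → 0 < b →
      FS ((fun w => w₀ + LamT v a b w) '' closedBall 0 C) F →
      ∀ z y, ‖F (z + y)‖ₑ ^ s * lw E v a b y ≤ ENNReal.ofReal A * ∫⁻ y', ‖F y'‖ₑ ^ s * tw E v a b (y' - z) := by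
  obtain ⟨A, hA⟩ := loc_const (V := V) C E s hs hE
  have hE0 : 0 ≤ E := le_trans (Nat.cast_nonneg _) hE.le
  exact ⟨A, fun v a b w₀ F ha hb hF z y => mrt_offset hE0 v ha hb F _ (hA v a b w₀ F ha hb hF) z y⟩

theorem mrt_lw_le_one {E : ℝ} (hE : 0 ≤ E) (v : V) (a b : ℝ) (y : V × ℝ) : lw E v a b y ≤ 1 := by
  unfold lw
  rw [← ENNReal.ofReal_one]
  apply ENNReal.ofReal_le_ofReal
  apply Real.rpow_le_one_of_one_le_of_nonpos
  · have := norm_nonneg (Lam v a b y)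
    linarith
  · linarith

/-- **LEAF L-MRT-SMV2: `0 < s ≤ 1`, the bootstrap.**
PLAN.  `M = E / s ≥ E > d`.   `A₁` from `BD.loc_const C M 1`:  `‖F x‖ₑ ≤ A₁ ∫ ‖F y'‖ₑ tw M (x - y')` (`ENNReal.rpow_one`).   WLOG `A₁ ≥ 0`; the constant is `A = A₁`.
Fix `z`.   `S := ⨆ y, ‖F (z + y)‖ₑ * lw M y`;   `S < ∞` (`FS.bdd`, `lw ≤ 1`).      `I := ∫ ‖F y'‖ₑ^s tw E (y' - z)`.
(1) for all `y'`:  `‖F y'‖ₑ^(1-s) * lw M (y' - z)^(1-s) ≤ S^(1-s)`  (`le_iSup` at `y = y' - z`, `ENNReal.mul_rpow_of_nonneg`, `ENNReal.rpow_le_rpow`).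
(2) for all `y`:  `‖F (z+y)‖ₑ lw M y ≤ A₁ ∫ ‖F y'‖ₑ tw M (z + y - y') lw M y ≤ A₁ ∫ ‖F y'‖ₑ tw M (y' - z)`  (as in `smv_ge`),  and
    `‖F y'‖ₑ tw M (y' - z) = ‖F y'‖ₑ^s [‖F y'‖ₑ^(1-s) lw M (y'-z)^(1-s)] a^k b lw M (y'-z)^s ≤ S^(1-s) ‖F y'‖ₑ^s tw E (y' - z)`   (`ENNReal.rpow_add_of_nonneg` or cases `‖F y'‖ₑ = 0`; `lw_rpow`: `M s = E`).
    Hence `S ≤ A₁ S^(1-s) I` (`iSup_le`).
(3) `S = 0`: the left side of the claim is `0` (`lw_pos`).   `0 < S < ∞`:  `S^s = S / S^(1-s) ≤ A₁ I`  (`ENNReal.rpow_sub`/`ENNReal.div_le_iff`).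
(4) `‖F (z+y)‖ₑ^s lw E y = (‖F (z+y)‖ₑ lw M y)^s ≤ S^s`. -/
theorem smv_le (C E s : ℝ) (hs : 0 < s) (hs1 : s ≤ 1) (hE : (dd V : ℝ) < E) :
    ∃ A : ℝ, ∀ (v : V) (a b : ℝ) (w₀ : V × ℝ) (F : V × ℝ → ℂ), 0 < a → 0 < b →
      FS ((fun w => w₀ + LamT v a b w) '' closedBall 0 C) F →
      ∀ z y, ‖F (z + y)‖ₑ ^ s * lw E v a b y ≤ ENNReal.ofReal A * ∫⁻ y', ‖F y'‖ₑ ^ s * tw E v a b (y' - z) := by
  have hE0 : 0 ≤ E := le_trans (Nat.cast_nonneg _) hE.le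
  obtain ⟨M, hM⟩ : ∃ M : ℝ, M = E / s := ⟨_, rfl⟩
  have hMs : M * s = E := by
    rw [hM]
    field_simp
  have hEM : E ≤ M := by
    rw [hM, le_div_iff₀ hs]
    nlinarith
  have hM0 : 0 ≤ M := hE0.trans hEM
  obtain ⟨A₁, hA₁⟩ := loc_const (V := V) C M 1 le_rfl (lt_of_lt_of_le hE hEM)
  refine ⟨A₁, fun v a b w₀ F ha hb hF z y => ?_⟩
  obtain ⟨c, hc⟩ : ∃ c : ℝ≥0∞, c = ENNReal.ofReal A₁ := ⟨_, rfl⟩
  rw [← hc]
  obtain ⟨S, hS⟩ : ∃ S : ℝ≥0∞, S = ⨆ y, ‖F (z + y)‖ₑ * lw M v a b y := ⟨_, rfl⟩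
  obtain ⟨I, hI⟩ : ∃ I : ℝ≥0∞, I = ∫⁻ y', ‖F y'‖ₑ ^ s * tw E v a b (y' - z) := ⟨_, rfl⟩
  rw [← hI]
  have hle : ∀ y, ‖F (z + y)‖ₑ * lw M v a b y ≤ S := fun y => by
    rw [hS]
    exact le_iSup (fun y => ‖F (z + y)‖ₑ * lw M v a b y) y
  have hSfin : S ≠ ∞ := by
    obtain ⟨B, hB⟩ := hF.bdd
    have : S ≤ ENNReal.ofReal B := by
      rw [hS]
      refine iSup_le fun y => ?_
      calc ‖F (z + y)‖ₑ * lw M v a b y ≤ ENNReal.ofReal B * 1 := by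
            refine mul_le_mul' ?_ (mrt_lw_le_one hM0 v a b y)
            rw [← ofReal_norm]
            exact ENNReal.ofReal_le_ofReal (hB _)
        _ = _ := mul_one _
    exact ne_top_of_le_ne_top ENNReal.ofReal_ne_top this
  have h1s : 0 ≤ 1 - s := by linarith
  have hpt : ∀ y', ‖F y'‖ₑ * tw M v a b (y' - z) ≤ S ^ (1 - s) * (‖F y'‖ₑ ^ s * tw E v a b (y' - z)) := by
    intro y'
    obtain ⟨f, hf⟩ : ∃ f : ℝ≥0∞, f = ‖F y'‖ₑ := ⟨_, rfl⟩
    obtain ⟨l, hl⟩ : ∃ l : ℝ≥0∞, l = lw M v a b (y' - z) := ⟨_, rfl⟩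
    have hfl : f * l ≤ S := by
      have := hle (y' - z)
      rw [add_sub_cancel] at this
      rw [hf, hl]
      exact this
    rw [tw_eq_lw M v ha hb, tw_eq_lw E v ha hb, ← hMs, ← lw_rpow, ← hf, ← hl]
    have e : f * l = (f * l) ^ (1 - s) * (f ^ s * l ^ s) := by
      rw [← ENNReal.mul_rpow_of_nonneg _ _ hs.le, ← ENNReal.rpow_add_of_nonneg _ _ h1s hs.le, sub_add_cancel, ENNReal.rpow_one]
    calc f * (ENNReal.ofReal (a ^ Module.finrank ℝ V * b) * l) = ENNReal.ofReal (a ^ Module.finrank ℝ V * b) * (f * l) := by ring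
      _ = ENNReal.ofReal (a ^ Module.finrank ℝ V * b) * ((f * l) ^ (1 - s) * (f ^ s * l ^ s)) := by rw [← e]
      _ ≤ ENNReal.ofReal (a ^ Module.finrank ℝ V * b) * (S ^ (1 - s) * (f ^ s * l ^ s)) :=
          mul_le_mul' le_rfl (mul_le_mul' (ENNReal.rpow_le_rpow hfl h1s) le_rfl)
      _ = _ := by ring
  have hSle : S ≤ S ^ (1 - s) * (c * I) := by
    rw [hS]
    refine iSup_le fun y => ?_
    rw [← hS]
    have h2 := mrt_offset (t := 1) hM0 v ha hb F c (by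
      intro x
      rw [hc]
      exact hA₁ v a b w₀ F ha hb hF x) z y
    simp only [ENNReal.rpow_one] at h2
    refine h2.trans ?_
    calc c * ∫⁻ y', ‖F y'‖ₑ * tw M v a b (y' - z) ≤ c * ∫⁻ y', S ^ (1 - s) * (‖F y'‖ₑ ^ s * tw E v a b (y' - z)) :=
          mul_le_mul' le_rfl (lintegral_mono hpt)
      _ = c * (S ^ (1 - s) * I) := by
          rw [lintegral_const_mul' _ _ (ENNReal.rpow_ne_top_of_nonneg h1s hSfin), hI]
      _ = _ := by ring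
  have hSs : S ^ s ≤ c * I := by
    rcases eq_or_ne S 0 with h0 | h0
    · rw [h0, ENNReal.zero_rpow_of_pos hs]
      exact zero_le
    · have e : S = S ^ (1 - s) * S ^ s := by
        rw [← ENNReal.rpow_add _ _ h0 hSfin, sub_add_cancel, ENNReal.rpow_one]
      have h3 : S ^ (1 - s) * S ^ s ≤ S ^ (1 - s) * (c * I) := by
        rw [← e]
        exact hSle
      have hne0 : S ^ (1 - s) ≠ 0 := by
        intro h
        rw [ENNReal.rpow_eq_zero_iff] at h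
        rcases h with ⟨h, _⟩ | ⟨h, _⟩
        · exact h0 h
        · exact hSfin h
      exact (ENNReal.mul_le_mul_iff_right hne0 (ENNReal.rpow_ne_top_of_nonneg h1s hSfin)).1 h3
  calc ‖F (z + y)‖ₑ ^ s * lw E v a b y = (‖F (z + y)‖ₑ * lw M v a b y) ^ s := by
        rw [ENNReal.mul_rpow_of_nonneg _ _ hs.le, lw_rpow, hMs]
    _ ≤ S ^ s := ENNReal.rpow_le_rpow (hle y) hs.le
    _ ≤ c * I := hSs

/-- **the locally constant property for all exponents, with offsets** -/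
theorem smv (C E s : ℝ) (hs : 0 < s) (hE : (dd V : ℝ) < E) :
    ∃ A : ℝ, ∀ (v : V) (a b : ℝ) (w₀ : V × ℝ) (F : V × ℝ → ℂ), 0 < a → 0 < b →
      FS ((fun w => w₀ + LamT v a b w) '' closedBall 0 C) F →
      ∀ z y, ‖F (z + y)‖ₑ ^ s * lw E v a b y ≤ ENNReal.ofReal A * ∫⁻ y', ‖F y'‖ₑ ^ s * tw E v a b (y' - z) := by
  rcases le_total s 1 with h | h
  · exact smv_le C E s hs h hE
  · exact smv_ge C E s h hE

/-- **LEAF L-MRT-SMVB: isotropic form at radius `1`.**   `smv C E s` with `v = 0`, `a = b = 1`, `w₀ = 0`:  `LamT 0 1 1 w = w` (so the image is `closedBall 0 C`), `BD.bdlc_Lam_one`:  `lw E 0 1 1 y = wt E 1 y` (`div_one`), `tw E 0 1 1 y = wt E 1 y`;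
`avp s E 1 F z = ∫ ‖F y'‖ₑ^s wt E 1 (y' - z)` (`Real.one_rpow`, `ENNReal.ofReal_one`, `one_mul`). -/
theorem smv_ball (C E s : ℝ) (hs : 0 < s) (hE : (dd V : ℝ) < E) :
    ∃ A : ℝ, ∀ (F : V × ℝ → ℂ), FS (closedBall 0 C) F → ∀ z y, ‖F (z + y)‖ₑ ^ s * wt E 1 y ≤ ENNReal.ofReal A * avp s E 1 F z := by
  obtain ⟨A, hA⟩ := smv (V := V) C E s hs hE
  refine ⟨A, fun F hF z y => ?_⟩
  have e0 : (fun w : V × ℝ => (0 : V × ℝ) + LamT (0 : V) 1 1 w) = id := by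
    funext w
    unfold LamT
    ext <;> simp
  have h := hA 0 1 1 0 F one_pos one_pos (by rw [e0, image_id]; exact hF) z y
  have e1 : ∀ y : V × ℝ, lw E (0 : V) 1 1 y = wt E 1 y := by
    intro y
    unfold lw wt
    rw [bdlc_Lam_one, div_one]
  have e2 : ∀ y : V × ℝ, tw E (0 : V) 1 1 y = wt E 1 y := by
    intro y
    unfold tw wt
    rw [bdlc_Lam_one, div_one]
    simp
  simp only [e1, e2] at h
  unfold avp
  rw [Real.one_rpow, ENNReal.ofReal_one, one_mul]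
  exact h

end Claimed.Agent.MR
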