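import Claimed.Agent.Lib.MR.Sup
import Claimed.Agent.Lib.MR.Gauss

/-!
# Box MR, file 6: the estimate on a SPARSE union of balls (no loss in the number of balls)            (architect helper13)            CONTRACT
Every `sorry` is a leaf `L-MR-*`.  Statements are frozen; auxiliary lemmas directly above your theorem (prefix `mr_`); edit only your block.
-/

set_option autoImplicit false
open MeasureTheory Set Metric
open scoped ENNReal NNReal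
open Claimed.Agent.BD

namespace Claimed.Agent.MR

variable {V : Type} [NormedAddCommGroup V] [InnerProductSpace ℝ V] [FiniteDimensional ℝ V] [MeasurableSpace V] [BorelSpace V]

/-- **LEAF L-MR-WT: a polynomial weight is dominated by Gaussian-times-slab windows at the scales `2^l R`.**
PLAN.  One term suffices (`ENNReal.le_tsum l`).   `l = 0` if `‖y‖ ≤ R`; else `l` = least with `‖y‖ ≤ 2^l R` (`Nat.find`; `pow_unbounded_of_one_lt`), so `‖y‖ > 2^(l-1) R`.   Then `|y.2| ≤ ‖y‖ ≤ 2^l R`, `e^{-‖y.1‖²/(2^l R)²} ≥ e⁻¹`, and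
`(1 + ‖y‖/R)^(-E) ≤ (2^(l-1))^(-E) = 2^E 2^(-lE)` (resp. `≤ 1` for `l = 0`). -/
theorem wt_le_tsum {E R : ℝ} (hE : 0 ≤ E) (hR : 0 < R) (y : V × ℝ) :
    wt E R y ≤ ∑' l : ℕ, ENNReal.ofReal (Real.exp 1 * 2 ^ E * (2 ^ (-E)) ^ l) *
      ((Icc (-(2 ^ l * R)) (2 ^ l * R)).indicator (fun _ => ENNReal.ofReal (Real.exp (-(‖y.1‖ ^ 2 / (2 ^ l * R) ^ 2)))) y.2) := by
  obtain ⟨n0, hn0⟩ := pow_unbounded_of_one_lt (‖y‖ / R) (one_lt_two : (1 : ℝ) < 2)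
  have hex : ∃ l : ℕ, ‖y‖ ≤ 2 ^ l * R := ⟨n0, by rw [div_lt_iff₀ hR] at hn0; exact hn0.le⟩
  obtain ⟨l, hl, hmin⟩ : ∃ l : ℕ, ‖y‖ ≤ 2 ^ l * R ∧ (2 : ℝ) ^ l / 2 ≤ 1 + ‖y‖ / R := by
    classical
    refine ⟨Nat.find hex, Nat.find_spec hex, ?_⟩
    have hy : 0 ≤ ‖y‖ / R := by positivity
    rcases Nat.eq_zero_or_pos (Nat.find hex) with h0 | h0
    · rw [h0, pow_zero]
      linarith
    · obtain ⟨n, hn⟩ : ∃ n, Nat.find hex = n + 1 := ⟨Nat.find hex - 1, by omega⟩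
      have h1 : ¬ ‖y‖ ≤ 2 ^ n * R := Nat.find_min hex (by omega)
      rw [not_le, ← lt_div_iff₀ hR] at h1
      rw [hn, pow_succ]
      linarith
  have hϱ : (0 : ℝ) < 2 ^ l * R := by positivity
  refine le_trans ?_ (ENNReal.le_tsum l)
  have hy2 : y.2 ∈ Icc (-(2 ^ l * R)) (2 ^ l * R) := by
    have h1 : |y.2| ≤ ‖y‖ := norm_snd_le y
    exact abs_le.1 (h1.trans hl)
  rw [indicator_of_mem hy2]
  unfold wt
  rw [← ENNReal.ofReal_mul (by positivity)]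
  refine ENNReal.ofReal_le_ofReal ?_
  have h1 : (1 + ‖y‖ / R) ^ (-E) ≤ 2 ^ E * (2 ^ (-E)) ^ l := by
    calc (1 + ‖y‖ / R) ^ (-E) ≤ ((2 : ℝ) ^ l / 2) ^ (-E) := Real.rpow_le_rpow_of_nonpos (by positivity) hmin (by linarith)
      _ = 2 ^ E * (2 ^ (-E)) ^ l := by
          rw [Real.div_rpow (by positivity) (by norm_num), Real.rpow_pow_comm (by norm_num), Real.rpow_neg (by norm_num : (0 : ℝ) ≤ 2) E, div_inv_eq_mul, mul_comm]
  have h2 : Real.exp (-1) ≤ Real.exp (-(‖y.1‖ ^ 2 / (2 ^ l * R) ^ 2)) := by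
    refine Real.exp_le_exp.2 (neg_le_neg ?_)
    rw [div_le_one (by positivity)]
    exact pow_le_pow_left₀ (norm_nonneg _) ((norm_fst_le y).trans hl) 2
  have h3 : Real.exp 1 * Real.exp (-1) = 1 := by rw [← Real.exp_add]; simp
  have h4 : 0 ≤ 2 ^ E * ((2 : ℝ) ^ (-E)) ^ l := by positivity
  calc (1 + ‖y‖ / R) ^ (-E) ≤ 2 ^ E * (2 ^ (-E)) ^ l := h1
    _ = (2 ^ E * (2 ^ (-E)) ^ l) * (Real.exp 1 * Real.exp (-1)) := by rw [h3, mul_one]
    _ ≤ (2 ^ E * (2 ^ (-E)) ^ l) * (Real.exp 1 * Real.exp (-(‖y.1‖ ^ 2 / (2 ^ l * R) ^ 2))) := by gcongr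
    _ = _ := by ring

omit [InnerProductSpace ℝ V] [FiniteDimensional ℝ V] in
theorem mr_win_meas (ϱ : ℝ) (a : V × ℝ) : Measurable fun y : V × ℝ =>
    (Icc (-ϱ) ϱ).indicator (fun _ => ENNReal.ofReal (Real.exp (-(‖(y - a).1‖ ^ 2 / ϱ ^ 2)))) (y - a).2 := by
  have e : (fun y : V × ℝ => (Icc (-ϱ) ϱ).indicator (fun _ => ENNReal.ofReal (Real.exp (-(‖(y - a).1‖ ^ 2 / ϱ ^ 2)))) (y - a).2)
      = ((fun y : V × ℝ => (y - a).2) ⁻¹' Icc (-ϱ) ϱ).indicator fun y => ENNReal.ofReal (Real.exp (-(‖(y - a).1‖ ^ 2 / ϱ ^ 2))) := by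
    funext y
    by_cases h : (y - a).2 ∈ Icc (-ϱ) ϱ
    · rw [indicator_of_mem h, indicator_of_mem (show y ∈ (fun y : V × ℝ => (y - a).2) ⁻¹' Icc (-ϱ) ϱ from h)]
    · rw [indicator_of_notMem h, indicator_of_notMem (show y ∉ (fun y : V × ℝ => (y - a).2) ⁻¹' Icc (-ϱ) ϱ from h)]
  rw [e]
  have c1 : Continuous fun y : V × ℝ => Real.exp (-(‖(y - a).1‖ ^ 2 / ϱ ^ 2)) := by fun_prop
  have c2 : Continuous fun y : V × ℝ => (y - a).2 := by fun_prop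
  exact (ENNReal.measurable_ofReal.comp c1.measurable).indicator (c2.measurable measurableSet_Icc)

/-- a Gaussian-times-slab window: Tonelli and translation in time. -/
theorem mr_slab {F : V × ℝ → ℝ≥0∞} (hF : Measurable F) (ϱ : ℝ) (a : V × ℝ) :
    ∫⁻ y, F y * ((Icc (-ϱ) ϱ).indicator (fun _ => ENNReal.ofReal (Real.exp (-(‖(y - a).1‖ ^ 2 / ϱ ^ 2)))) (y - a).2)
      = ∫⁻ τ in Icc (-ϱ) ϱ, ∫⁻ x : V, F (x, a.2 + τ) * ENNReal.ofReal (Real.exp (-(‖x - a.1‖ ^ 2 / ϱ ^ 2))) := by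
  have hm : Measurable fun y : V × ℝ =>
      F y * ((Icc (-ϱ) ϱ).indicator (fun _ => ENNReal.ofReal (Real.exp (-(‖(y - a).1‖ ^ 2 / ϱ ^ 2)))) (y - a).2) := hF.mul (mr_win_meas ϱ a)
  rw [Measure.volume_eq_prod, lintegral_prod_symm _ hm.aemeasurable,
    ← lintegral_add_left_eq_self _ a.2, ← lintegral_indicator measurableSet_Icc]
  refine lintegral_congr fun τ => ?_
  have e : ∀ x : V, ((x, a.2 + τ) - a : V × ℝ).2 = τ := fun x => by simp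
  by_cases h : τ ∈ Icc (-ϱ) ϱ
  · rw [indicator_of_mem h]
    refine lintegral_congr fun x => ?_
    rw [e x, indicator_of_mem h]
    rfl
  · rw [indicator_of_notMem h]
    simp only [e, indicator_of_notMem h, mul_zero, lintegral_zero]

/-- **LEAF L-MR-LMT: `lm ≤ ∑_l 2^(-l(E-1)) gm (2^l R)`.**
PLAN.  `lm` unfolded; `wt_le_tsum` at `y - a`; `lintegral_tsum`/`lintegral_mul_...` (measurability: `ext_continuous`);  `volume = volume.prod volume` on `V × ℝ` (`Measure.volume_eq_prod`), `lintegral_prod_symm` (outer integral in `t`), translation `t = a.2 + τ` (`lintegral_add_left_eq_self`),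
`lintegral_indicator`;   `R⁻¹ = 2^l (2^l R)⁻¹`. -/
theorem lm_le_tsum {C₀ : ℝ} {g : V → ℂ} (hg : Dat C₀ g) {E R : ℝ} (hE : 0 ≤ E) (hR : 0 < R) (a : V × ℝ) :
    lm E R g a ≤ ∑' l : ℕ, ENNReal.ofReal (Real.exp 1 * 2 ^ E * (2 ^ (-E)) ^ l * 2 ^ l) * gm (2 ^ l * R) g a := by
  have hF : Measurable fun y : V × ℝ => ‖ext g y‖ₑ ^ (2 : ℝ) := (ext_continuous hg.integrable).measurable.enorm.pow_const _
  have hm : ∀ l : ℕ, Measurable fun y : V × ℝ => ‖ext g y‖ₑ ^ (2 : ℝ) *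
      ((Icc (-(2 ^ l * R)) (2 ^ l * R)).indicator (fun _ => ENNReal.ofReal (Real.exp (-(‖(y - a).1‖ ^ 2 / (2 ^ l * R) ^ 2)))) (y - a).2) :=
    fun l => hF.mul (mr_win_meas (2 ^ l * R) a)
  unfold lm
  calc ENNReal.ofReal R⁻¹ * ∫⁻ y, ‖ext g y‖ₑ ^ (2 : ℝ) * wt E R (y - a)
      ≤ ENNReal.ofReal R⁻¹ * ∫⁻ y, ∑' l : ℕ, ENNReal.ofReal (Real.exp 1 * 2 ^ E * (2 ^ (-E)) ^ l) * (‖ext g y‖ₑ ^ (2 : ℝ) *
          ((Icc (-(2 ^ l * R)) (2 ^ l * R)).indicator (fun _ => ENNReal.ofReal (Real.exp (-(‖(y - a).1‖ ^ 2 / (2 ^ l * R) ^ 2)))) (y - a).2)) := by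
        refine mul_le_mul' le_rfl (lintegral_mono fun y => ?_)
        calc ‖ext g y‖ₑ ^ (2 : ℝ) * wt E R (y - a) ≤ ‖ext g y‖ₑ ^ (2 : ℝ) * _ := mul_le_mul' le_rfl (wt_le_tsum hE hR (y - a))
          _ = _ := by
              rw [← ENNReal.tsum_mul_left]
              refine tsum_congr fun l => ?_
              ring
    _ = ENNReal.ofReal R⁻¹ * ∑' l : ℕ, ENNReal.ofReal (Real.exp 1 * 2 ^ E * (2 ^ (-E)) ^ l) * (ENNReal.ofReal (2 ^ l * R) * gm (2 ^ l * R) g a) := by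
        rw [lintegral_tsum fun l => ((hm l).const_mul _).aemeasurable]
        congr 1
        refine tsum_congr fun l => ?_
        have hϱ : (0 : ℝ) < 2 ^ l * R := by positivity
        rw [lintegral_const_mul _ (hm l), mr_slab hF]
        unfold gm
        rw [← mul_assoc (ENNReal.ofReal (2 ^ l * R)), ← ENNReal.ofReal_mul hϱ.le, mul_inv_cancel₀ hϱ.ne', ENNReal.ofReal_one, one_mul]
    _ = _ := by
        rw [← ENNReal.tsum_mul_left]
        refine tsum_congr fun l => ?_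
        rw [← mul_assoc, ← mul_assoc, ← ENNReal.ofReal_mul (by positivity), ← ENNReal.ofReal_mul (by positivity)]
        congr 2
        field_simp

/-- **LEAF L-MR-GML: all scales `2^l R` at once.**
PLAN.  If `4 (2^l R) ≤ S`: `gm_sparse` at `ϱ = 2^l R` (`e^{-ϱ²/2} ≤ e^{-R²/2}`, `ϱ^k = 2^(lk) R^k`).   Otherwise `1 ≤ 4 · 2^l R / S` and `gm_le` for every `a`:  `∑_a gm ≤ #W C l2 g ≤ C #W (4 · 2^l R/S) l2 g`. -/
theorem gm_scales (C₀ : ℝ) (hC₀ : 0 ≤ C₀) : ∃ C : ℝ, 0 ≤ C ∧ ∀ (R S : ℝ) (l : ℕ) (W : Finset (V × ℝ)) (g : V → ℂ), 1 ≤ R → 0 < S →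
    (∀ a ∈ W, ∀ a' ∈ W, a ≠ a' → S ≤ dist a a') → Dat C₀ g →
    ∑ a ∈ W, gm (2 ^ l * R) g a ≤
      ENNReal.ofReal (C * (1 + W.card * ((2 ^ Module.finrank ℝ V) ^ l * (R ^ Module.finrank ℝ V * S ^ (-((Module.finrank ℝ V : ℝ) / 2))) + Real.exp (-(R ^ 2 / 2)) + 2 ^ l * (R / S)))) * l2 g := by
  obtain ⟨C1, hC1, h1⟩ := gm_sparse (V := V) C₀ hC₀
  obtain ⟨C2, hC2, h2⟩ := gm_le (V := V) C₀ hC₀
  refine ⟨C1 + 4 * C2, by positivity, fun R S l W g hR hS hsep hg => ?_⟩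
  have hR0 : 0 < R := by linarith
  have h2l : (1 : ℝ) ≤ 2 ^ l := one_le_pow₀ (by norm_num)
  have hϱ : 1 ≤ 2 ^ l * R := by nlinarith
  have hA : 0 ≤ (2 ^ Module.finrank ℝ V) ^ l * (R ^ Module.finrank ℝ V * S ^ (-((Module.finrank ℝ V : ℝ) / 2))) := by positivity
  have hB : 0 ≤ Real.exp (-(R ^ 2 / 2)) := (Real.exp_pos _).le
  have hD : 0 ≤ 2 ^ l * (R / S) := by positivity
  have hW : (0 : ℝ) ≤ W.card := Nat.cast_nonneg _
  by_cases hc : 4 * (2 ^ l * R) ≤ S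
  · refine (h1 (2 ^ l * R) S W g hϱ hc hsep hg).trans (mul_le_mul' (ENNReal.ofReal_le_ofReal ?_) le_rfl)
    have e1 : (2 ^ l * R) ^ Module.finrank ℝ V * S ^ (-((Module.finrank ℝ V : ℝ) / 2))
        = (2 ^ Module.finrank ℝ V) ^ l * (R ^ Module.finrank ℝ V * S ^ (-((Module.finrank ℝ V : ℝ) / 2))) := by
      rw [mul_pow, ← pow_mul, ← pow_mul, mul_comm l, mul_assoc]
    have e2 : Real.exp (-((2 ^ l * R) ^ 2 / 2)) ≤ Real.exp (-(R ^ 2 / 2)) := by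
      refine Real.exp_le_exp.2 (neg_le_neg ?_)
      have : R ^ 2 ≤ (2 ^ l * R) ^ 2 := pow_le_pow_left₀ hR0.le (by nlinarith) 2
      linarith
    rw [e1]
    have h3 : 1 + W.card * ((2 ^ Module.finrank ℝ V) ^ l * (R ^ Module.finrank ℝ V * S ^ (-((Module.finrank ℝ V : ℝ) / 2))) + Real.exp (-((2 ^ l * R) ^ 2 / 2)))
        ≤ 1 + W.card * ((2 ^ Module.finrank ℝ V) ^ l * (R ^ Module.finrank ℝ V * S ^ (-((Module.finrank ℝ V : ℝ) / 2))) + Real.exp (-(R ^ 2 / 2)) + 2 ^ l * (R / S)) := by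
      have : (2 ^ Module.finrank ℝ V) ^ l * (R ^ Module.finrank ℝ V * S ^ (-((Module.finrank ℝ V : ℝ) / 2))) + Real.exp (-((2 ^ l * R) ^ 2 / 2))
          ≤ (2 ^ Module.finrank ℝ V) ^ l * (R ^ Module.finrank ℝ V * S ^ (-((Module.finrank ℝ V : ℝ) / 2))) + Real.exp (-(R ^ 2 / 2)) + 2 ^ l * (R / S) := by linarith
      have := mul_le_mul_of_nonneg_left this hW
      linarith
    have h4 : 0 ≤ 1 + W.card * ((2 ^ Module.finrank ℝ V) ^ l * (R ^ Module.finrank ℝ V * S ^ (-((Module.finrank ℝ V : ℝ) / 2))) + Real.exp (-(R ^ 2 / 2)) + 2 ^ l * (R / S)) := by positivity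
    calc C1 * _ ≤ C1 * (1 + W.card * ((2 ^ Module.finrank ℝ V) ^ l * (R ^ Module.finrank ℝ V * S ^ (-((Module.finrank ℝ V : ℝ) / 2))) + Real.exp (-(R ^ 2 / 2)) + 2 ^ l * (R / S))) :=
          mul_le_mul_of_nonneg_left h3 hC1
      _ ≤ _ := mul_le_mul_of_nonneg_right (by linarith) h4
  · rw [not_le] at hc
    calc ∑ a ∈ W, gm (2 ^ l * R) g a ≤ ∑ _a ∈ W, ENNReal.ofReal C2 * l2 g := Finset.sum_le_sum fun a _ => h2 (2 ^ l * R) g a hϱ hg
      _ = ENNReal.ofReal (W.card * C2) * l2 g := by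
          rw [Finset.sum_const, nsmul_eq_mul, ← mul_assoc, ENNReal.ofReal_mul hW, ENNReal.ofReal_natCast]
      _ ≤ _ := by
          refine mul_le_mul' (ENNReal.ofReal_le_ofReal ?_) le_rfl
          have h5 : 1 ≤ 4 * (2 ^ l * (R / S)) := by
            rw [← mul_div_assoc, ← mul_div_assoc, le_div_iff₀ hS]
            linarith
          have h6 : (W.card : ℝ) * C2 ≤ 4 * C2 * (W.card * (2 ^ l * (R / S))) := by
            have : (W.card : ℝ) * C2 * 1 ≤ W.card * C2 * (4 * (2 ^ l * (R / S))) := mul_le_mul_of_nonneg_left h5 (by positivity)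
            linarith
          have h7 : (W.card : ℝ) * (2 ^ l * (R / S)) ≤ 1 + W.card * ((2 ^ Module.finrank ℝ V) ^ l * (R ^ Module.finrank ℝ V * S ^ (-((Module.finrank ℝ V : ℝ) / 2))) + Real.exp (-(R ^ 2 / 2)) + 2 ^ l * (R / S)) := by
            have : 2 ^ l * (R / S) ≤ (2 ^ Module.finrank ℝ V) ^ l * (R ^ Module.finrank ℝ V * S ^ (-((Module.finrank ℝ V : ℝ) / 2))) + Real.exp (-(R ^ 2 / 2)) + 2 ^ l * (R / S) := by linarith
            have := mul_le_mul_of_nonneg_left this hW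
            linarith
          have h4 : 0 ≤ 1 + W.card * ((2 ^ Module.finrank ℝ V) ^ l * (R ^ Module.finrank ℝ V * S ^ (-((Module.finrank ℝ V : ℝ) / 2))) + Real.exp (-(R ^ 2 / 2)) + 2 ^ l * (R / S)) := by positivity
          calc (W.card : ℝ) * C2 ≤ 4 * C2 * (W.card * (2 ^ l * (R / S))) := h6
            _ ≤ 4 * C2 * (1 + W.card * ((2 ^ Module.finrank ℝ V) ^ l * (R ^ Module.finrank ℝ V * S ^ (-((Module.finrank ℝ V : ℝ) / 2))) + Real.exp (-(R ^ 2 / 2)) + 2 ^ l * (R / S))) :=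
                mul_le_mul_of_nonneg_left h7 (by positivity)
            _ ≤ _ := mul_le_mul_of_nonneg_right (by linarith) h4

/-- **LEAF L-MR-LMS: almost orthogonality of the local `L²` masses**, weight exponent `E = k + 3`.
PLAN.  `lm_le_tsum`, exchange `∑_a` and `∑'_l` (`ENNReal.tsum_comm`-type: `Summable.tsum_finsetSum` / `ENNReal.summable`), `gm_scales`;   with `E = k+3`: `(2^(-E))^l 2^l (2^k)^l = (1/4)^l`, `(2^(-E))^l 2^l 2^l ≤ (1/4)^l`, `(2^(-E))^l 2^l ≤ (1/4)^l`;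
`∑' (1/4)^l = 4/3` (`tsum_geometric_of_lt_one`, `ENNReal.ofReal_tsum_of_nonneg`, `ENNReal.tsum_mul_right`). -/
theorem lm_sparse (C₀ : ℝ) (hC₀ : 0 ≤ C₀) : ∃ C : ℝ, 0 ≤ C ∧ ∀ (R S : ℝ) (W : Finset (V × ℝ)) (g : V → ℂ), 1 ≤ R → 0 < S →
    (∀ a ∈ W, ∀ a' ∈ W, a ≠ a' → S ≤ dist a a') → Dat C₀ g →
    ∑ a ∈ W, lm ((Module.finrank ℝ V : ℝ) + 3) R g a ≤
      ENNReal.ofReal (C * (1 + W.card * (R ^ Module.finrank ℝ V * S ^ (-((Module.finrank ℝ V : ℝ) / 2)) + Real.exp (-(R ^ 2 / 2)) + R / S))) * l2 g := by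
  obtain ⟨C1, hC1, h1⟩ := gm_scales (V := V) C₀ hC₀
  refine ⟨Real.exp 1 * 2 ^ ((Module.finrank ℝ V : ℝ) + 3) * C1 * 2, by positivity, fun R S W g hR hS hsep hg => ?_⟩
  have hR0 : 0 < R := by linarith
  have hE : (0 : ℝ) ≤ (Module.finrank ℝ V : ℝ) + 3 := by positivity
  obtain ⟨K0, hK0⟩ : ∃ K0 : ℝ, K0 = Real.exp 1 * 2 ^ ((Module.finrank ℝ V : ℝ) + 3) := ⟨_, rfl⟩
  have hK00 : 0 ≤ K0 := by rw [hK0]; positivity
  obtain ⟨θ, hθ⟩ : ∃ θ : ℝ, θ = 2 ^ (-((Module.finrank ℝ V : ℝ) + 3)) := ⟨_, rfl⟩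
  obtain ⟨P, hP⟩ : ∃ P : ℝ, P = 2 ^ Module.finrank ℝ V := ⟨_, rfl⟩
  have hP1 : 1 ≤ P := by rw [hP]; exact one_le_pow₀ (by norm_num)
  have hθP : θ = 1 / (8 * P) := by
    have e : (Module.finrank ℝ V : ℝ) + 3 = ((Module.finrank ℝ V + 3 : ℕ) : ℝ) := by push_cast; ring
    rw [hθ, Real.rpow_neg (by norm_num), e, Real.rpow_natCast, pow_add, hP, one_div]
    congr 1
    ring
  have hθ0 : 0 ≤ θ := by rw [hθP]; positivity
  obtain ⟨A, hA⟩ : ∃ A : ℝ, A = R ^ Module.finrank ℝ V * S ^ (-((Module.finrank ℝ V : ℝ) / 2)) := ⟨_, rfl⟩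
  obtain ⟨B, hB⟩ : ∃ B : ℝ, B = Real.exp (-(R ^ 2 / 2)) := ⟨_, rfl⟩
  obtain ⟨D, hD⟩ : ∃ D : ℝ, D = R / S := ⟨_, rfl⟩
  have hA0 : 0 ≤ A := by rw [hA]; positivity
  have hB0 : 0 ≤ B := by rw [hB]; positivity
  have hD0 : 0 ≤ D := by rw [hD]; positivity
  have hW : (0 : ℝ) ≤ W.card := Nat.cast_nonneg _
  rw [← hK0, ← hA, ← hB, ← hD]
  have hreal : ∀ l : ℕ, K0 * θ ^ l * 2 ^ l * (C1 * (1 + W.card * (P ^ l * A + B + 2 ^ l * D)))
      ≤ K0 * C1 * (1 + W.card * (A + B + D)) * (1 / 2) ^ l := by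
    intro l
    have t1 : θ ^ l * 2 ^ l ≤ (1 / 2) ^ l := by
      rw [← mul_pow]
      refine pow_le_pow_left₀ (by positivity) ?_ l
      rw [hθP, div_mul_eq_mul_div, div_le_div_iff₀ (by positivity) (by norm_num)]
      linarith
    have t2 : θ ^ l * 2 ^ l * P ^ l ≤ (1 / 2) ^ l := by
      rw [← mul_pow, ← mul_pow]
      refine pow_le_pow_left₀ (by positivity) ?_ l
      rw [hθP]
      have : 1 / (8 * P) * 2 * P = 1 / 4 := by field_simp; norm_num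
      rw [this]
      norm_num
    have t3 : θ ^ l * 2 ^ l * 2 ^ l ≤ (1 / 2) ^ l := by
      rw [← mul_pow, ← mul_pow]
      refine pow_le_pow_left₀ (by positivity) ?_ l
      rw [hθP, mul_assoc, div_mul_eq_mul_div, div_le_div_iff₀ (by positivity) (by norm_num)]
      linarith
    have e : θ ^ l * 2 ^ l * (1 + W.card * (P ^ l * A + B + 2 ^ l * D))
        = θ ^ l * 2 ^ l + W.card * ((θ ^ l * 2 ^ l * P ^ l) * A + (θ ^ l * 2 ^ l) * B + (θ ^ l * 2 ^ l * 2 ^ l) * D) := by ring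
    have h3 : θ ^ l * 2 ^ l * (1 + W.card * (P ^ l * A + B + 2 ^ l * D)) ≤ (1 + W.card * (A + B + D)) * (1 / 2) ^ l := by
      rw [e]
      have a1 := mul_le_mul_of_nonneg_right t2 hA0
      have a2 := mul_le_mul_of_nonneg_right t1 hB0
      have a3 := mul_le_mul_of_nonneg_right t3 hD0
      have a4 := mul_le_mul_of_nonneg_left (add_le_add (add_le_add a1 a2) a3) hW
      calc θ ^ l * 2 ^ l + W.card * ((θ ^ l * 2 ^ l * P ^ l) * A + (θ ^ l * 2 ^ l) * B + (θ ^ l * 2 ^ l * 2 ^ l) * D)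
          ≤ (1 / 2) ^ l + W.card * ((1 / 2) ^ l * A + (1 / 2) ^ l * B + (1 / 2) ^ l * D) := add_le_add t1 a4
        _ = _ := by ring
    calc K0 * θ ^ l * 2 ^ l * (C1 * (1 + W.card * (P ^ l * A + B + 2 ^ l * D)))
        = K0 * C1 * (θ ^ l * 2 ^ l * (1 + W.card * (P ^ l * A + B + 2 ^ l * D))) := by ring
      _ ≤ K0 * C1 * ((1 + W.card * (A + B + D)) * (1 / 2) ^ l) := mul_le_mul_of_nonneg_left h3 (by positivity)
      _ = _ := by ring
  have hZ : 0 ≤ K0 * C1 * (1 + W.card * (A + B + D)) := by positivity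
  calc ∑ a ∈ W, lm ((Module.finrank ℝ V : ℝ) + 3) R g a
      ≤ ∑ a ∈ W, ∑' l : ℕ, ENNReal.ofReal (K0 * θ ^ l * 2 ^ l) * gm (2 ^ l * R) g a := by
        refine Finset.sum_le_sum fun a _ => ?_
        rw [hK0, hθ]
        exact lm_le_tsum hg hE hR0 a
    _ = ∑' l : ℕ, ENNReal.ofReal (K0 * θ ^ l * 2 ^ l) * ∑ a ∈ W, gm (2 ^ l * R) g a := by
        rw [← Summable.tsum_finsetSum fun _ _ => ENNReal.summable]
        exact tsum_congr fun l => (Finset.mul_sum _ _ _).symm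
    _ ≤ ∑' l : ℕ, ENNReal.ofReal (K0 * C1 * (1 + W.card * (A + B + D)) * (1 / 2) ^ l) * l2 g := by
        refine ENNReal.tsum_le_tsum fun l => ?_
        have h2 := h1 R S l W g hR hS hsep hg
        rw [← hP, ← hA, ← hB, ← hD] at h2
        calc ENNReal.ofReal (K0 * θ ^ l * 2 ^ l) * ∑ a ∈ W, gm (2 ^ l * R) g a
            ≤ ENNReal.ofReal (K0 * θ ^ l * 2 ^ l) * (ENNReal.ofReal (C1 * (1 + W.card * (P ^ l * A + B + 2 ^ l * D))) * l2 g) := mul_le_mul' le_rfl h2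
          _ = ENNReal.ofReal (K0 * θ ^ l * 2 ^ l * (C1 * (1 + W.card * (P ^ l * A + B + 2 ^ l * D)))) * l2 g := by
              rw [← mul_assoc, ← ENNReal.ofReal_mul (by positivity)]
          _ ≤ _ := mul_le_mul' (ENNReal.ofReal_le_ofReal (hreal l)) le_rfl
    _ = _ := by
        rw [ENNReal.tsum_mul_right]
        congr 1
        rw [← ENNReal.ofReal_tsum_of_nonneg (fun l => by positivity) (summable_geometric_two.mul_left _), tsum_mul_left, tsum_geometric_two]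
        congr 1
        ring

theorem holder_centres_pow {α : Type*} (W : Finset α) (f : α → ℝ≥0∞) {p : ℝ} (hp : 1 ≤ p) :
    ∑ a ∈ W, f a ^ p ≤ (∑ a ∈ W, f a) ^ p := by
  classical
  induction W using Finset.induction_on with
  | empty => simp
  | insert a s ha ih =>
    rw [Finset.sum_insert ha, Finset.sum_insert ha]
    exact (add_le_add le_rfl ih).trans (ENNReal.add_rpow_le_rpow_add _ _ hp)

/-- **LEAF L-MR-HOLD: Hölder over the centres, `d = k + 1` factors with the exponent `1/k`.**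
PLAN.  `x^(1/k) = (x^(d/k))^(1/d)`;  Hölder with `d` equal exponents (`ENNReal.inner_le_Lp_mul_Lq` by induction, or `ENNReal.lintegral_prod_norm_pow_le` with the counting measure on `W`; the real version is `MK.holder_n`);
`∑_a x_a^(d/k) ≤ (∑_a x_a)^(d/k)` since `d/k ≥ 1` (`ENNReal.rpow_sum_le..`: `ENNReal.sum_rpow_le_rpow_sum`-type / `ENNReal.add_rpow_le_rpow_add` + induction). -/
theorem holder_centres {α : Type*} (W : Finset α) (k : ℕ) (hk : 1 ≤ k) (x : α → Fin (k + 1) → ℝ≥0∞) :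
    ∑ a ∈ W, ∏ i, x a i ^ (1 / (k : ℝ)) ≤ ∏ i, (∑ a ∈ W, x a i) ^ (1 / (k : ℝ)) := by
  classical
  let _ : MeasurableSpace α := ⊤
  have hk0 : (0 : ℝ) < k := by exact_mod_cast hk
  obtain ⟨d, hd⟩ : ∃ d : ℝ, d = (k : ℝ) + 1 := ⟨_, rfl⟩
  have hd0 : 0 < d := by rw [hd]; positivity
  obtain ⟨μ, hμ⟩ : ∃ μ : Measure α, μ = ∑ a ∈ W, Measure.dirac a := ⟨_, rfl⟩
  have hint : ∀ g : α → ℝ≥0∞, ∫⁻ b, g b ∂μ = ∑ a ∈ W, g a := by
    intro g
    rw [hμ, lintegral_finsetSum_measure]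
    exact Finset.sum_congr rfl fun a _ => lintegral_dirac' a measurable_from_top
  have H := ENNReal.lintegral_prod_norm_pow_le (μ := μ) (Finset.univ : Finset (Fin (k + 1)))
    (f := fun i a => x a i ^ (d / k)) (fun i _ => measurable_from_top.aemeasurable) (p := fun _ => 1 / d)
    (by
      rw [Finset.sum_const, Finset.card_univ, Fintype.card_fin, nsmul_eq_mul]
      push_cast
      rw [← hd]
      field_simp) (fun i _ => by positivity)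
  have e1 : ∀ y : ℝ≥0∞, (y ^ (d / k)) ^ (1 / d) = y ^ (1 / (k : ℝ)) := by
    intro y
    rw [← ENNReal.rpow_mul]
    congr 1
    field_simp
  simp only [hint, e1] at H
  refine H.trans (Finset.prod_le_prod' fun i _ => ?_)
  have hdk : 1 ≤ d / k := by
    rw [le_div_iff₀ hk0, hd]
    linarith
  calc (∑ a ∈ W, x a i ^ (d / k)) ^ (1 / d) ≤ ((∑ a ∈ W, x a i) ^ (d / k)) ^ (1 / d) :=
        ENNReal.rpow_le_rpow (holder_centres_pow W (fun a => x a i) hdk) (by positivity)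
    _ = _ := e1 _

/-- **LEAF L-MR-SPARSE: THE SPARSE ESTIMATE** (separate suprema `sx r`, `Sup.lean`; `r = 0` is the plain form).
PLAN.  `R' = R + r ≤ (1 + r) R`, `ρ = (√R')⁻¹` (`ρ⁻¹ ^ 2 = R'`: `Real.sq_sqrt`; `ρ⁻¹ ^ 2 - r = R`), cells `s i, c i` of `U i` at scale `ρ` (`exists_cells`), `E' = k + 3`.   `ml_loc_sup C₀ E' (2ε) r` for every `a ∈ W` (`ρ^(-2ε) = R'^ε ≤ (1+r)^ε R^ε`).
`holder_centres` with `x a i = ∑_v lm E' R' (1_{c i v} g_i) a`.   `∑_a ∑_v = ∑_v ∑_a` (`Finset.sum_comm`), `lm_sparse` at `R'` for the datum `1_{c i v} g_i` (`Dat.indicator`);  `#W (R'^k S^(-k/2) + e^{-R'²/2} + R'/S) ≤ (1+r)^k` by `hW`;  `Cells.sum_l2_le`. -/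
theorem sparse (hk : 1 ≤ Module.finrank ℝ V) (C₀ ε r : ℝ) (hC₀ : 0 ≤ C₀) (hε : 0 < ε) (hr : 0 ≤ r) :
    ∃ X : ℝ, ∃ M : ℕ, 0 ≤ X ∧ ∀ (Q R S : ℝ) (W : Finset (V × ℝ)) (U : Fin (dd V) → Set V) (g : Fin (dd V) → V → ℂ),
      1 ≤ Q → 1 ≤ R → 0 < S → (∀ a ∈ W, ∀ a' ∈ W, a ≠ a' → S ≤ dist a a') →
      W.card * (R ^ Module.finrank ℝ V * S ^ (-((Module.finrank ℝ V : ℝ) / 2)) + Real.exp (-(R ^ 2 / 2)) + R / S) ≤ 1 →
      Tr Q U → (∀ i, U i ⊆ closedBall 0 C₀) → (∀ i, Dat C₀ (g i)) → (∀ i ξ, ξ ∉ U i → g i ξ = 0) →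
      ∑ a ∈ W, ∫⁻ z in closedBall a R, ∏ i, sx r (g i) z ^ (2 / (Module.finrank ℝ V : ℝ)) ≤
        ENNReal.ofReal (X * Q ^ M * R ^ ε) * ∏ i, l2 (g i) ^ (1 / (Module.finrank ℝ V : ℝ)) := by
  have hkR : (0 : ℝ) < (Module.finrank ℝ V : ℝ) := by exact_mod_cast hk
  have hκ : (0 : ℝ) ≤ 1 / (Module.finrank ℝ V : ℝ) := by positivity
  obtain ⟨X1, M, h1⟩ := ml_loc_sup (V := V) hk C₀ ((Module.finrank ℝ V : ℝ) + 3) (2 * ε) r hC₀ (by positivity) (by positivity) hr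
  obtain ⟨C2, hC2, h2⟩ := lm_sparse (V := V) C₀ hC₀
  have hr1 : (1 : ℝ) ≤ 1 + r := by linarith
  obtain ⟨K2, hK2d⟩ : ∃ K2 : ℝ, K2 = C2 * (1 + (1 + r) ^ Module.finrank ℝ V) := ⟨_, rfl⟩
  have hK2 : 0 ≤ K2 := by rw [hK2d]; positivity
  refine ⟨max X1 0 * (1 + r) ^ ε * (K2 ^ (1 / (Module.finrank ℝ V : ℝ))) ^ (dd V), M, by positivity,
    fun Q R₀ S W U g hQ hR₀ hS hsep hW hT hU hg hg0 => ?_⟩
  obtain ⟨R, hRd⟩ : ∃ R : ℝ, R = R₀ + r := ⟨_, rfl⟩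
  have hR : 1 ≤ R := by rw [hRd]; linarith
  have hRR : R ≤ (1 + r) * R₀ := by rw [hRd]; nlinarith
  have hR₀R : R₀ ≤ R := by rw [hRd]; linarith
  have hR₀0 : 0 < R₀ := by linarith
  have hR0 : 0 < R := by linarith
  obtain ⟨ρ, hρd⟩ : ∃ ρ : ℝ, ρ = (Real.sqrt R)⁻¹ := ⟨_, rfl⟩
  have hsq : 0 < Real.sqrt R := Real.sqrt_pos.2 hR0
  have hρ : 0 < ρ := by rw [hρd]; positivity
  have hρ1 : ρ ≤ 1 := by
    rw [hρd]
    exact inv_le_one_of_one_le₀ (Real.one_le_sqrt.2 hR)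
  have hρR : ρ⁻¹ ^ 2 = R := by rw [hρd, inv_inv, Real.sq_sqrt hR0.le]
  have hρε : ρ ^ (-(2 * ε)) = R ^ ε := by
    rw [hρd, Real.inv_rpow hsq.le, Real.rpow_neg hsq.le, inv_inv, Real.sqrt_eq_rpow, ← Real.rpow_mul hR0.le]
    congr 1
    ring
  have hRε : R ^ ε ≤ (1 + r) ^ ε * R₀ ^ ε := by
    rw [← Real.mul_rpow (by linarith) hR₀0.le]
    exact Real.rpow_le_rpow hR0.le hRR hε.le
  have hex := fun i => exists_cells hρ (U i) (hU i)
  choose s c hcell using hex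
  have hloc : ∀ a : V × ℝ, ∫⁻ z in closedBall a R₀, ∏ i, sx r (g i) z ^ (2 / (Module.finrank ℝ V : ℝ)) ≤
      ENNReal.ofReal (X1 * Q ^ M * R ^ ε) * ∏ i, (∑ v ∈ s i, lm ((Module.finrank ℝ V : ℝ) + 3) R ((c i v).indicator (g i)) a) ^ (1 / (Module.finrank ℝ V : ℝ)) := by
    intro a
    have := h1 Q ρ U g s c a hQ hρ hρ1 hT hU hg hg0 hcell
    rw [hρR, hρε] at this
    have e : R - r = R₀ := by rw [hRd]; ring
    rwa [e] at this
  have hhold : ∑ a ∈ W, ∏ i : Fin (dd V), (∑ v ∈ s i, lm ((Module.finrank ℝ V : ℝ) + 3) R ((c i v).indicator (g i)) a) ^ (1 / (Module.finrank ℝ V : ℝ))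
      ≤ ∏ i : Fin (dd V), (∑ a ∈ W, ∑ v ∈ s i, lm ((Module.finrank ℝ V : ℝ) + 3) R ((c i v).indicator (g i)) a) ^ (1 / (Module.finrank ℝ V : ℝ)) :=
    holder_centres W (Module.finrank ℝ V) hk (fun a i => ∑ v ∈ s i, lm ((Module.finrank ℝ V : ℝ) + 3) R ((c i v).indicator (g i)) a)
  have hbr : (W.card : ℝ) * (R ^ Module.finrank ℝ V * S ^ (-((Module.finrank ℝ V : ℝ) / 2)) + Real.exp (-(R ^ 2 / 2)) + R / S) ≤ (1 + r) ^ Module.finrank ℝ V := by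
    have hp1 : (1 : ℝ) ≤ (1 + r) ^ Module.finrank ℝ V := one_le_pow₀ hr1
    have hp2 : 1 + r ≤ (1 + r) ^ Module.finrank ℝ V := le_self_pow₀ hr1 (by omega)
    have hS' : 0 ≤ S ^ (-((Module.finrank ℝ V : ℝ) / 2)) := (Real.rpow_pos_of_pos hS _).le
    have b1 : R ^ Module.finrank ℝ V * S ^ (-((Module.finrank ℝ V : ℝ) / 2)) ≤ (1 + r) ^ Module.finrank ℝ V * (R₀ ^ Module.finrank ℝ V * S ^ (-((Module.finrank ℝ V : ℝ) / 2))) := by
      rw [← mul_assoc, ← mul_pow]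
      exact mul_le_mul_of_nonneg_right (pow_le_pow_left₀ hR0.le hRR _) hS'
    have b2 : Real.exp (-(R ^ 2 / 2)) ≤ (1 + r) ^ Module.finrank ℝ V * Real.exp (-(R₀ ^ 2 / 2)) := by
      have e1 : Real.exp (-(R ^ 2 / 2)) ≤ Real.exp (-(R₀ ^ 2 / 2)) := by
        apply Real.exp_le_exp.2
        have : R₀ ^ 2 ≤ R ^ 2 := pow_le_pow_left₀ hR₀0.le hR₀R 2
        linarith
      have e2 := Real.exp_pos (-(R₀ ^ 2 / 2))
      nlinarith
    have b3 : R / S ≤ (1 + r) ^ Module.finrank ℝ V * (R₀ / S) := by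
      rw [← mul_div_assoc]
      apply div_le_div_of_nonneg_right _ hS.le
      calc R ≤ (1 + r) * R₀ := hRR
        _ ≤ _ := mul_le_mul_of_nonneg_right hp2 hR₀0.le
    calc (W.card : ℝ) * (R ^ Module.finrank ℝ V * S ^ (-((Module.finrank ℝ V : ℝ) / 2)) + Real.exp (-(R ^ 2 / 2)) + R / S)
        ≤ (W.card : ℝ) * ((1 + r) ^ Module.finrank ℝ V * (R₀ ^ Module.finrank ℝ V * S ^ (-((Module.finrank ℝ V : ℝ) / 2)) + Real.exp (-(R₀ ^ 2 / 2)) + R₀ / S)) := by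
          apply mul_le_mul_of_nonneg_left _ (Nat.cast_nonneg _)
          linarith
      _ = (1 + r) ^ Module.finrank ℝ V * ((W.card : ℝ) * (R₀ ^ Module.finrank ℝ V * S ^ (-((Module.finrank ℝ V : ℝ) / 2)) + Real.exp (-(R₀ ^ 2 / 2)) + R₀ / S)) := by ring
      _ ≤ (1 + r) ^ Module.finrank ℝ V * 1 := mul_le_mul_of_nonneg_left hW (by positivity)
      _ = _ := mul_one _
  have hsum : ∀ i, ∑ a ∈ W, ∑ v ∈ s i, lm ((Module.finrank ℝ V : ℝ) + 3) R ((c i v).indicator (g i)) a ≤ ENNReal.ofReal K2 * l2 (g i) := by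
    intro i
    rw [Finset.sum_comm]
    calc ∑ v ∈ s i, ∑ a ∈ W, lm ((Module.finrank ℝ V : ℝ) + 3) R ((c i v).indicator (g i)) a
        ≤ ∑ v ∈ s i, ENNReal.ofReal K2 * l2 ((c i v).indicator (g i)) := by
          refine Finset.sum_le_sum fun v hv => ?_
          refine (h2 R S W _ hR hS hsep ((hg i).indicator ((hcell i).meas v hv))).trans (mul_le_mul' (ENNReal.ofReal_le_ofReal ?_) le_rfl)
          rw [hK2d]
          apply mul_le_mul_of_nonneg_left _ hC2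
          linarith
      _ = ENNReal.ofReal K2 * ∑ v ∈ s i, l2 ((c i v).indicator (g i)) := (Finset.mul_sum _ _ _).symm
      _ ≤ _ := mul_le_mul' le_rfl ((hcell i).sum_l2_le (hg i).meas)
  have hq : 0 ≤ Q ^ M * R ^ ε := by positivity
  calc ∑ a ∈ W, ∫⁻ z in closedBall a R₀, ∏ i, sx r (g i) z ^ (2 / (Module.finrank ℝ V : ℝ))
      ≤ ∑ a ∈ W, ENNReal.ofReal (X1 * Q ^ M * R ^ ε) * ∏ i, (∑ v ∈ s i, lm ((Module.finrank ℝ V : ℝ) + 3) R ((c i v).indicator (g i)) a) ^ (1 / (Module.finrank ℝ V : ℝ)) :=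
        Finset.sum_le_sum fun a _ => hloc a
    _ = ENNReal.ofReal (X1 * Q ^ M * R ^ ε) * ∑ a ∈ W, ∏ i, (∑ v ∈ s i, lm ((Module.finrank ℝ V : ℝ) + 3) R ((c i v).indicator (g i)) a) ^ (1 / (Module.finrank ℝ V : ℝ)) :=
        (Finset.mul_sum _ _ _).symm
    _ ≤ ENNReal.ofReal (X1 * Q ^ M * R ^ ε) * ∏ i, (ENNReal.ofReal K2 * l2 (g i)) ^ (1 / (Module.finrank ℝ V : ℝ)) :=
        mul_le_mul' le_rfl (hhold.trans (Finset.prod_le_prod' fun i _ => ENNReal.rpow_le_rpow (hsum i) hκ))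
    _ ≤ _ := by
        simp only [ENNReal.mul_rpow_of_nonneg _ _ hκ]
        rw [Finset.prod_mul_distrib, Finset.prod_const, Finset.card_univ, Fintype.card_fin, ← mul_assoc]
        refine mul_le_mul' ?_ le_rfl
        rw [ENNReal.ofReal_rpow_of_nonneg hK2 hκ, ← ENNReal.ofReal_pow (by positivity)]
        calc ENNReal.ofReal (X1 * Q ^ M * R ^ ε) * ENNReal.ofReal ((K2 ^ (1 / (Module.finrank ℝ V : ℝ))) ^ (dd V))
            ≤ ENNReal.ofReal (max X1 0 * (Q ^ M * ((1 + r) ^ ε * R₀ ^ ε))) * ENNReal.ofReal ((K2 ^ (1 / (Module.finrank ℝ V : ℝ))) ^ (dd V)) := by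
              refine mul_le_mul' (ENNReal.ofReal_le_ofReal ?_) le_rfl
              rw [mul_assoc]
              calc X1 * (Q ^ M * R ^ ε) ≤ max X1 0 * (Q ^ M * R ^ ε) := mul_le_mul_of_nonneg_right (le_max_left _ _) hq
                _ ≤ _ := by gcongr
          _ = _ := by
              rw [← ENNReal.ofReal_mul (by positivity)]
              congr 1
              ring

end Claimed.Agent.MR
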