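import Claimed.Agent.Lib.MR.Loc

/-!
# Box MR, file 4b: the SEPARATE-SUPREMA forms (`sx r g z = sup_{|w| ≤ r} |ext g (z + w)|`) of `ml_glob`, `ml_loc`            (architect helper13)            CONTRACT
The consumers (`R257.MrSupStmt`, p:local-multilinear "separate unit suprema") need `∏_i (sup_q |ext g_i|)^θ`.   No submean value argument for exponents `< 1` is needed: the first step of `ml_glob` is
`‖F y‖^p ≤ A avp p E 1 F y` (`p = pk V ≥ 2`) and `avp p E 1 F y ≤ (1+r)^E avp p E 1 F z` for `‖y - z‖ ≤ r` (`BD.avp_shift`).   From here on the whole box works with `sx r` (`r = 0`: the plain form).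
Every `sorry` is a leaf `L-MR-*`.  Statements are frozen; auxiliary lemmas directly above your theorem (prefix `mr_`); edit only your block.
-/

set_option autoImplicit false
open MeasureTheory Set Metric
open scoped ENNReal NNReal
open Claimed.Agent.BD

namespace Claimed.Agent.MR

variable {V : Type} [NormedAddCommGroup V] [InnerProductSpace ℝ V] [FiniteDimensional ℝ V] [MeasurableSpace V] [BorelSpace V]

/-- the supremum of `|ext g|` over the closed ball of radius `r` about `z` -/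
noncomputable def sx (r : ℝ) (g : V → ℂ) (z : V × ℝ) : ℝ≥0∞ := ⨆ w ∈ closedBall (0 : V × ℝ) r, ‖ext g (z + w)‖ₑ

/-- the geometric mean `∏_i (sx r g_i)^(1/d)` -/
noncomputable def gs (r : ℝ) (g : Fin (dd V) → V → ℂ) (z : V × ℝ) : ℝ≥0∞ := ∏ i, sx r (g i) z ^ (1 / (dd V : ℝ))

theorem le_sx {r : ℝ} (hr : 0 ≤ r) (g : V → ℂ) (z : V × ℝ) : ‖ext g z‖ₑ ≤ sx r g z := by
  have h : ‖ext g (z + 0)‖ₑ ≤ sx r g z := le_iSup₂_of_le (f := fun (w : V × ℝ) (_ : w ∈ closedBall (0 : V × ℝ) r) => ‖ext g (z + w)‖ₑ) 0 (by simpa using hr) le_rfl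
  simpa using h

theorem le_sx_of_dist {r : ℝ} (g : V → ℂ) {z y : V × ℝ} (h : dist y z ≤ r) : ‖ext g y‖ₑ ≤ sx r g z := by
  have h' : ‖ext g (z + (y - z))‖ₑ ≤ sx r g z :=
    le_iSup₂_of_le (f := fun (w : V × ℝ) (_ : w ∈ closedBall (0 : V × ℝ) r) => ‖ext g (z + w)‖ₑ) (y - z) (by rw [mem_closedBall, dist_zero_right, ← dist_eq_norm]; exact h) le_rfl
  simpa using h'

theorem sx_le (r : ℝ) (g : V → ℂ) (z : V × ℝ) : sx r g z ≤ ∫⁻ ξ, ‖g ξ‖ₑ := iSup₂_le fun _ _ => norm_ext_le g _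

/-- lower semicontinuous -/
theorem sx_measurable (r : ℝ) {g : V → ℂ} (hg : Integrable g) : Measurable (sx r g) := by
  have h : LowerSemicontinuous (sx r g) := by
    unfold sx
    refine lowerSemicontinuous_biSup fun w _ => Continuous.lowerSemicontinuous ?_
    exact ((ext_continuous hg).comp (continuous_id.add continuous_const)).enorm
  exact h.measurable

theorem gs_measurable (r : ℝ) {g : Fin (dd V) → V → ℂ} (hg : ∀ i, Integrable (g i)) : Measurable (gs r g) :=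
  Finset.measurable_prod _ fun i _ => (sx_measurable r (hg i)).pow_const _

/-- **`ml_glob` with separate suprema** (clone of the proof of `ml_glob`). -/
theorem ml_glob_sup (hk : 1 ≤ Module.finrank ℝ V) (C E ε r : ℝ) (hC : 1 ≤ C) (hE : 0 < E) (hε : 0 < ε) (hr : 0 ≤ r) :
    ∃ X : ℝ, ∃ M : ℕ, ∀ (Q ρ : ℝ) (ι : Type) (s : Fin (dd V) → Finset ι) (v : Fin (dd V) → ι → V) (H : Fin (dd V) → ι → V × ℝ → ℂ),
      1 ≤ Q → 0 < ρ → ρ ≤ 1 → MRobQ C Q ρ s v H →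
      ∫⁻ z, ∏ i, (⨆ w ∈ closedBall (0 : V × ℝ) r, ‖∑ j ∈ s i, H i j (z + w)‖ₑ) ^ (2 / (Module.finrank ℝ V : ℝ)) ≤
        ENNReal.ofReal (X * Q ^ M * ρ ^ (-ε)) * mA (pk V) 2 E (ρ⁻¹ ^ 2) s H := by
  have hkR : (0 : ℝ) < (Module.finrank ℝ V : ℝ) := by exact_mod_cast hk
  obtain ⟨-, hpk2, hpk3⟩ := pk_div (V := V) hk
  have hd : (0 : ℝ) < dd V := by
    unfold dd
    positivity
  have hC0 : 0 ≤ C := by linarith
  obtain ⟨l, hl⟩ := exists_pow_lt_of_lt_one (div_pos hε hd) (by norm_num : (1 / 2 : ℝ) < 1)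
  obtain ⟨E₁, hE₁⟩ : ∃ E₁ : ℝ, E₁ = E + ((l : ℝ) + 1) * (2 * dd V + 1) := ⟨_, rfl⟩
  have hE₁d : (dd V : ℝ) < E₁ := by
    have h1 : ((l : ℝ) + 1) * (2 * dd V + 1) = (l : ℝ) * (2 * dd V + 1) + (2 * dd V + 1) := by ring
    have h2 : 0 ≤ (l : ℝ) * (2 * dd V + 1) := by positivity
    rw [hE₁, h1]
    linarith
  have hE₁p : (dd V : ℝ) < E₁ * pk V / 2 := by
    have : E₁ ≤ E₁ * pk V / 2 := by nlinarith
    linarith
  obtain ⟨A₀, hA₀⟩ := loc_const_ball (V := V) (2 * C + 4 * C ^ 2) (E₁ * pk V / 2) (pk V) (by linarith) hE₁p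
  obtain ⟨A, hAdef⟩ : ∃ A : ℝ, A = max A₀ 0 * (1 + r) ^ (E₁ * pk V / 2) := ⟨_, rfl⟩
  obtain ⟨X1, hX1⟩ := lev_start (V := V) (pk V) 2 C ((3 : ℝ) ^ Module.finrank ℝ V) E₁ (by norm_num) hpk3 hC0 (by positivity) hE₁d
  obtain ⟨X2, M, hX2⟩ := ml_lev (V := V) hk l C ((3 : ℝ) ^ Module.finrank ℝ V) E hC (by positivity) hE
  refine ⟨max X1 0 * max A 0 * max X2 0, M, fun Q ρ ι s v H hQ hρ hρ1 hM => ?_⟩
  obtain ⟨σ, hσ⟩ : ∃ σ : ℝ, σ = ρ ^ ((1 / 2 : ℝ) ^ l) := ⟨_, rfl⟩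
  have hσ0 : 0 < σ := by rw [hσ]; exact Real.rpow_pos_of_pos hρ _
  have hσ1 : σ ≤ 1 := by rw [hσ]; exact Real.rpow_le_one hρ.le hρ1 (by positivity)
  have hρσ : ρ ≤ σ := by
    rw [hσ]
    calc ρ = ρ ^ (1 : ℝ) := (Real.rpow_one _).symm
      _ ≤ _ := Real.rpow_le_rpow_of_exponent_ge hρ hρ1 (pow_le_one₀ (by norm_num) (by norm_num))
  have hgrp := fun i => exists_grp (s i) (v i) hσ0
  choose π hπ using hgrp
  have hFS : ∀ i, FS (closedBall 0 ((2 * C + 4 * C ^ 2) / 1)) (fun y => ∑ j ∈ s i, H i j y) := by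
    intro i
    refine FS.sum (s i) fun j hj => ((hM.rob i).fs j hj).mono ?_
    refine (cap_subset_ball (v i j) (by positivity) (by positivity)).trans (closedBall_subset_closedBall' ?_)
    have hv : ‖v i j‖ ≤ C := (hM.rob i).bdd j hj
    have hv0 := norm_nonneg (v i j)
    have ha : C * ρ ≤ C := by nlinarith
    have ha0 : 0 ≤ C * ρ := by positivity
    have hb : C * ρ ^ 2 ≤ C := by
      have : ρ ^ 2 ≤ 1 := pow_le_one₀ hρ.le hρ1
      nlinarith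
    have h1 : C * ρ * (2 * ‖v i j‖ + C * ρ) ≤ C * (2 * C + C) := by gcongr
    have h2 : dist ((v i j, ‖v i j‖ ^ 2) : V × ℝ) 0 ≤ C ^ 2 := by
      rw [dist_zero_right, Prod.norm_def, max_le_iff]
      constructor
      · show ‖v i j‖ ≤ C ^ 2
        nlinarith
      · show ‖‖v i j‖ ^ 2‖ ≤ C ^ 2
        rw [Real.norm_eq_abs, abs_of_nonneg (by positivity)]
        gcongr
    rw [div_one]
    nlinarith
  have hκ : (0 : ℝ) ≤ 1 / (dd V : ℝ) := by positivity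
  have hpk0 : 0 < pk V := by linarith
  have hpt : ∀ z, ∏ i, (⨆ w ∈ closedBall (0 : V × ℝ) r, ‖∑ j ∈ s i, H i j (z + w)‖ₑ) ^ (2 / (Module.finrank ℝ V : ℝ))
      ≤ ENNReal.ofReal A * ∏ i, avp (pk V) (E₁ * pk V / 2) 1 (fun y => ∑ j ∈ s i, H i j y) z ^ (1 / (dd V : ℝ)) := by
    intro z
    have h1 : ∀ i, (⨆ w ∈ closedBall (0 : V × ℝ) r, ‖∑ j ∈ s i, H i j (z + w)‖ₑ) ^ (2 / (Module.finrank ℝ V : ℝ))
        ≤ ENNReal.ofReal A ^ (1 / (dd V : ℝ)) * avp (pk V) (E₁ * pk V / 2) 1 (fun y => ∑ j ∈ s i, H i j y) z ^ (1 / (dd V : ℝ)) := by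
      intro i
      have h3 : (⨆ w ∈ closedBall (0 : V × ℝ) r, ‖∑ j ∈ s i, H i j (z + w)‖ₑ)
          ≤ (ENNReal.ofReal A * avp (pk V) (E₁ * pk V / 2) 1 (fun y => ∑ j ∈ s i, H i j y) z) ^ (1 / pk V) := by
        refine iSup₂_le fun w hw => ?_
        have h2 := hA₀ 1 0 _ one_pos (hFS i) (z + w)
        have hw' : ‖z - (z + w)‖ ≤ r * 1 := by
          rw [mem_closedBall, dist_zero_right] at hw
          simpa using hw
        have h4 := avp_shift (t := pk V) (E := E₁ * pk V / 2) (by linarith) one_pos hr (fun y => ∑ j ∈ s i, H i j y) hw'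
        rw [one_div, ENNReal.le_rpow_inv_iff hpk0]
        calc ‖∑ j ∈ s i, H i j (z + w)‖ₑ ^ pk V ≤ ENNReal.ofReal A₀ * avp (pk V) (E₁ * pk V / 2) 1 (fun y => ∑ j ∈ s i, H i j y) (z + w) := h2
          _ ≤ ENNReal.ofReal (max A₀ 0) * (ENNReal.ofReal ((1 + r) ^ (E₁ * pk V / 2)) * avp (pk V) (E₁ * pk V / 2) 1 (fun y => ∑ j ∈ s i, H i j y) z) :=
              mul_le_mul' (ENNReal.ofReal_le_ofReal (le_max_left _ _)) h4
          _ = _ := by rw [hAdef, ENNReal.ofReal_mul (le_max_right _ _), mul_assoc]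
      calc (⨆ w ∈ closedBall (0 : V × ℝ) r, ‖∑ j ∈ s i, H i j (z + w)‖ₑ) ^ (2 / (Module.finrank ℝ V : ℝ))
          ≤ ((ENNReal.ofReal A * avp (pk V) (E₁ * pk V / 2) 1 (fun y => ∑ j ∈ s i, H i j y) z) ^ (1 / pk V)) ^ (2 / (Module.finrank ℝ V : ℝ)) :=
            ENNReal.rpow_le_rpow h3 (by positivity)
        _ = (ENNReal.ofReal A * avp (pk V) (E₁ * pk V / 2) 1 (fun y => ∑ j ∈ s i, H i j y) z) ^ (1 / (dd V : ℝ)) := by
            rw [← ENNReal.rpow_mul, ← hpk2]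
            congr 1
            field_simp
        _ = _ := ENNReal.mul_rpow_of_nonneg _ _ hκ
    calc _ ≤ ∏ i, (ENNReal.ofReal A ^ (1 / (dd V : ℝ)) * avp (pk V) (E₁ * pk V / 2) 1 (fun y => ∑ j ∈ s i, H i j y) z ^ (1 / (dd V : ℝ))) :=
          Finset.prod_le_prod' fun i _ => h1 i
      _ = _ := by
          rw [Finset.prod_mul_distrib, Finset.prod_const, Finset.card_univ, Fintype.card_fin, ← ENNReal.rpow_natCast, ← ENNReal.rpow_mul,
            one_div, inv_mul_cancel₀ hd.ne', ENNReal.rpow_one]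
  have s2 := hX1 ρ σ 1 ι ι s v H π v hρ hρσ hσ1 one_pos ((one_le_inv₀ hσ0).2 hσ1) hM.rob hπ
  have s3 := hX2 Q ρ ι ι s v H π v hQ hρ hρ1 hM (by rw [← hσ]; exact hπ)
  rw [← hσ, ← hE₁] at s3
  have hq1 : 0 ≤ σ ^ (-(Module.finrank ℝ V : ℝ) * pk V / 2) := (Real.rpow_pos_of_pos hσ0 _).le
  have hq0 : 0 ≤ Q ^ M := by positivity
  have hq1' : σ ^ (-(Module.finrank ℝ V : ℝ) * pk V / 2) ≤ ρ ^ (-ε) := by
    rw [hσ, ← Real.rpow_mul hρ.le]
    refine Real.rpow_le_rpow_of_exponent_ge hρ hρ1 ?_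
    have e : -(Module.finrank ℝ V : ℝ) * pk V / 2 = -(dd V : ℝ) := by
      unfold pk
      field_simp
    rw [e]
    rw [lt_div_iff₀ hd] at hl
    linarith
  have hc := mr_const3 (A1 := X1) (A2 := A) (X0 := X2) hq1 hq0
  calc ∫⁻ z, ∏ i, (⨆ w ∈ closedBall (0 : V × ℝ) r, ‖∑ j ∈ s i, H i j (z + w)‖ₑ) ^ (2 / (Module.finrank ℝ V : ℝ))
      ≤ ∫⁻ z, ENNReal.ofReal A * ∏ i, avp (pk V) (E₁ * pk V / 2) 1 (fun y => ∑ j ∈ s i, H i j y) z ^ (1 / (dd V : ℝ)) := lintegral_mono hpt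
    _ = ENNReal.ofReal A * ∫⁻ z, ∏ i, avp (pk V) (E₁ * pk V / 2) 1 (fun y => ∑ j ∈ s i, H i j y) z ^ (1 / (dd V : ℝ)) :=
        lintegral_const_mul' _ _ ENNReal.ofReal_ne_top
    _ ≤ ENNReal.ofReal A * (ENNReal.ofReal (X1 * σ ^ (-(Module.finrank ℝ V : ℝ) * pk V / 2)) * (ENNReal.ofReal (X2 * Q ^ M) * mA (pk V) 2 E (ρ⁻¹ ^ 2) s H)) :=
        mul_le_mul' le_rfl (s2.trans (mul_le_mul' le_rfl s3))
    _ = (ENNReal.ofReal (X1 * σ ^ (-(Module.finrank ℝ V : ℝ) * pk V / 2)) * (ENNReal.ofReal A * ENNReal.ofReal (X2 * Q ^ M))) * mA (pk V) 2 E (ρ⁻¹ ^ 2) s H := by ring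
    _ ≤ _ := by
        refine mul_le_mul' (hc.trans (ENNReal.ofReal_le_ofReal ?_)) le_rfl
        have m : 0 ≤ max X1 0 * max A 0 * max X2 0 := by positivity
        calc max X1 0 * max A 0 * max X2 0 * (σ ^ (-(Module.finrank ℝ V : ℝ) * pk V / 2) * Q ^ M)
            ≤ max X1 0 * max A 0 * max X2 0 * (ρ ^ (-ε) * Q ^ M) := by gcongr
          _ = _ := by ring

/-- **LEAF L-MR-LOCS: `ml_loc` with separate suprema.**   CLONE of the proof of `ml_loc` with `ml_glob_sup` instead of `ml_glob`:   for `z ∈ closedBall a (R - r)` and `w ∈ closedBall 0 r` the point `z + w` lies in `closedBall a R`,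
where `1 ≤ ‖η (R⁻¹ • (z + w - a))‖`, so `sx r (g i) z ≤ ⨆ w ∈ closedBall 0 r, ‖∑_v H i v (z + w)‖ₑ` (`iSup₂_mono`). -/
theorem ml_loc_sup (hk : 1 ≤ Module.finrank ℝ V) (C₀ E' ε r : ℝ) (hC₀ : 0 ≤ C₀) (hE' : 0 ≤ E') (hε : 0 < ε) (hr : 0 ≤ r) :
    ∃ X : ℝ, ∃ M : ℕ, ∀ (Q ρ : ℝ) (U : Fin (dd V) → Set V) (g : Fin (dd V) → V → ℂ) (s : Fin (dd V) → Finset V) (c : Fin (dd V) → V → Set V) (a : V × ℝ),
      1 ≤ Q → 0 < ρ → ρ ≤ 1 → Tr Q U → (∀ i, U i ⊆ closedBall 0 C₀) → (∀ i, Dat C₀ (g i)) → (∀ i ξ, ξ ∉ U i → g i ξ = 0) → (∀ i, Cells ρ (U i) (s i) (c i)) →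
      ∫⁻ z in closedBall a (ρ⁻¹ ^ 2 - r), ∏ i, sx r (g i) z ^ (2 / (Module.finrank ℝ V : ℝ)) ≤
        ENNReal.ofReal (X * Q ^ M * ρ ^ (-ε)) * ∏ i, (∑ v ∈ s i, lm E' (ρ⁻¹ ^ 2) ((c i v).indicator (g i)) a) ^ (1 / (Module.finrank ℝ V : ℝ)) := by
  have hkR : (0 : ℝ) < (Module.finrank ℝ V : ℝ) := by exact_mod_cast hk
  have hκ2 : (0 : ℝ) ≤ 2 / (Module.finrank ℝ V : ℝ) := by positivity
  obtain ⟨η, hη1, hη2, hη3, -⟩ := exists_eta (V := V)
  obtain ⟨C₁, hC₁⟩ := hη3 (((Module.finrank ℝ V : ℝ) + 1 + E') / 2)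
  have hC₁0 : 0 ≤ C₁ := by
    have := (norm_nonneg _).trans (hC₁ 0)
    rwa [norm_zero, add_zero, Real.one_rpow, mul_one] at this
  have hC : (1 : ℝ) ≤ 2 * C₀ + 4 + 3 ^ Module.finrank ℝ V := by
    have : (0 : ℝ) ≤ 3 ^ Module.finrank ℝ V := by positivity
    linarith
  obtain ⟨X1, M, hX1⟩ := ml_glob_sup (V := V) hk (2 * C₀ + 4 + 3 ^ Module.finrank ℝ V) ((Module.finrank ℝ V : ℝ) + 1) ε r hC (by positivity) hε hr
  obtain ⟨X2, hX2⟩ := mA_end (V := V) hk (E := (Module.finrank ℝ V : ℝ) + 1) (by linarith) hE' hC₁0 hC₁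
  refine ⟨max X1 0 * max X2 0, M, fun Q ρ U g s c a hQ hρ hρ1 hT hU hg hg0 hcell => ?_⟩
  have hR : (0 : ℝ) < ρ⁻¹ ^ 2 := by positivity
  have hM : MRobQ (2 * C₀ + 4 + 3 ^ Module.finrank ℝ V) Q ρ s (fun _ => id)
      (fun i v z => ext ((c i v).indicator (g i)) z * η ((ρ⁻¹ ^ 2)⁻¹ • (z - a))) :=
    ⟨fun i => rob_cells hC₀ hρ hρ1 (hU i) (hcell i) (hg i) hη1 a,
      fun j hj t => hT (fun i => j i) (fun i => (hcell i).sub _ (hj i)) t⟩
  have hsum : ∀ i z, ∑ v ∈ s i, ext ((c i v).indicator (g i)) z * η ((ρ⁻¹ ^ 2)⁻¹ • (z - a)) = ext (g i) z * η ((ρ⁻¹ ^ 2)⁻¹ • (z - a)) := by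
    intro i z
    rw [← Finset.sum_mul, ← ext_sum (s i) (fun v => (c i v).indicator (g i)) (fun v hv => ((hg i).indicator ((hcell i).meas v hv)).integrable)]
    congr 2
    funext ξ
    exact (hcell i).sum_indicator (hg0 i) ξ
  have s1 := hX1 Q ρ V s (fun _ => id) _ hQ hρ hρ1 hM
  have s2 := hX2 (ρ⁻¹ ^ 2) V s (fun i v => (c i v).indicator (g i)) a hR
  simp only [hsum] at s1
  have hq : 0 ≤ Q ^ M * ρ ^ (-ε) := by positivity
  calc ∫⁻ z in closedBall a (ρ⁻¹ ^ 2 - r), ∏ i, sx r (g i) z ^ (2 / (Module.finrank ℝ V : ℝ))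
      ≤ ∫⁻ z in closedBall a (ρ⁻¹ ^ 2 - r), ∏ i, (⨆ w ∈ closedBall (0 : V × ℝ) r, ‖ext (g i) (z + w) * η ((ρ⁻¹ ^ 2)⁻¹ • (z + w - a))‖ₑ) ^ (2 / (Module.finrank ℝ V : ℝ)) := by
        refine setLIntegral_mono' measurableSet_closedBall fun z hz => ?_
        refine Finset.prod_le_prod' fun i _ => ENNReal.rpow_le_rpow ?_ hκ2
        unfold sx
        refine iSup₂_mono fun w hw => ?_
        have h1 : ‖(ρ⁻¹ ^ 2)⁻¹ • (z + w - a)‖ ≤ 1 := by
          rw [norm_smul, Real.norm_eq_abs, abs_of_pos (inv_pos.2 hR), inv_mul_le_iff₀ hR, mul_one]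
          have hz' : ‖z - a‖ ≤ ρ⁻¹ ^ 2 - r := by
            rw [← dist_eq_norm]
            exact mem_closedBall.1 hz
          have hw' : ‖w‖ ≤ r := by
            rw [← dist_zero_right]
            exact mem_closedBall.1 hw
          have e : z + w - a = (z - a) + w := by abel
          rw [e]
          exact (norm_add_le _ _).trans (by linarith)
        have h2 := hη2 _ h1
        rw [enorm_mul]
        have h3 : (1 : ℝ≥0∞) ≤ ‖η ((ρ⁻¹ ^ 2)⁻¹ • (z + w - a))‖ₑ := by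
          rw [← ofReal_norm, ← ENNReal.ofReal_one]
          exact ENNReal.ofReal_le_ofReal h2
        calc ‖ext (g i) (z + w)‖ₑ = ‖ext (g i) (z + w)‖ₑ * 1 := (mul_one _).symm
          _ ≤ _ := mul_le_mul' le_rfl h3
    _ ≤ ∫⁻ z, ∏ i, (⨆ w ∈ closedBall (0 : V × ℝ) r, ‖ext (g i) (z + w) * η ((ρ⁻¹ ^ 2)⁻¹ • (z + w - a))‖ₑ) ^ (2 / (Module.finrank ℝ V : ℝ)) := setLIntegral_le_lintegral _ _
    _ ≤ ENNReal.ofReal (X1 * Q ^ M * ρ ^ (-ε)) * (ENNReal.ofReal X2 *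
          ∏ i, (∑ v ∈ s i, lm E' (ρ⁻¹ ^ 2) ((c i v).indicator (g i)) a) ^ (1 / (Module.finrank ℝ V : ℝ))) := s1.trans (mul_le_mul' le_rfl s2)
    _ ≤ _ := by
        rw [← mul_assoc]
        refine mul_le_mul' ?_ le_rfl
        calc ENNReal.ofReal (X1 * Q ^ M * ρ ^ (-ε)) * ENNReal.ofReal X2
            ≤ ENNReal.ofReal (max X1 0 * (Q ^ M * ρ ^ (-ε))) * ENNReal.ofReal (max X2 0) := by
              refine mul_le_mul' (ENNReal.ofReal_le_ofReal ?_) (ENNReal.ofReal_le_ofReal (le_max_left _ _))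
              rw [mul_assoc]
              exact mul_le_mul_of_nonneg_right (le_max_left _ _) hq
          _ = _ := by
              rw [← ENNReal.ofReal_mul (by positivity)]
              congr 1
              ring

end Claimed.Agent.MR
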