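import Claimed.Agent.Lib.MR.Smv
import Claimed.Agent.Lib.MR.Fam

/-!
# Box MR, bridge to packets, file 2: THICK FIELDS (Fourier support in the `b`-neighbourhood of the paraboloid) as traces of exact extensions            (architect helper164)            CONTRACT
PAPER-FREE.   `G : V × ℝ → ℂ` bounded Borel, `G w = 0` unless `w.1 ∈ U`, `|w.2 - |w.1|²| ≤ b`.      `tfld G z = ∫ ch (pr z w) G w`.
EXTRA VARIABLE `r`:  `thk G ζ r = ∫ ch (pr ζ (gam ξ) + r σ) G(ξ, |ξ|² + σ) dξ dσ`.   Then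
* `thk G ζ ζ.2 = tfld G ζ`  (shear `τ = |ξ|² + σ`);
* `thk G ζ r = ext (slc G r) ζ` is an EXACT extension for every fixed `r`, `slc G r ξ = ∫ ch (r σ) G(ξ, |ξ|² + σ) dσ`, `∫ |slc G r|² ≤ 2 b ∫ |G|²`;
* `y ↦ thk G (ζ + (y.1, 0)) y.2` is band limited in `{|ξ| ≤ C₀, |σ| ≤ b}`, so it is locally constant at scale `1 × b⁻¹` for EVERY exponent `s > 0` (`smv`).
This replaces Minkowski's inequality (false for `s = p/d < 1`), Taylor series in `t σ`, Fourier series on the ball and the division by `H_v` of the paper (H packets.tex l.716-784).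
Every `sorry` is a leaf `L-MRT-*`.  Statements are frozen; auxiliary lemmas directly above your theorem (prefix `mrt_`); edit only your block.
-/

set_option autoImplicit false
open MeasureTheory Set Metric
open scoped ENNReal NNReal RealInnerProductSpace
open Claimed.Agent.BD

namespace Claimed.Agent.MR

variable {V : Type} [NormedAddCommGroup V] [InnerProductSpace ℝ V] [FiniteDimensional ℝ V] [MeasurableSpace V] [BorelSpace V]

/-- thick datum over `U`, vertical thickness `b` -/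
structure TDat (b : ℝ) (U : Set V) (G : V × ℝ → ℂ) : Prop where
  meas : Measurable G
  bdd : ∃ B : ℝ, ∀ w, ‖G w‖ ≤ B
  supp : ∀ w, G w ≠ 0 → w.1 ∈ U ∧ |w.2 - ‖w.1‖ ^ 2| ≤ b

/-- the thick field -/
noncomputable def tfld (G : V × ℝ → ℂ) (z : V × ℝ) : ℂ := ∫ w, ch (pr z w) * G w

/-- the sheared density `(ξ, σ) ↦ G(ξ, |ξ|² + σ)` -/
def shr (G : V × ℝ → ℂ) (w : V × ℝ) : ℂ := G (w.1, ‖w.1‖ ^ 2 + w.2)

/-- the field with the extra variable `r` -/
noncomputable def thk (G : V × ℝ → ℂ) (ζ : V × ℝ) (r : ℝ) : ℂ := ∫ w, ch (pr ζ (gam w.1) + r * w.2) * shr G w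

/-- the datum of the exact extension `thk G · r` -/
noncomputable def slc (G : V × ℝ → ℂ) (r : ℝ) (ξ : V) : ℂ := ∫ σ, ch (r * σ) * G (ξ, ‖ξ‖ ^ 2 + σ)

/-! ## the sheared density -/

theorem mrt_shear_meas : Measurable (fun w : V × ℝ => (w.1, ‖w.1‖ ^ 2 + w.2)) :=
  measurable_fst.prodMk ((measurable_fst.norm.pow_const 2).add measurable_snd)

theorem mrt_shr_supp {b : ℝ} {U : Set V} {G : V × ℝ → ℂ} (h : TDat b U G) (w : V × ℝ) (hw : shr G w ≠ 0) : w.1 ∈ U ∧ |w.2| ≤ b := by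
  obtain ⟨h1, h2⟩ := h.supp _ hw
  refine ⟨h1, ?_⟩
  simpa using h2

theorem mrt_box_fin (C₀ a b : ℝ) : volume (closedBall (0 : V) C₀ ×ˢ Icc a b) ≠ ⊤ := by
  rw [Measure.volume_eq_prod, Measure.prod_prod]
  exact (ENNReal.mul_lt_top measure_closedBall_lt_top (by simp)).ne

/-- **LEAF L-MRT-SHR.**   `shr G` is measurable (`G ∘ continuous map`), bounded by the same `B`, vanishes off `closedBall 0 C₀ ×ˢ Icc (-b) b` (a set of finite measure: `Measure.volume_eq_prod`, `Measure.prod_prod`, `measure_closedBall_lt_top`):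
`Integrable` by `Measure.integrableOn_of_bounded` + `integrableOn_iff_integrable_of_support_subset` (as `Dat.integrable`). -/
theorem TDat.shr_integrable {C₀ b : ℝ} {U : Set V} {G : V × ℝ → ℂ} (h : TDat b U G) (hU : U ⊆ closedBall 0 C₀) : Integrable (shr G) := by
  obtain ⟨B, hB⟩ := h.bdd
  have hsupp : Function.support (shr G) ⊆ closedBall (0 : V) C₀ ×ˢ Icc (-b) b := fun w hw => by
    obtain ⟨h1, h2⟩ := mrt_shr_supp h w hw
    exact ⟨hU h1, abs_le.1 h2⟩
  rw [← integrableOn_iff_integrable_of_support_subset hsupp]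
  exact Measure.integrableOn_of_bounded (M := B) (mrt_box_fin C₀ _ _)
    (h.meas.comp mrt_shear_meas).aestronglyMeasurable (Filter.Eventually.of_forall fun w => hB _)

/-- **LEAF L-MRT-SHR.** -/
theorem TDat.shr_supp {b : ℝ} {U : Set V} {G : V × ℝ → ℂ} (h : TDat b U G) (w : V × ℝ) (hw : shr G w ≠ 0) : w.1 ∈ U ∧ |w.2| ≤ b := by
  exact mrt_shr_supp h w hw

/-- **LEAF L-MRT-SHEAR: the shear preserves the volume**, `ℝ≥0∞` form.   `Measure.volume_eq_prod`, `lintegral_prod` (both sides; `f` and `f ∘ shear` measurable), inner integral: `lintegral_add_left_eq_self` (translation by `‖ξ‖²` on `ℝ`). -/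
theorem lintegral_shear (f : V × ℝ → ℝ≥0∞) (hf : Measurable f) : ∫⁻ w : V × ℝ, f (w.1, ‖w.1‖ ^ 2 + w.2) = ∫⁻ w, f w := by
  rw [Measure.volume_eq_prod, lintegral_prod (fun w : V × ℝ => f (w.1, ‖w.1‖ ^ 2 + w.2)) (hf.comp mrt_shear_meas).aemeasurable,
    lintegral_prod _ hf.aemeasurable]
  refine lintegral_congr fun ξ => ?_
  exact lintegral_add_left_eq_self (fun t => f (ξ, t)) (‖ξ‖ ^ 2)

/-- the shear as a measurable equivalence -/
noncomputable def mrtShear : (V × ℝ) ≃ᵐ (V × ℝ) where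
  toFun := fun w => (w.1, ‖w.1‖ ^ 2 + w.2)
  invFun := fun w => (w.1, w.2 - ‖w.1‖ ^ 2)
  left_inv := fun w => by simp
  right_inv := fun w => by simp
  measurable_toFun := mrt_shear_meas
  measurable_invFun := measurable_fst.prodMk (measurable_snd.sub (measurable_fst.norm.pow_const 2))

theorem mrt_shear_mp : MeasurePreserving (mrtShear : (V × ℝ) ≃ᵐ (V × ℝ)) volume volume := by
  refine ⟨mrtShear.measurable, ?_⟩
  ext s hs
  rw [Measure.map_apply mrtShear.measurable hs, ← lintegral_indicator_one hs,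
    ← lintegral_shear _ (measurable_one.indicator hs), ← lintegral_indicator_one (mrtShear.measurable hs)]
  rfl

/-- **LEAF L-MRT-SHEAR: the shear preserves the volume**, Bochner form.   The map `w ↦ (w.1, ‖w.1‖² + w.2)` is a measurable equivalence (inverse `w ↦ (w.1, w.2 - ‖w.1‖²)`) and measure preserving (`lintegral_shear` on indicators, or `MeasurePreserving.skew_product` with `measurePreserving_add_left`);
`MeasurePreserving.integral_comp'`.   (No integrability hypothesis is needed with a measurable equivalence.) -/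
theorem integral_shear (f : V × ℝ → ℂ) : ∫ w : V × ℝ, f (w.1, ‖w.1‖ ^ 2 + w.2) = ∫ w, f w := by
  exact mrt_shear_mp.integral_comp' f

/-- **LEAF L-MRT-SHR.**   `h.shr_integrable` transported by the inverse shear, or directly as `shr_integrable`. -/
theorem TDat.integrable {C₀ b : ℝ} {U : Set V} {G : V × ℝ → ℂ} (h : TDat b U G) (hU : U ⊆ closedBall 0 C₀) : Integrable G := by
  obtain ⟨B, hB⟩ := h.bdd
  have hsupp : Function.support G ⊆ closedBall (0 : V) C₀ ×ˢ Icc (-b) (C₀ ^ 2 + b) := fun w hw => by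
    obtain ⟨h1, h2⟩ := h.supp w hw
    have h3 : ‖w.1‖ ≤ C₀ := by simpa using hU h1
    have h4 : ‖w.1‖ ^ 2 ≤ C₀ ^ 2 := pow_le_pow_left₀ (norm_nonneg _) h3 2
    have h5 : 0 ≤ ‖w.1‖ ^ 2 := by positivity
    rw [abs_le] at h2
    exact ⟨hU h1, by linarith, by linarith⟩
  rw [← integrableOn_iff_integrable_of_support_subset hsupp]
  exact Measure.integrableOn_of_bounded (M := B) (mrt_box_fin C₀ _ _)
    h.meas.aestronglyMeasurable (Filter.Eventually.of_forall fun w => hB _)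

/-! ## the three identities -/

/-- **LEAF L-MRT-DIAG.**   `integral_shear` for `f w = ch (pr ζ w) * G w`:  `pr ζ (ξ, ‖ξ‖² + σ) = pr ζ (gam ξ) + ζ.2 * σ` (`unfold pr gam`, `ring`). -/
theorem thk_diag (G : V × ℝ → ℂ) (ζ : V × ℝ) : thk G ζ ζ.2 = tfld G ζ := by
  unfold thk tfld
  rw [← integral_shear (fun w => ch (pr ζ w) * G w)]
  refine integral_congr_ae (Filter.Eventually.of_forall fun w => ?_)
  have : pr ζ (gam w.1) + ζ.2 * w.2 = pr ζ (w.1, ‖w.1‖ ^ 2 + w.2) := by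
    unfold pr gam; ring
  simp only [this, shr]

theorem mrt_ch_cont : Continuous ch := by
  unfold ch; fun_prop

theorem mrt_gam_cont : Continuous (gam : V → V × ℝ) := by
  unfold gam; fun_prop

theorem mrt_pr_cont : Continuous fun p : (V × ℝ) × (V × ℝ) => pr p.1 p.2 := by
  unfold pr; fun_prop

theorem mrt_phase_int {C₀ b : ℝ} {U : Set V} {G : V × ℝ → ℂ} (h : TDat b U G) (hU : U ⊆ closedBall 0 C₀) (ζ : V × ℝ) (r : ℝ) :
    Integrable fun w : V × ℝ => ch (pr ζ (gam w.1) + r * w.2) * shr G w := by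
  have hc : Continuous fun w : V × ℝ => ch (pr ζ (gam w.1) + r * w.2) := by
    refine mrt_ch_cont.comp (Continuous.add ?_ (by fun_prop))
    exact mrt_pr_cont.comp (continuous_const.prodMk (mrt_gam_cont.comp continuous_fst))
  exact (h.shr_integrable hU).bdd_mul hc.aestronglyMeasurable (c := 1)
    (Filter.Eventually.of_forall fun w => (norm_ch _).le)

/-- **LEAF L-MRT-EXT.**   Fubini: `Measure.volume_eq_prod`, `integral_prod` (integrable: `‖ch‖ = 1`, `h.shr_integrable`; `BD.norm_ch`, `Integrable.bdd_mul`/`bdu_int_ch`-style), `BD.ch_add`, `integral_const_mul` (`MeasureTheory.integral_const_mul`). -/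
theorem thk_eq_ext {C₀ b : ℝ} {U : Set V} {G : V × ℝ → ℂ} (h : TDat b U G) (hU : U ⊆ closedBall 0 C₀) (ζ : V × ℝ) (r : ℝ) :
    thk G ζ r = ext (slc G r) ζ := by
  unfold thk ext slc
  have hi := mrt_phase_int h hU ζ r
  rw [Measure.volume_eq_prod] at hi ⊢
  rw [integral_prod _ hi]
  refine integral_congr_ae (Filter.Eventually.of_forall fun ξ => ?_)
  simp only [shr]
  rw [← integral_const_mul]
  refine integral_congr_ae (Filter.Eventually.of_forall fun σ => ?_)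
  simp only [ch_add, mul_assoc]

/-- **LEAF L-MRT-CONT.**   `continuous_of_dominated` with the bound `‖shr G w‖` (as `BD.FS.continuous`); `ch`, `pr`, `gam` continuous. -/
theorem thk_continuous {C₀ b : ℝ} {U : Set V} {G : V × ℝ → ℂ} (h : TDat b U G) (hU : U ⊆ closedBall 0 C₀) :
    Continuous fun q : (V × ℝ) × ℝ => thk G q.1 q.2 := by
  unfold thk
  refine continuous_of_dominated (bound := fun w => ‖shr G w‖) (fun q => (mrt_phase_int h hU q.1 q.2).aestronglyMeasurable)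
    (fun q => Filter.Eventually.of_forall fun w => ?_) (h.shr_integrable hU).norm
    (Filter.Eventually.of_forall fun w => ?_)
  · rw [norm_mul, norm_ch, one_mul]
  · refine Continuous.mul (mrt_ch_cont.comp (Continuous.add ?_ (by fun_prop))) continuous_const
    exact mrt_pr_cont.comp (continuous_fst.prodMk continuous_const)

/-- **LEAF L-MRT-FS: band limitation in the variables `(y.1, r)`.**   Density `g w = ch (pr ζ (gam w.1)) * shr G w` (integrable);   `pr (ζ + (y.1, 0)) (gam ξ) + y.2 σ = pr y (ξ,σ) + pr ζ (gam ξ)`, `BD.ch_add`.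
Support: `shr_supp`: `‖w.1‖ ≤ C₀ ≤ C`, `|w.2| ≤ C₁/N`, so `w = 0 + LamT 0 1 N⁻¹ (w.1, N w.2)` with `‖(w.1, N w.2)‖ ≤ C` (`LamT 0 1 b w = (w.1, b w.2)`: `one_smul`, `inner_zero_left`; sup norm: `Prod.norm_def`, `max_le`). -/
theorem thk_FS {C₀ C₁ C N : ℝ} (hN : 0 < N) (hC₀ : C₀ ≤ C) (hC₁ : C₁ ≤ C) {U : Set V} {G : V × ℝ → ℂ} (h : TDat (C₁ / N) U G) (hU : U ⊆ closedBall 0 C₀) (ζ : V × ℝ) :
    FS ((fun w => (0 : V × ℝ) + LamT (0 : V) 1 N⁻¹ w) '' closedBall 0 C) (fun y => thk G (ζ + (y.1, 0)) y.2) := by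
  refine ⟨fun w => ch (pr ζ (gam w.1)) * shr G w, ?_, fun w hw => ?_, fun y => ?_⟩
  · have := mrt_phase_int h hU ζ 0
    simpa using this
  · by_contra hc
    have hs : shr G w ≠ 0 := right_ne_zero_of_mul hc
    obtain ⟨h1, h2⟩ := h.shr_supp w hs
    apply hw
    refine ⟨(w.1, N * w.2), ?_, ?_⟩
    · rw [mem_closedBall_zero_iff, Prod.norm_def]
      refine max_le ?_ ?_
      · exact (mem_closedBall_zero_iff.1 (hU h1)).trans hC₀
      · rw [Real.norm_eq_abs, abs_mul, abs_of_pos hN]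
        calc N * |w.2| ≤ N * (C₁ / N) := by gcongr
          _ = C₁ := by field_simp
          _ ≤ C := hC₁
    · unfold LamT
      ext
      · simp
      · simp only [zero_add, inner_zero_left, mul_zero]
        field_simp
  · unfold thk
    refine integral_congr_ae (Filter.Eventually.of_forall fun w => ?_)
    simp only
    rw [← mul_assoc, ← ch_add]
    congr 2
    unfold pr gam
    simp only [Prod.fst_add, Prod.snd_add, inner_add_left, add_zero]
    ring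

/-- **LEAF L-MRT-FS.**   by definition of `FS` with `g = G`;  `‖w.1‖ ≤ C₀`, `|w.2| ≤ ‖w.1‖² + b ≤ C₀² + b`. -/
theorem tfld_FS {C₀ b : ℝ} (hC₀ : 0 ≤ C₀) (hb : 0 ≤ b) {U : Set V} {G : V × ℝ → ℂ} (h : TDat b U G) (hU : U ⊆ closedBall 0 C₀) :
    FS (closedBall 0 (C₀ + C₀ ^ 2 + b)) (tfld G) := by
  refine ⟨G, h.integrable hU, fun w hw => ?_, fun z => rfl⟩
  by_contra hc
  obtain ⟨h1, h2⟩ := h.supp w hc
  apply hw
  have h3 : ‖w.1‖ ≤ C₀ := mem_closedBall_zero_iff.1 (hU h1)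
  have h4 : ‖w.1‖ ^ 2 ≤ C₀ ^ 2 := pow_le_pow_left₀ (norm_nonneg _) h3 2
  have h5 : 0 ≤ ‖w.1‖ ^ 2 := by positivity
  rw [mem_closedBall_zero_iff, Prod.norm_def]
  refine max_le ?_ ?_
  · nlinarith [sq_nonneg C₀]
  · rw [Real.norm_eq_abs]
    rw [abs_le] at h2 ⊢
    constructor <;> nlinarith

/-! ## the slices are data of the class of `mrl` -/

/-- **LEAF L-MRT-SLC.**   measurable: `(ξ, σ) ↦ ch (r σ) * G (ξ, ‖ξ‖² + σ)` is measurable hence strongly measurable, `StronglyMeasurable.integral_prod_right` (then `.measurable`);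
bounded: `‖slc G r ξ‖ ≤ ∫_{|σ| ≤ b} B ≤ 2 b B` (`norm_integral_le_integral_norm`; the integrand vanishes for `|σ| > b`: `setIntegral_eq_integral_of_forall_compl_eq_zero`, `norm_setIntegral_le_of_norm_le_const`, `Real.volume_Icc`);
support: `ξ ∉ U` ⟹ the integrand vanishes identically. -/
theorem slc_dat {C₀ b : ℝ} (hb : 0 ≤ b) {U : Set V} {G : V × ℝ → ℂ} (h : TDat b U G) (hU : U ⊆ closedBall 0 C₀) (r : ℝ) :
    Dat C₀ (slc G r) ∧ ∀ ξ, ξ ∉ U → slc G r ξ = 0 := by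
  have hz : ∀ ξ, ξ ∉ U → slc G r ξ = 0 := fun ξ hξ => by
    unfold slc
    have : ∀ σ, ch (r * σ) * G (ξ, ‖ξ‖ ^ 2 + σ) = 0 := fun σ => by
      by_contra hc
      exact hξ (h.supp _ (right_ne_zero_of_mul hc)).1
    simp [this]
  obtain ⟨B, hB⟩ := h.bdd
  refine ⟨⟨?_, ⟨B * (2 * b), fun ξ => ?_⟩, fun ξ hξ => ?_⟩, hz⟩
  · have hm : Measurable fun w : V × ℝ => ch (r * w.2) * G (w.1, ‖w.1‖ ^ 2 + w.2) :=
      ((mrt_ch_cont.measurable.comp (measurable_const.mul measurable_snd))).mul (h.meas.comp mrt_shear_meas)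
    exact (hm.stronglyMeasurable.integral_prod_right' (ν := volume)).measurable
  · unfold slc
    have hsupp : ∀ σ, σ ∉ Icc (-b) b → ch (r * σ) * G (ξ, ‖ξ‖ ^ 2 + σ) = 0 := fun σ hσ => by
      by_contra hc
      have := (h.shr_supp (ξ, σ) (right_ne_zero_of_mul hc)).2
      exact hσ (abs_le.1 this)
    rw [← setIntegral_eq_integral_of_forall_compl_eq_zero hsupp]
    have := norm_setIntegral_le_of_norm_le_const (μ := volume) (s := Icc (-b) b) (C := B)
      (f := fun σ => ch (r * σ) * G (ξ, ‖ξ‖ ^ 2 + σ)) (by simp) (fun σ _ => by rw [norm_mul, norm_ch, one_mul]; exact hB _)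
    refine this.trans (le_of_eq ?_)
    rw [Measure.real, Real.volume_Icc, ENNReal.toReal_ofReal (by linarith)]
    ring
  · by_contra hc
    exact hξ (hz ξ fun hu => hc (mem_closedBall_zero_iff.1 (hU hu)))

theorem mrt_cs (I : Set ℝ) (hI : MeasurableSet I) (f : ℝ → ℝ≥0∞) (hf : Measurable f) (h0 : ∀ σ, σ ∉ I → f σ = 0) :
    (∫⁻ σ, f σ) ^ (2 : ℝ) ≤ volume I * ∫⁻ σ, f σ ^ (2 : ℝ) := by
  have h1 : ∫⁻ σ, f σ = ∫⁻ σ, I.indicator (fun _ => (1 : ℝ≥0∞)) σ * f σ := by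
    refine lintegral_congr fun σ => ?_
    by_cases hσ : σ ∈ I
    · rw [indicator_of_mem hσ, one_mul]
    · rw [h0 σ hσ, mul_zero]
  have h2 := ENNReal.lintegral_mul_le_Lp_mul_Lq (volume : Measure ℝ) Real.HolderConjugate.two_two
    ((measurable_const.indicator hI).aemeasurable (f := I.indicator (fun _ => (1 : ℝ≥0∞)))) hf.aemeasurable
  have h3 : ∫⁻ σ, I.indicator (fun _ => (1 : ℝ≥0∞)) σ ^ (2 : ℝ) = volume I := by
    rw [← lintegral_indicator_one hI]
    refine lintegral_congr fun σ => ?_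
    by_cases hσ : σ ∈ I
    · simp [indicator_of_mem hσ]
    · simp [indicator_of_notMem hσ]
  rw [h1]
  refine (ENNReal.rpow_le_rpow h2 (by norm_num : (0 : ℝ) ≤ 2)).trans (le_of_eq ?_)
  rw [ENNReal.mul_rpow_of_nonneg _ _ (by norm_num), ← ENNReal.rpow_mul, ← ENNReal.rpow_mul, h3,
    show (1 / 2 : ℝ) * 2 = 1 by norm_num, ENNReal.rpow_one, ENNReal.rpow_one]

/-- **LEAF L-MRT-SL2: Cauchy-Schwarz in `σ`.**   `‖slc G r ξ‖ₑ ≤ ∫⁻_{Icc (-b) b} ‖G(ξ, ‖ξ‖²+σ)‖ₑ dσ` (`enorm_integral_le_lintegral_enorm`, `enorm_mul`, `‖ch‖ₑ = 1`, the integrand vanishes off `Icc (-b) b`);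
`(∫⁻_I f)² ≤ vol(I) ∫⁻_I f²` (`ENNReal.lintegral_mul_le_Lp_mul_Lq` with `p = q = 2`, `g = 1`; as `Dat.l1_le`), `vol(I) = 2b`;   integrate in `ξ`: `lintegral_prod` backwards and `lintegral_shear`. -/
theorem slc_l2 {b : ℝ} (hb : 0 ≤ b) {U : Set V} {G : V × ℝ → ℂ} (h : TDat b U G) (r : ℝ) :
    l2 (slc G r) ≤ ENNReal.ofReal (2 * b) * ∫⁻ w, ‖G w‖ₑ ^ (2 : ℝ) := by
  have hm : Measurable fun w : V × ℝ => ‖G w‖ₑ ^ (2 : ℝ) := h.meas.enorm.pow_const _
  have hms : Measurable fun w : V × ℝ => ‖G (w.1, ‖w.1‖ ^ 2 + w.2)‖ₑ ^ (2 : ℝ) := hm.comp mrt_shear_meas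
  rw [← lintegral_shear _ hm, Measure.volume_eq_prod, lintegral_prod _ hms.aemeasurable, ← lintegral_const_mul' _ _ ENNReal.ofReal_ne_top]
  unfold l2
  refine lintegral_mono fun ξ => ?_
  have hmξ : Measurable fun σ : ℝ => ‖G (ξ, ‖ξ‖ ^ 2 + σ)‖ₑ :=
    (h.meas.comp (measurable_const.prodMk (measurable_const.add measurable_id))).enorm
  have h1 : ‖slc G r ξ‖ₑ ≤ ∫⁻ σ, ‖G (ξ, ‖ξ‖ ^ 2 + σ)‖ₑ := by
    unfold slc
    refine (enorm_integral_le_lintegral_enorm _).trans (le_of_eq ?_)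
    refine lintegral_congr fun σ => ?_
    rw [enorm_mul, mr_enorm_ch, one_mul]
  have h2 := mrt_cs (Icc (-b) b) measurableSet_Icc _ hmξ (fun σ hσ => by
    by_contra hc
    have hc' : shr G (ξ, σ) ≠ 0 := fun h0 => hc (by rw [show G (ξ, ‖ξ‖ ^ 2 + σ) = shr G (ξ, σ) from rfl, h0, enorm_zero])
    exact hσ (abs_le.1 (h.shr_supp (ξ, σ) hc').2))
  rw [Real.volume_Icc, show b - -b = 2 * b by ring] at h2
  exact (ENNReal.rpow_le_rpow h1 (by norm_num)).trans h2

/-- **LEAF L-MRT-MOD: translates of the exact extensions stay in the class.**   `thk_eq_ext`, `ext_translate`;  `Dat.mul` with `m = ch (pr a (gam ·))` (continuous, `‖m‖ = 1`);  `l2`: `‖m ξ * g ξ‖ₑ = ‖g ξ‖ₑ`. -/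
theorem thk_translate {C₀ b : ℝ} (hb : 0 ≤ b) {U : Set V} {G : V × ℝ → ℂ} (h : TDat b U G) (hU : U ⊆ closedBall 0 C₀) (a : V × ℝ) (r : ℝ) :
    ∃ g : V → ℂ, Dat C₀ g ∧ (∀ ξ, ξ ∉ U → g ξ = 0) ∧ l2 g ≤ ENNReal.ofReal (2 * b) * ∫⁻ w, ‖G w‖ₑ ^ (2 : ℝ) ∧ ∀ x, thk G (x + a) r = ext g x := by
  obtain ⟨hd, hz⟩ := slc_dat hb h hU r
  refine ⟨fun ξ => ch (pr a (gam ξ)) * slc G r ξ, hd.mul (B := 1) ?_ (fun ξ _ => (norm_ch _).le),
    fun ξ hξ => by simp only [hz ξ hξ, mul_zero], ?_, fun x => ?_⟩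
  · exact (mrt_ch_cont.comp (mrt_pr_cont.comp (continuous_const.prodMk mrt_gam_cont))).measurable
  · refine le_trans (le_of_eq ?_) (slc_l2 hb h r)
    unfold l2
    refine lintegral_congr fun ξ => ?_
    rw [enorm_mul, mr_enorm_ch, one_mul]
  · rw [thk_eq_ext h hU, ext_translate]

/-! ## thick ⟹ average of exact extensions -/

/-- **LEAF L-MRT-THK.**   `smv (max C₀ C₁) E s` with `v = 0`, `a = 1`, `b = N⁻¹`, `w₀ = 0`, `F = fun y => thk G (ζ + (y.1, 0)) y.2` (`thk_FS`), `z = (0, ζ.2)`, `y = 0`:   `F (z + 0) = thk G ζ ζ.2 = tfld G ζ` (`thk_diag`; `ζ + (0,0) = ζ`), `lw_zero`. -/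
theorem thk_dom (C₀ C₁ E s : ℝ) (hs : 0 < s) (hE : (dd V : ℝ) < E) :
    ∃ A : ℝ, ∀ (N : ℝ) (U : Set V) (G : V × ℝ → ℂ) (ζ : V × ℝ), 0 < N → U ⊆ closedBall 0 C₀ → TDat (C₁ / N) U G →
      ‖tfld G ζ‖ₑ ^ s ≤ ENNReal.ofReal A * ∫⁻ y : V × ℝ, ‖thk G (ζ + (y.1, 0)) y.2‖ₑ ^ s * tw E 0 1 N⁻¹ (y - (0, ζ.2)) := by
  obtain ⟨A, hA⟩ := smv (V := V) (max C₀ C₁) E s hs hE
  refine ⟨A, fun N U G ζ hN hU h => ?_⟩
  have := hA 0 1 N⁻¹ 0 (fun y => thk G (ζ + (y.1, 0)) y.2) one_pos (inv_pos.2 hN)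
    (thk_FS hN (le_max_left _ _) (le_max_right _ _) h hU ζ) (0, ζ.2) 0
  rw [lw_zero, mul_one] at this
  simp only [add_zero, Prod.mk_zero_zero, thk_diag] at this
  exact this

end Claimed.Agent.MR
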