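import Claimed.Agent.Lib.MR.Level

/-!
# Box MR, file 9: EXITS.   `mrl` (lossless, `p > 2(k+1)/k`, global) and `mrloc` (endpoint exponent, ball of radius `R`, loss `R^ε`), separate suprema `sx r`, general `L²` data, polynomial in the transversality `Q`            (architect helper13)            CONTRACT
Every `sorry` is a leaf `L-MR-*`.  Statements are frozen; auxiliary lemmas directly above your theorem (prefix `mr_`); edit only your block.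
-/

set_option autoImplicit false
open MeasureTheory Set Metric Filter Topology
open scoped ENNReal NNReal
open Claimed.Agent.BD

namespace Claimed.Agent.MR

variable {V : Type} [NormedAddCommGroup V] [InnerProductSpace ℝ V] [FiniteDimensional ℝ V] [MeasurableSpace V] [BorelSpace V]

/-! ## homogeneity -/

/-- **LEAF L-MR-HOM0.**  `ext_const_mul`, `enorm_mul`, `ENNReal.mul_iSup` (twice). -/
theorem sx_const_mul (r : ℝ) (c : ℂ) (g : V → ℂ) (z : V × ℝ) : sx r (fun ξ => c * g ξ) z = ‖c‖ₑ * sx r g z := by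
  unfold sx
  simp_rw [ext_const_mul, enorm_mul, ENNReal.mul_iSup]

/-- **LEAF L-MR-HOM0.**  `lintegral_eq_zero_iff`: `g = 0` a.e., `integral_congr_ae`: `ext g = 0`. -/
theorem sx_eq_zero_of_l2 {g : V → ℂ} (hm : Measurable g) (h : l2 g = 0) (r : ℝ) (z : V × ℝ) : sx r g z = 0 := by
  unfold l2 at h
  rw [lintegral_eq_zero_iff (hm.enorm.pow_const _)] at h
  have h0 : g =ᵐ[volume] 0 := by
    filter_upwards [h] with ξ hξ
    simp only [Pi.zero_apply] at hξ ⊢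
    rw [ENNReal.rpow_eq_zero_iff] at hξ
    rcases hξ with ⟨h1, _⟩ | ⟨_, h2⟩
    · exact enorm_eq_zero.1 h1
    · norm_num at h2
  have he : ∀ y, ext g y = 0 := by
    intro y
    unfold ext
    rw [integral_congr_ae (g := fun _ => (0 : ℂ))]
    · simp
    · filter_upwards [h0] with ξ hξ
      rw [hξ]; simp
  unfold sx
  simp [he]

theorem mr_l2_const_mul (c : ℂ) (g : V → ℂ) : l2 (fun ξ => c * g ξ) = ‖c‖ₑ ^ (2 : ℝ) * l2 g := by
  unfold l2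
  simp_rw [enorm_mul, ENNReal.mul_rpow_of_nonneg _ _ (by norm_num : (0 : ℝ) ≤ 2)]
  rw [lintegral_const_mul' _ _ (ENNReal.rpow_ne_top_of_nonneg (by norm_num) enorm_ne_top)]

/-- **LEAF L-MR-HOM: homogeneity** (abstract form; pattern `R254.er_local_dat` in `R254/Level/Strong.lean`).
PLAN.  If `l2 (g i) = 0` for some `i`: the integrand vanishes (`sx_eq_zero_of_l2`, `ENNReal.zero_rpow_of_pos`, `Finset.prod_eq_zero`).   Otherwise `a_i = (l2 (g i))^(1/2) ∈ (0,∞)` (`Dat.l2_lt_top`), `g'_i = a_i⁻¹ g_i` (`Dat.mul` with the constant function), `l2 g'_i = 1`,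
`sx r (g i) = a_i sx r (g' i)` (`sx_const_mul`), `∏_i (a_i x_i)^θ = (∏ a_i^θ) ∏ x_i^θ`, `a_i^θ = l2 (g i)^(θ/2)`; `lintegral_const_mul'`. -/
theorem homog {C₀ : ℝ} (r θ : ℝ) (hθ : 0 < θ) (ν : Measure (V × ℝ)) (K : ℝ≥0∞) (U : Fin (dd V) → Set V)
    (h : ∀ g : Fin (dd V) → V → ℂ, (∀ i, Dat C₀ (g i)) → (∀ i ξ, ξ ∉ U i → g i ξ = 0) → (∀ i, l2 (g i) ≤ 1) → ∫⁻ z, ∏ i, sx r (g i) z ^ θ ∂ν ≤ K)
    (g : Fin (dd V) → V → ℂ) (hg : ∀ i, Dat C₀ (g i)) (h0 : ∀ i ξ, ξ ∉ U i → g i ξ = 0) :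
    ∫⁻ z, ∏ i, sx r (g i) z ^ θ ∂ν ≤ K * ∏ i, l2 (g i) ^ (θ / 2) := by
  by_cases hz : ∃ i, l2 (g i) = 0
  · obtain ⟨i, hi⟩ := hz
    have : ∀ z, ∏ i, sx r (g i) z ^ θ = 0 := fun z =>
      Finset.prod_eq_zero (Finset.mem_univ i) (by rw [sx_eq_zero_of_l2 (hg i).meas hi, ENNReal.zero_rpow_of_pos hθ])
    simp [this]
  · push_neg at hz
    -- a i = sqrt (l2 (g i)) as a real number
    set a : Fin (dd V) → ℝ := fun i => ((l2 (g i)) ^ (1 / 2 : ℝ)).toReal with ha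
    have hfin : ∀ i, l2 (g i) ≠ ∞ := fun i => (hg i).l2_lt_top.ne
    have hne : ∀ i, (l2 (g i)) ^ (1 / 2 : ℝ) ≠ 0 := fun i => by
      rw [Ne, ENNReal.rpow_eq_zero_iff]
      push_neg
      exact ⟨fun h => absurd h (hz i), fun h => absurd h (hfin i)⟩
    have hnt : ∀ i, (l2 (g i)) ^ (1 / 2 : ℝ) ≠ ∞ := fun i => ENNReal.rpow_ne_top_of_nonneg (by norm_num) (hfin i)
    have hapos : ∀ i, 0 < a i := fun i => ENNReal.toReal_pos (hne i) (hnt i)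
    have hae : ∀ i, ‖((a i : ℝ) : ℂ)‖ₑ = (l2 (g i)) ^ (1 / 2 : ℝ) := fun i => by
      rw [← ofReal_norm, Complex.norm_real, Real.norm_of_nonneg (hapos i).le, ha]
      exact ENNReal.ofReal_toReal (hnt i)
    have haie : ∀ i, ‖(((a i)⁻¹ : ℝ) : ℂ)‖ₑ = ((l2 (g i)) ^ (1 / 2 : ℝ))⁻¹ := fun i => by
      rw [← ofReal_norm, Complex.norm_real, Real.norm_of_nonneg (inv_nonneg.2 (hapos i).le), ENNReal.ofReal_inv_of_pos (hapos i), ha]
      simp only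
      rw [ENNReal.ofReal_toReal (hnt i)]
    set g' : Fin (dd V) → V → ℂ := fun i ξ => (((a i)⁻¹ : ℝ) : ℂ) * g i ξ with hg'
    have hg'd : ∀ i, Dat C₀ (g' i) := fun i => (hg i).mul (m := fun _ => (((a i)⁻¹ : ℝ) : ℂ)) measurable_const (B := ‖(((a i)⁻¹ : ℝ) : ℂ)‖) (fun _ _ => le_rfl)
    have hg'0 : ∀ i ξ, ξ ∉ U i → g' i ξ = 0 := fun i ξ hξ => by simp [hg', h0 i ξ hξ]
    have hg'1 : ∀ i, l2 (g' i) ≤ 1 := fun i => by
      rw [hg']
      simp only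
      rw [mr_l2_const_mul, haie, ENNReal.inv_rpow, ← ENNReal.rpow_mul, show (1 / 2 : ℝ) * 2 = 1 by norm_num, ENNReal.rpow_one,
        ENNReal.inv_mul_cancel (hz i) (hfin i)]
    have hsx : ∀ i z, sx r (g i) z = (l2 (g i)) ^ (1 / 2 : ℝ) * sx r (g' i) z := fun i z => by
      rw [← hae, ← sx_const_mul]
      congr 1
      funext ξ
      rw [hg']
      simp only
      rw [← mul_assoc, ← Complex.ofReal_mul, mul_inv_cancel₀ (hapos i).ne']
      simp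
    have hpt : ∀ z, ∏ i, sx r (g i) z ^ θ = (∏ i, l2 (g i) ^ (θ / 2)) * ∏ i, sx r (g' i) z ^ θ := fun z => by
      rw [← Finset.prod_mul_distrib]
      refine Finset.prod_congr rfl fun i _ => ?_
      rw [hsx, ENNReal.mul_rpow_of_nonneg _ _ hθ.le, ← ENNReal.rpow_mul]
      congr 2
      ring
    simp_rw [hpt]
    have hPfin : (∏ i, l2 (g i) ^ (θ / 2)) ≠ ∞ := ENNReal.prod_ne_top fun i _ => ENNReal.rpow_ne_top_of_nonneg (by positivity) (hfin i)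
    rw [lintegral_const_mul' _ _ hPfin, mul_comm]
    gcongr
    exact h g' hg'd hg'0 hg'1

/-! ## truncation: from bounded data to `L²` data -/

/-- the truncation `g 1_{|g| ≤ N}` -/
noncomputable def trunc (N : ℕ) (g : V → ℂ) : V → ℂ := {ξ | ‖g ξ‖ ≤ N}.indicator g

/-- **LEAF L-MR-TRUNC.** -/
theorem trunc_dat {C₀ : ℝ} {g : V → ℂ} (hm : Measurable g) (hs : ∀ ξ, g ξ ≠ 0 → ‖ξ‖ ≤ C₀) (N : ℕ) : Dat C₀ (trunc N g) := by
  have hS : MeasurableSet {ξ | ‖g ξ‖ ≤ N} := measurableSet_le hm.norm measurable_const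
  refine ⟨hm.indicator hS, ⟨N, fun ξ => ?_⟩, fun ξ hξ => hs ξ fun h0 => hξ ?_⟩
  · unfold trunc
    by_cases h : ξ ∈ {ξ | ‖g ξ‖ ≤ N}
    · rw [indicator_of_mem h]; exact h
    · rw [indicator_of_notMem h, norm_zero]; exact Nat.cast_nonneg N
  · unfold trunc
    by_cases h : ξ ∈ {ξ | ‖g ξ‖ ≤ N}
    · rw [indicator_of_mem h, h0]
    · rw [indicator_of_notMem h]

/-- **LEAF L-MR-TRUNC.** -/
theorem trunc_l2_le (N : ℕ) (g : V → ℂ) : l2 (trunc N g) ≤ l2 g := by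
  unfold l2 trunc
  refine lintegral_mono fun ξ => ENNReal.rpow_le_rpow ?_ (by norm_num)
  exact enorm_indicator_le_enorm_self _ _

/-- **LEAF L-MR-TRUNC.** -/
theorem trunc_eq_zero (N : ℕ) {g : V → ℂ} {ξ : V} (h : g ξ = 0) : trunc N g ξ = 0 := by
  unfold trunc
  by_cases h' : ξ ∈ {ξ | ‖g ξ‖ ≤ N}
  · rw [indicator_of_mem h', h]
  · rw [indicator_of_notMem h']

/-- **LEAF L-MR-TRUNC.**   Cauchy-Schwarz on the ball (as `Dat.l1_le`; `ENNReal.lintegral_mul_le_Lp_mul_Lq` with the indicator of the ball, or `MemLp.integrable` on the finite measure `volume.restrict (closedBall 0 C₀)`). -/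
theorem integrable_of_l2 {C₀ : ℝ} {g : V → ℂ} (hm : Measurable g) (hs : ∀ ξ, g ξ ≠ 0 → ‖ξ‖ ≤ C₀) (h2 : l2 g < ∞) : Integrable g := by
  rw [← integrableOn_iff_integrable_of_support_subset (s := closedBall (0 : V) C₀) (fun ξ hξ => by
    rw [mem_closedBall, dist_zero_right]; exact hs ξ hξ)]
  have hfin : IsFiniteMeasure (volume.restrict (closedBall (0 : V) C₀)) := ⟨by
    rw [Measure.restrict_apply_univ]; exact (isCompact_closedBall _ _).measure_lt_top⟩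
  have hL : MemLp g 2 (volume.restrict (closedBall (0 : V) C₀)) := by
    refine ⟨hm.aestronglyMeasurable, ?_⟩
    rw [eLpNorm_eq_lintegral_rpow_enorm_toReal (by norm_num) (by norm_num)]
    refine ENNReal.rpow_lt_top_of_nonneg (by norm_num) (ne_of_lt ?_)
    refine lt_of_le_of_lt (lintegral_mono' Measure.restrict_le_self le_rfl) ?_
    simpa [l2] using h2
  exact hL.integrable (by norm_num)

theorem mr_trt_delta {C₀ : ℝ} {g : V → ℂ} (hm : Measurable g) (hs : ∀ ξ, g ξ ≠ 0 → ‖ξ‖ ≤ C₀) (h2 : l2 g < ∞) :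
    Tendsto (fun N : ℕ => ∫⁻ ξ, ‖g ξ - trunc N g ξ‖ₑ) atTop (𝓝 0) := by
  have hi := integrable_of_l2 hm hs h2
  have hS : ∀ N : ℕ, MeasurableSet {ξ | ‖g ξ‖ ≤ N} := fun N => measurableSet_le hm.norm measurable_const
  have := tendsto_lintegral_of_dominated_convergence (μ := (volume : Measure V)) (F := fun (N : ℕ) ξ => ‖g ξ - trunc N g ξ‖ₑ) (f := fun _ => 0)
    (fun ξ => ‖g ξ‖ₑ) (fun N => (hm.sub (hm.indicator (hS N))).enorm) (fun N => Filter.Eventually.of_forall fun ξ => ?_) hi.2.ne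
    (Filter.Eventually.of_forall fun ξ => ?_)
  · simpa using this
  · unfold trunc
    show ‖g ξ - {ξ | ‖g ξ‖ ≤ N}.indicator g ξ‖ₑ ≤ ‖g ξ‖ₑ
    by_cases h : ξ ∈ {ξ | ‖g ξ‖ ≤ N}
    · rw [indicator_of_mem h, sub_self, enorm_zero]; exact zero_le
    · rw [indicator_of_notMem h, sub_zero]
  · obtain ⟨N₀, hN₀⟩ := exists_nat_ge ‖g ξ‖
    refine tendsto_const_nhds.congr' ?_
    filter_upwards [eventually_ge_atTop N₀] with N hN
    have h : ξ ∈ {ξ | ‖g ξ‖ ≤ N} := hN₀.trans (by exact_mod_cast hN)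
    unfold trunc
    rw [indicator_of_mem h, sub_self, enorm_zero]

theorem mr_ext_sub {g g' : V → ℂ} (hg : Integrable g) (hg' : Integrable g') (y : V × ℝ) : ext g y - ext g' y = ext (fun ξ => g ξ - g' ξ) y := by
  unfold ext
  rw [← integral_sub (mr_int_ch hg y) (mr_int_ch hg' y)]
  congr 1
  funext ξ
  ring

theorem mr_sx_le_add {g g' : V → ℂ} (hg : Integrable g) (hg' : Integrable g') (r : ℝ) (z : V × ℝ) :
    sx r g z ≤ sx r g' z + ∫⁻ ξ, ‖g ξ - g' ξ‖ₑ := by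
  unfold sx
  refine iSup₂_le fun w hw => ?_
  have e : ext g (z + w) = ext g' (z + w) + ext (fun ξ => g ξ - g' ξ) (z + w) := by rw [← mr_ext_sub hg hg']; ring
  rw [e]
  refine (enorm_add_le _ _).trans (add_le_add ?_ (norm_ext_le _ _))
  exact le_iSup₂_of_le (f := fun (w : V × ℝ) (_ : w ∈ closedBall (0 : V × ℝ) r) => ‖ext g' (z + w)‖ₑ) w hw le_rfl

/-- **LEAF L-MR-TRT: uniform convergence of the extensions of the truncations.**
PLAN.  `δ_N = ∫⁻ ‖g ξ - trunc N g ξ‖ₑ → 0` (`tendsto_lintegral_of_dominated_convergence` with the bound `‖g‖ₑ`, `integrable_of_l2`; pointwise: `trunc N g ξ = g ξ` as soon as `‖g ξ‖ ≤ N`).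
`ext g y - ext (trunc N g) y = ext (g - trunc N g) y` (`integral_sub`), `norm_ext_le`:  `sx r g z ≤ sx r (trunc N g) z + δ_N` and `sx r (trunc N g) z ≤ sx r g z + δ_N` (`iSup₂_le`, `enorm_add_le`/`enorm_sub_le`, `le_iSup₂_of_le`).
Squeeze: `tendsto_of_tendsto_of_tendsto_of_le_of_le` between `sx r g z - δ_N` (`tsub_le_iff_right`; `ENNReal.Tendsto.sub`) and `sx r g z + δ_N`;  `sx r g z < ∞` (`sx_le`). -/
theorem sx_trunc_tendsto {C₀ : ℝ} {g : V → ℂ} (hm : Measurable g) (hs : ∀ ξ, g ξ ≠ 0 → ‖ξ‖ ≤ C₀) (h2 : l2 g < ∞) (r : ℝ) (z : V × ℝ) :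
    Tendsto (fun N => sx r (trunc N g) z) atTop (𝓝 (sx r g z)) := by
  have hi := integrable_of_l2 hm hs h2
  have hiN : ∀ N, Integrable (trunc N g) := fun N => (trunc_dat hm hs N).integrable
  have hδ := mr_trt_delta hm hs h2
  have hfin : sx r g z ≠ ∞ := ((sx_le r g z).trans_lt hi.2).ne
  have hlow : Tendsto (fun N : ℕ => sx r g z - ∫⁻ ξ, ‖g ξ - trunc N g ξ‖ₑ) atTop (𝓝 (sx r g z)) := by
    have := ENNReal.Tendsto.sub (tendsto_const_nhds (x := sx r g z) (f := (atTop : Filter ℕ))) hδ (Or.inl hfin)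
    simpa using this
  have hup : Tendsto (fun N : ℕ => sx r g z + ∫⁻ ξ, ‖g ξ - trunc N g ξ‖ₑ) atTop (𝓝 (sx r g z)) := by
    have := (tendsto_const_nhds (x := sx r g z) (f := (atTop : Filter ℕ))).add hδ
    simpa using this
  refine tendsto_of_tendsto_of_tendsto_of_le_of_le hlow hup (fun N => ?_) (fun N => ?_)
  · exact tsub_le_iff_right.2 (mr_sx_le_add hi (hiN N) r z)
  · have := mr_sx_le_add (hiN N) hi r z
    refine this.trans (le_of_eq ?_)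
    congr 1
    refine lintegral_congr fun ξ => ?_
    rw [← enorm_neg, neg_sub]

/-- **LEAF L-MR-FATOU: an estimate for bounded data extends to `L²` data.**
PLAN.  `F_N z = ∏_i sx r (trunc N (g i)) z ^ θ → F z` pointwise (`sx_trunc_tendsto`, `ENNReal.continuous_rpow_const.tendsto`, `ENNReal.tendsto_finset_prod_of_ne_top`; finiteness: `sx_le`, `integrable_of_l2`, `ENNReal.rpow_ne_top_of_nonneg`).
`∫⁻ F = ∫⁻ liminf F_N ≤ liminf ∫⁻ F_N` (`Tendsto.liminf_eq`, `lintegral_liminf_le`; measurability `sx_measurable`, `Dat.integrable`), every `∫⁻ F_N ≤ K ∏ l2 (trunc N (g i))^κ ≤ K ∏ l2 (g i)^κ` (`trunc_l2_le`; `liminf_le_of_le`/`Filter.liminf_le_of_frequently_le'` or `le_of_tendsto'`-style). -/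
theorem limit_l2 {C₀ : ℝ} (r θ κ : ℝ) (hθ : 0 ≤ θ) (hκ : 0 ≤ κ) (ν : Measure (V × ℝ)) (K : ℝ≥0∞) (U : Fin (dd V) → Set V)
    (h : ∀ g : Fin (dd V) → V → ℂ, (∀ i, Dat C₀ (g i)) → (∀ i ξ, ξ ∉ U i → g i ξ = 0) → ∫⁻ z, ∏ i, sx r (g i) z ^ θ ∂ν ≤ K * ∏ i, l2 (g i) ^ κ)
    (g : Fin (dd V) → V → ℂ) (hm : ∀ i, Measurable (g i)) (hs : ∀ i ξ, g i ξ ≠ 0 → ‖ξ‖ ≤ C₀) (h0 : ∀ i ξ, ξ ∉ U i → g i ξ = 0) (h2 : ∀ i, l2 (g i) < ∞) :
    ∫⁻ z, ∏ i, sx r (g i) z ^ θ ∂ν ≤ K * ∏ i, l2 (g i) ^ κ := by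
  have hi : ∀ i, Integrable (g i) := fun i => integrable_of_l2 (hm i) (hs i) (h2 i)
  have hpt : ∀ z, Tendsto (fun N : ℕ => ∏ i, sx r (trunc N (g i)) z ^ θ) atTop (𝓝 (∏ i, sx r (g i) z ^ θ)) := by
    intro z
    refine ENNReal.tendsto_finset_prod_of_ne_top _ (fun i _ => ?_) (fun i _ => ?_)
    · exact (ENNReal.continuous_rpow_const.tendsto _).comp (sx_trunc_tendsto (hm i) (hs i) (h2 i) r z)
    · exact ENNReal.rpow_ne_top_of_nonneg hθ ((sx_le r (g i) z).trans_lt (hi i).2).ne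
  have hmeas : ∀ N : ℕ, Measurable fun z => ∏ i, sx r (trunc N (g i)) z ^ θ := fun N =>
    Finset.measurable_prod _ fun i _ => (sx_measurable r (trunc_dat (hm i) (hs i) N).integrable).pow_const _
  calc ∫⁻ z, ∏ i, sx r (g i) z ^ θ ∂ν = ∫⁻ z, liminf (fun N : ℕ => ∏ i, sx r (trunc N (g i)) z ^ θ) atTop ∂ν := by
        refine lintegral_congr fun z => ?_
        rw [(hpt z).liminf_eq]
    _ ≤ liminf (fun N : ℕ => ∫⁻ z, ∏ i, sx r (trunc N (g i)) z ^ θ ∂ν) atTop := lintegral_liminf_le hmeas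
    _ ≤ K * ∏ i, l2 (g i) ^ κ := by
        refine liminf_le_of_le (by isBoundedDefault) fun b hb => ?_
        obtain ⟨N, hN⟩ := hb.exists
        refine hN.trans ((h (fun i => trunc N (g i)) (fun i => trunc_dat (hm i) (hs i) N) (fun i ξ hξ => trunc_eq_zero N (h0 i ξ hξ))).trans ?_)
        gcongr with i _
        exact trunc_l2_le N (g i)

/-! ## one ball -/

/-- **LEAF L-MR-ONE: one ball.**   `sparse` with `W = {a}`, `S = 100 R²`:  `R^k S^(-k/2) = (1/100)^(k/2) ≤ 1/10` (`k ≥ 1`), `e^{-R²/2} ≤ e^{-1/2} ≤ 0.61` (`Real.exp_one_gt_d9`/`Real.add_one_le_exp`: `e^{1/2} ≥ 3/2`, so `≤ 2/3`), `R/S ≤ 1/100`. -/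
theorem one_ball (hk : 1 ≤ Module.finrank ℝ V) (C₀ ε r : ℝ) (hC₀ : 0 ≤ C₀) (hε : 0 < ε) (hr : 0 ≤ r) :
    ∃ X : ℝ, ∃ M : ℕ, 0 ≤ X ∧ ∀ (Q R : ℝ) (a : V × ℝ) (U : Fin (dd V) → Set V) (g : Fin (dd V) → V → ℂ), 1 ≤ Q → 1 ≤ R →
      Tr Q U → (∀ i, U i ⊆ closedBall 0 C₀) → (∀ i, Dat C₀ (g i)) → (∀ i ξ, ξ ∉ U i → g i ξ = 0) →
      ∫⁻ z in closedBall a R, ∏ i, sx r (g i) z ^ (2 / (Module.finrank ℝ V : ℝ)) ≤
        ENNReal.ofReal (X * Q ^ M * R ^ ε) * ∏ i, l2 (g i) ^ (1 / (Module.finrank ℝ V : ℝ)) := by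
  obtain ⟨X, M, hX, h⟩ := sparse (V := V) hk C₀ ε r hC₀ hε hr
  refine ⟨X, M, hX, fun Q R a U g hQ hR hT hU hg h0 => ?_⟩
  have hR0 : 0 < R := by linarith
  have hkR : (1 : ℝ) ≤ (Module.finrank ℝ V : ℝ) := by exact_mod_cast hk
  have := h Q R (100 * R ^ 2) {a} U g hQ hR (by positivity) (fun b hb b' hb' hne => by
    rw [Finset.mem_singleton] at hb hb'
    exact absurd (hb.trans hb'.symm) hne) ?_ hT hU hg h0
  · simpa using this
  · rw [Finset.card_singleton, Nat.cast_one, one_mul]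
    have h1 : R ^ Module.finrank ℝ V * (100 * R ^ 2) ^ (-((Module.finrank ℝ V : ℝ) / 2)) ≤ 1 / 10 := by
      have e1 : (100 * R ^ 2) ^ (-((Module.finrank ℝ V : ℝ) / 2)) = (10 : ℝ) ^ (-(Module.finrank ℝ V : ℝ)) * (R ^ Module.finrank ℝ V)⁻¹ := by
        have : (100 * R ^ 2 : ℝ) = (10 * R) ^ (2 : ℝ) := by rw [Real.rpow_two]; ring
        rw [this, ← Real.rpow_mul (by positivity), show (2 : ℝ) * -((Module.finrank ℝ V : ℝ) / 2) = -(Module.finrank ℝ V : ℝ) by ring,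
          Real.mul_rpow (by norm_num) hR0.le, Real.rpow_neg hR0.le, Real.rpow_natCast]
      rw [e1]
      have e2 : R ^ Module.finrank ℝ V * ((10 : ℝ) ^ (-(Module.finrank ℝ V : ℝ)) * (R ^ Module.finrank ℝ V)⁻¹) = (10 : ℝ) ^ (-(Module.finrank ℝ V : ℝ)) := by
        have : R ^ Module.finrank ℝ V ≠ 0 := by positivity
        field_simp
      rw [e2]
      calc (10 : ℝ) ^ (-(Module.finrank ℝ V : ℝ)) ≤ (10 : ℝ) ^ (-1 : ℝ) := Real.rpow_le_rpow_of_exponent_le (by norm_num) (by linarith)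
        _ = 1 / 10 := by rw [Real.rpow_neg_one]; norm_num
    have h2 : Real.exp (-(R ^ 2 / 2)) ≤ 2 / 3 := by
      have h3 : Real.exp (-(R ^ 2 / 2)) ≤ Real.exp (-(1 / 2)) := Real.exp_le_exp.2 (by nlinarith)
      have h4 : (3 / 2 : ℝ) ≤ Real.exp (1 / 2) := by
        have := Real.add_one_le_exp (1 / 2 : ℝ)
        linarith
      have h5 : Real.exp (-(1 / 2)) ≤ 2 / 3 := by
        rw [Real.exp_neg]
        calc (Real.exp (1 / 2))⁻¹ ≤ (3 / 2 : ℝ)⁻¹ := inv_anti₀ (by norm_num) h4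
          _ = 2 / 3 := by norm_num
      exact h3.trans h5
    have h3 : R / (100 * R ^ 2) ≤ 1 / 100 := by
      rw [div_le_div_iff₀ (by positivity) (by norm_num)]
      nlinarith
    linarith

/-! ## the exits -/

/-- **EXIT 1: LOSSLESS MULTILINEAR RESTRICTION ABOVE THE ENDPOINT** (replaces Tao 2020, Theorem 1.7 for the paraboloid). -/
theorem mrl (k : ℕ) (hk : 1 ≤ k) (hV : Module.finrank ℝ V = k) (C₀ r p : ℝ) (hC₀ : 0 ≤ C₀) (hr : 0 ≤ r) (hp : 2 * ((k : ℝ) + 1) / k < p) :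
    ∃ C : ℝ, ∃ M₀ : ℕ, 0 ≤ C ∧ ∀ (Q : ℝ) (g : Fin (k + 1) → V → ℂ), 1 ≤ Q →
      (∀ ξ : Fin (k + 1) → V, (∀ i, g i (ξ i) ≠ 0) → ∀ t : Fin (k + 1) → ℝ, ∑ i, |t i| ≤ Q * (‖∑ i, t i • ξ i‖ + |∑ i, t i|)) →
      (∀ i, Measurable (g i)) → (∀ i ξ, g i ξ ≠ 0 → ‖ξ‖ ≤ C₀) → (∀ i, l2 (g i) < ∞) →
      ∫⁻ z, ∏ i, sx r (g i) z ^ (p / ((k : ℝ) + 1)) ≤ ENNReal.ofReal (C * Q ^ M₀) * ∏ i, l2 (g i) ^ (p / ((k : ℝ) + 1) / 2) := by
  subst hV
  have hdd : ((dd V : ℕ) : ℝ) = (Module.finrank ℝ V : ℝ) + 1 := by unfold dd; push_cast; ring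
  have hkR : (0 : ℝ) < (Module.finrank ℝ V : ℝ) := by exact_mod_cast hk
  have hp' : pk V < p := by unfold pk; rw [hdd]; exact hp
  have hp0 : 0 < p := lt_trans (by positivity) hp
  obtain ⟨C, M₀, hC, h⟩ := strong (V := V) hk C₀ r p hC₀ hr hp'
  refine ⟨C, M₀, hC, fun Q g hQ hT hm hs h2 => ?_⟩
  have hθ : 0 < p / ((Module.finrank ℝ V : ℝ) + 1) := by positivity
  have hU : ∀ i : Fin (dd V), {ξ | g i ξ ≠ 0} ⊆ closedBall (0 : V) C₀ := fun i ξ hξ => by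
    rw [mem_closedBall, dist_zero_right]; exact hs i ξ hξ
  have hTr : Tr Q (fun i : Fin (dd V) => {ξ | g i ξ ≠ 0}) := fun ξ hξ t => hT ξ hξ t
  refine limit_l2 (C₀ := C₀) r (p / ((Module.finrank ℝ V : ℝ) + 1)) (p / ((Module.finrank ℝ V : ℝ) + 1) / 2) hθ.le (by positivity) volume _
    (fun i : Fin (dd V) => {ξ | g i ξ ≠ 0}) (fun g' hg' h0' => ?_) g hm hs (fun i ξ hξ => by simpa using hξ) h2
  refine homog (C₀ := C₀) r _ hθ volume _ (fun i : Fin (dd V) => {ξ | g i ξ ≠ 0}) (fun g'' hg'' h0'' h1'' => ?_) g' hg' h0'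
  have := h Q _ g'' hQ hTr hU hg'' h0'' h1''
  rwa [hdd] at this

/-- **EXIT 2: MULTILINEAR RESTRICTION ON A BALL AT THE ENDPOINT EXPONENT**, loss `R^ε` (Bennett-Carbery-Tao), polynomial in `Q`. -/
theorem mrloc (k : ℕ) (hk : 1 ≤ k) (hV : Module.finrank ℝ V = k) (C₀ r ε : ℝ) (hC₀ : 0 ≤ C₀) (hr : 0 ≤ r) (hε : 0 < ε) :
    ∃ C : ℝ, ∃ M₀ : ℕ, 0 ≤ C ∧ ∀ (Q R : ℝ) (a : V × ℝ) (g : Fin (k + 1) → V → ℂ), 1 ≤ Q → 1 ≤ R →
      (∀ ξ : Fin (k + 1) → V, (∀ i, g i (ξ i) ≠ 0) → ∀ t : Fin (k + 1) → ℝ, ∑ i, |t i| ≤ Q * (‖∑ i, t i • ξ i‖ + |∑ i, t i|)) →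
      (∀ i, Measurable (g i)) → (∀ i ξ, g i ξ ≠ 0 → ‖ξ‖ ≤ C₀) → (∀ i, l2 (g i) < ∞) →
      ∫⁻ z in closedBall a R, ∏ i, sx r (g i) z ^ (2 / (k : ℝ)) ≤ ENNReal.ofReal (C * Q ^ M₀ * R ^ ε) * ∏ i, l2 (g i) ^ (1 / (k : ℝ)) := by
  subst hV
  have hkR : (0 : ℝ) < (Module.finrank ℝ V : ℝ) := by exact_mod_cast hk
  obtain ⟨C, M₀, hC, h⟩ := one_ball (V := V) hk C₀ ε r hC₀ hε hr
  refine ⟨C, M₀, hC, fun Q R a g hQ hR hT hm hs h2 => ?_⟩
  have hU : ∀ i : Fin (dd V), {ξ | g i ξ ≠ 0} ⊆ closedBall (0 : V) C₀ := fun i ξ hξ => by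
    rw [mem_closedBall, dist_zero_right]; exact hs i ξ hξ
  have hTr : Tr Q (fun i : Fin (dd V) => {ξ | g i ξ ≠ 0}) := fun ξ hξ t => hT ξ hξ t
  exact limit_l2 (C₀ := C₀) r (2 / (Module.finrank ℝ V : ℝ)) (1 / (Module.finrank ℝ V : ℝ)) (by positivity) (by positivity) (volume.restrict (closedBall a R)) _ (fun i : Fin (dd V) => {ξ | g i ξ ≠ 0})
    (fun g' hg' h0' => h Q R a _ g' hQ hR hTr hU hg' h0') g hm hs (fun i ξ hξ => by simpa using hξ) h2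

end Claimed.Agent.MR
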